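import Vale.Agent.P237.Petty.Hull.FiveJohn

/-!
# P237: Petty's inequality in dimension five

A body in John position of volume above an explicit threshold has a contact direction in which the
step holds by `exists_contact_volume`. Below it every contact profile has height less than `188/125`,
one of them has a nonpositive John term, and for that one the hull homotopy gives the step.
-/

namespace Vale.Agent.P237.Petty.Hull.Five

open Real Set MeasureTheory Module Filter Topology
open AllN (hslice vroot glue)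
open Four (circTail circTail_zero circ_three kappa_four tendsto_integral_add_pow)
open scoped RealInnerProductSpace

universe u

set_option linter.unusedSectionVars false

/-- The inequality of one step at a profile, with its equality case. -/
def StepAt (p : ℕ) (f : ℝ → ℝ) : Prop :=
  Petty.circ p ^ (p + 1) * (∫ t in (-1)..1, f t ^ (p + 1)) ^ p ≤
      (∫ t in (-1)..1, f t ^ p) ^ (p + 1) * Petty.circ (p + 1) ^ p ∧
    (Petty.circ p ^ (p + 1) * (∫ t in (-1)..1, f t ^ (p + 1)) ^ p =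
      (∫ t in (-1)..1, f t ^ p) ^ (p + 1) * Petty.circ (p + 1) ^ p →
      ∫ t in (-1)..1, f t ^ (p + 1) = Petty.circ (p + 1))

/-- In every body in John position some contact profile satisfies the step. -/
def ContactStep (p : ℕ) : Prop :=
  ∀ {E : Type u} [NormedAddCommGroup E] [InnerProductSpace ℝ E] [FiniteDimensional ℝ E]
    [MeasurableSpace E] [BorelSpace E], finrank ℝ E = p + 2 → ∀ {K : Set E}, Body K → -K = K →
    Metric.closedBall 0 1 ⊆ K → ∀ (s : Finset E) (c : E → ℝ),
    (∀ v ∈ s, 0 ≤ c v ∧ ‖v‖ = 1 ∧ supp K v = 1) → (∑ v ∈ s, c v = finrank ℝ E) →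
    (∀ x : E, ∑ v ∈ s, c v * ⟪v, x⟫ ^ 2 = ‖x‖ ^ 2) →
    ∃ v ∈ s, StepAt p (fun t => vroot (hslice v K t) / kappa (p + 1) ^ ((p + 1 : ℝ)⁻¹))

theorem stepHolds_of_contact {p : ℕ} (hpick : ContactStep.{u} p) : StepHolds.{u} p := by
  intro E _ _ _ _ _ hfin R hR H K hK hs hfix
  have hn : 2 ≤ finrank ℝ E := by omega
  have : Nontrivial E := Module.nontrivial_of_finrank_eq_succ hfin
  obtain ⟨T, hball, s, c, hc, hsum, hid⟩ := exists_john_position hK hs
  set K' := T '' K with hK'def
  have hK' : Body K' := hK.image T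
  have hs' : -K' = K' := by
    rw [hK'def, ← Set.image_neg_eq_neg, image_image]
    conv_rhs => rw [← hs, ← Set.image_neg_eq_neg, image_image]
    simp
  have hrat : ratio K' = ratio K := ratio_image T hK
  have hfix' : ratio K' ≤ ratio (projBody K') := by
    rw [hK'def, ratio_projBody_image hK T]; rw [hrat]; exact hfix
  set f := fun v t => vroot (hslice v K' t) / kappa (p + 1) ^ ((p + 1 : ℝ)⁻¹) with hf
  have hprof := fun v (hv : v ∈ s) => contact_profile p hfin hK' hs' hball (hc v hv).2.1 (hc v hv).2.2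
  have hκ := kappa_pos (p + 1)
  have hV : 0 < volume.real K' := hK'.volume_pos
  have hc0 := circ_pos p
  have hck1 := circ_pos (p + 1)
  obtain ⟨v, hv, hl1, hl2⟩ := hpick hfin hK' hs' hball s c hc hsum hid
  obtain ⟨hne, -, -, -, -, -, hvol⟩ := hprof v hv
  have hsupp := (hc v hv).2.2
  have hmain := dir_chain hfin hR.le (hc v hv).2.1 (H v (hc v hv).2.1) hK' hs' hfix'
  have hdp : dirProfile p K' v = f v := by
    funext t; simp only [dirProfile, hsupp, one_mul, hf]
  rw [hdp, hrat] at hmain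
  set A := ∫ t in (-1 : ℝ)..1, f v t ^ p with hA
  set B := ∫ t in (-1 : ℝ)..1, f v t ^ (p + 1) with hB
  change volume.real K' = kappa (p + 1) * B at hvol
  have hBpos : 0 < B := pos_of_mul_pos_right (hvol ▸ hV) hκ.le
  have hBk : 0 < B ^ p := pow_pos hBpos p
  have hfirst : stepValue p R ≤ ratio K := by
    rw [stepValue, div_le_iff₀ (pow_pos hck1 p)]
    refine le_of_mul_le_mul_right ?_ hBk
    calc R * circ p ^ (p + 1) * B ^ p = R * (circ p ^ (p + 1) * B ^ p) := by ring
      _ ≤ R * (A ^ (p + 1) * circ (p + 1) ^ p) := mul_le_mul_of_nonneg_left hl1 hR.le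
      _ = R * A ^ (p + 1) * circ (p + 1) ^ p := by ring
      _ ≤ ratio K * B ^ p * circ (p + 1) ^ p := mul_le_mul_of_nonneg_right hmain (by positivity)
      _ = ratio K * circ (p + 1) ^ p * B ^ p := by ring
  refine ⟨hfirst, fun hle => ⟨T, hK', hball, ?_⟩⟩
  rw [hvol]
  congr 1
  refine hl2 (le_antisymm hl1 ?_)
  refine le_of_mul_le_mul_left ?_ hR
  have h2 : ratio K * circ (p + 1) ^ p ≤ R * circ p ^ (p + 1) := by
    rwa [stepValue, le_div_iff₀ (pow_pos hck1 p)] at hle
  calc R * (A ^ (p + 1) * circ (p + 1) ^ p) = R * A ^ (p + 1) * circ (p + 1) ^ p := by ring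
    _ ≤ ratio K * B ^ p * circ (p + 1) ^ p := mul_le_mul_of_nonneg_right hmain (by positivity)
    _ = ratio K * circ (p + 1) ^ p * B ^ p := by ring
    _ ≤ R * circ p ^ (p + 1) * B ^ p := mul_le_mul_of_nonneg_right h2 hBk.le
    _ = R * (circ p ^ (p + 1) * B ^ p) := by ring

theorem circ_four : Petty.circ 4 = 16 / 15 := by
  rw [Petty.circ, intervalIntegral.integral_congr (g := fun t : ℝ => 1 - 2 * t ^ 2 + t ^ 4)
    fun t ht => ?_]
  · rw [intervalIntegral.integral_eq_sub_of_hasDerivAt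
      (f := fun t => t - 2 * t ^ 3 / 3 + t ^ 5 / 5) (fun t _ => by
        have i : HasDerivAt (fun z : ℝ => z) 1 t := hasDerivAt_id t
        refine ((i.fun_sub (((i.fun_pow 3).const_mul (2 : ℝ)).div_const 3)).fun_add
          ((i.fun_pow 5).div_const 5)).congr_deriv ?_
        push_cast
        ring) (Continuous.intervalIntegrable (by fun_prop) _ _)]
    norm_num
  · rw [uIcc_of_le (by norm_num : (-1 : ℝ) ≤ 1)] at ht
    simp only
    rw [show √(1 - t ^ 2) ^ 4 = (√(1 - t ^ 2) ^ 2) ^ 2 by ring,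
      Real.sq_sqrt (by nlinarith [ht.1, ht.2])]
    ring

/-- The threshold. -/
theorem threshold :
    (Petty.circ 3 ^ 4 / Petty.circ 4 ^ 3) ^ 5 * 5 < (188 / 125) ^ 4 * π ^ 2 := by
  rw [circ_three, circ_four, show ((3 * π / 8) ^ 4 / (16 / 15) ^ 3) ^ 5 * 5 =
    (3 / 8 : ℝ) ^ 20 / (16 / 15) ^ 15 * 5 * π ^ 18 * π ^ 2 by ring]
  refine mul_lt_mul_of_pos_right ?_ (by positivity)
  calc (3 / 8 : ℝ) ^ 20 / (16 / 15) ^ 15 * 5 * π ^ 18
      ≤ (3 / 8) ^ 20 / (16 / 15) ^ 15 * 5 * 3.141593 ^ 18 := by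
        gcongr
        exact Real.pi_lt_d6.le
    _ < _ := by norm_num

/-- The inequality for a profile on and above the circle. -/
theorem gap_ge {f : ℝ → ℝ} (hc : ConcaveOn ℝ (Icc (-1) 1) f) (he : ∀ t, f (-t) = f t)
    (hge : ∀ t ∈ Icc (-1 : ℝ) 1, √(1 - t ^ 2) ≤ f t) (h0 : f 0 < 188 / 125) :
    1 - 3751 / 2000 * (8 / 15) ≤ gap (∫ u in (0 : ℝ)..1, f u ^ 3) (∫ u in (0 : ℝ)..1, f u ^ 4)
      (∫ u in (0 : ℝ)..1, densQ f u) := by
  have hmono := antitoneOn_of_concave_even hc he
  have hi : ∀ j : ℕ, IntervalIntegrable (fun u => f u ^ j) volume 0 1 := fun j => by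
    refine AntitoneOn.intervalIntegrable ?_
    rw [uIcc_of_le (zero_le_one' ℝ)]
    exact fun a ha b hb hab => pow_le_pow_left₀
      ((Real.sqrt_nonneg _).trans (hge b ⟨by linarith [hb.1], hb.2⟩)) (hmono ha hb hab) j
  have h3 := tendsto_integral_add_pow (f := f) (w := fun _ => 1) 3 continuousOn_const hi
  have h4 := tendsto_integral_add_pow (f := f) (w := fun _ => 1) 4 continuousOn_const hi
  have q6 := tendsto_integral_add_pow (f := f) (w := fun u => 1 / 6 + 3 / 40 * u ^ 2) 6 (by fun_prop) hi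
  have q4 := tendsto_integral_add_pow (f := f) (w := fun u => 3 / 20 * u ^ 4 - u ^ 2) 4 (by fun_prop) hi
  have q8 := tendsto_integral_add_pow (f := f) (w := fun _ => 3 / 160) 8 continuousOn_const hi
  simp only [one_mul] at h3 h4
  have hQ : ∀ {g : ℝ → ℝ}, (∀ j : ℕ, IntervalIntegrable (fun u => g u ^ j) volume 0 1) →
      (∫ u in (0 : ℝ)..1, densQ g u) =
        (∫ u in (0 : ℝ)..1, (1 / 6 + 3 / 40 * u ^ 2) * g u ^ 6)
          + (∫ u in (0 : ℝ)..1, (3 / 20 * u ^ 4 - u ^ 2) * g u ^ 4)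
          - ∫ u in (0 : ℝ)..1, 3 / 160 * g u ^ 8 := fun {g} hg => by
    have a6 := (hg 6).continuousOn_mul (g := fun u => 1 / 6 + 3 / 40 * u ^ 2) (by fun_prop)
    have a4 := (hg 4).continuousOn_mul (g := fun u => 3 / 20 * u ^ 4 - u ^ 2) (by fun_prop)
    rw [← intervalIntegral.integral_add a6 a4,
      ← intervalIntegral.integral_sub (a6.add a4) ((hg 8).const_mul _)]
    refine intervalIntegral.integral_congr fun u _ => ?_
    simp only [densQ_eq]
    ring
  have hev : ∀ᶠ e in 𝓝[>] (0 : ℝ), Lifted (fun u => f u + e) := by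
    filter_upwards [Ioo_mem_nhdsGT (sub_pos.2 h0)] with e he'
    exact ⟨⟨hc.add_const e, fun t => by simp only [he], fun u hu => by linarith [hge u hu, he'.1]⟩,
      by linarith [he'.2]⟩
  have ht : Tendsto (fun e : ℝ => ∫ u in (0 : ℝ)..1, densQ (fun u => f u + e) u) (𝓝[>] 0)
      (𝓝 (∫ u in (0 : ℝ)..1, densQ f u)) := by
    rw [hQ hi]
    refine ((q6.add q4).sub q8).congr' ?_
    filter_upwards [hev] with e hL
    exact (hQ fun j => hL.base.intervalIntegrable j).symm
  refine ge_of_tendsto ((continuous_gap.tendsto _).comp (h3.prodMk_nhds (h4.prodMk_nhds ht))) ?_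
  filter_upwards [hev] with e hL
  exact hL.gap_ge

/-- The step at a profile of bounded height with a nonpositive John term. -/
theorem stepAt_of_john {f : ℝ → ℝ} (hc : ConcaveOn ℝ (Icc (-1) 1) f) (he : ∀ t, f (-t) = f t)
    (hge : ∀ t ∈ Icc (-1 : ℝ) 1, √(1 - t ^ 2) ≤ f t)
    (hint : ∀ j : ℕ, IntervalIntegrable (fun t => f t ^ j) volume (-1) 1)
    (h0 : f 0 < 188 / 125) (hM : ∫ u in (0 : ℝ)..1, densQ f u ≤ 0) : StepAt 3 f := by
  have e3 := integral_even (g := fun t => f t ^ 3) (fun t => by simp only [he]) (hint 3)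
  have e4 := integral_even (g := fun t => f t ^ 4) (fun t => by simp only [he]) (hint 4)
  simp only [StepAt, show 3 + 1 = 4 from rfl, circ_three, circ_four, e3, e4]
  have hg := gap_ge hc he hge h0
  set a := ∫ u in (0 : ℝ)..1, f u ^ 3 with hadef
  set b := ∫ u in (0 : ℝ)..1, f u ^ 4 with hbdef
  have hsub : ∀ j : ℕ, IntervalIntegrable (fun u => f u ^ j) volume 0 1 := fun j =>
    (hint j).mono_set (by
      rw [uIcc_of_le (by norm_num : (-1 : ℝ) ≤ 1), uIcc_of_le (zero_le_one' ℝ)]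
      exact Icc_subset_Icc (by norm_num) le_rfl)
  have hb0 : 8 / 15 ≤ b := by
    have e : ∫ u in (0 : ℝ)..1, √(1 - u ^ 2) ^ 4 = 8 / 15 := by
      have := circ_four
      rw [Petty.circ, integral_even (g := fun t : ℝ => √(1 - t ^ 2) ^ 4)
        (fun t => by simp only [neg_sq]) (Continuous.intervalIntegrable (by fun_prop) _ _)] at this
      linarith
    rw [← e]
    refine intervalIntegral.integral_mono_on zero_le_one
      (Continuous.intervalIntegrable (by fun_prop) _ _) (hsub 4) fun u hu =>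
      pow_le_pow_left₀ (Real.sqrt_nonneg _) (hge u ⟨by linarith [hu.1], hu.2⟩) 4
  have ha0 : 0 ≤ a := intervalIntegral.integral_nonneg zero_le_one fun u hu =>
    pow_nonneg ((Real.sqrt_nonneg _).trans (hge u ⟨by linarith [hu.1], hu.2⟩)) _
  rw [gap] at hg
  set X := (a / baseA) ^ (4 / 3 : ℝ) with hX
  have hX3 : X ^ 3 = (a / baseA) ^ 4 := by
    rw [hX, ← Real.rpow_natCast, ← Real.rpow_natCast _ 4,
      ← Real.rpow_mul (div_nonneg ha0 baseA_pos.le)]
    norm_num
  have key : b / (8 / 15) + 1 / 2000 * (b - 8 / 15) ≤ X := by linarith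
  have hbc : 0 ≤ b / (8 / 15) := by positivity
  have e1 : (3 * π / 8) ^ 4 * (2 * b) ^ 3 = (2 * baseA) ^ 4 * (16 / 15) ^ 3 * (b / (8 / 15)) ^ 3 := by
    rw [baseA]; ring
  have e2 : (2 * a) ^ 4 * (16 / 15) ^ 3 = (2 * baseA) ^ 4 * (16 / 15) ^ 3 * X ^ 3 := by
    rw [hX3, div_pow]
    have := baseA_pos.ne'
    field_simp
  have hC : 0 < (2 * baseA) ^ 4 * (16 / 15 : ℝ) ^ 3 := by
    have := baseA_pos; positivity
  rw [e1, e2]
  refine ⟨mul_le_mul_of_nonneg_left (pow_le_pow_left₀ hbc (by linarith) 3) hC.le, fun heq => ?_⟩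
  have h1 : b / (8 / 15) = X := (pow_left_inj₀ hbc (by linarith) (by norm_num)).1
    (mul_left_cancel₀ hC.ne' heq)
  linarith

/-- Some contact profile satisfies the step in dimension five. -/
theorem contactStep_three : ContactStep.{u} 3 := by
  intro E _ _ _ _ _ hfin K hK hs hball s c hc hsum hid
  set f := fun v t => vroot (hslice v K t) / kappa (3 + 1) ^ (((3 : ℕ) + 1 : ℝ)⁻¹) with hf
  have hprof := fun v (hv : v ∈ s) => contact_profile 3 hfin hK hs hball (hc v hv).2.1 (hc v hv).2.2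
  set V := volume.real K with hVdef
  have hV : 0 < V := hK.volume_pos
  set G := Petty.circ 3 ^ 4 / Petty.circ 4 ^ 3 with hG
  have hc3 := Petty.circ_pos 3
  have hc4 := Petty.circ_pos 4
  have hκ := kappa_pos (3 + 1)
  by_cases hbig : G ^ 5 < V
  · obtain ⟨v, hv, hle⟩ := exists_contact_volume 3 hfin hK hs hball s c hc hsum hid
    have hG0 : 0 < G := by positivity
    have hroot : G < V ^ (((3 : ℕ) + 2 : ℝ)⁻¹) := by
      rw [Real.lt_rpow_inv_iff_of_pos hG0.le hV.le (by positivity)]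
      norm_num
      exact hbig
    have hB0 : 0 < ∫ t in (-1)..1, f v t ^ 4 :=
      pos_of_mul_pos_right (show 0 < kappa (3 + 1) * ∫ t in (-1)..1, f v t ^ 4 from
        (hprof v hv).2.2.2.2.2.2 ▸ hV) hκ.le
    have hlt : Petty.circ 3 ^ 4 * (∫ t in (-1)..1, f v t ^ 4) ^ 3 <
        (∫ t in (-1)..1, f v t ^ 3) ^ 4 * Petty.circ 4 ^ 3 := by
      calc _ = G * (∫ t in (-1)..1, f v t ^ 4) ^ 3 * Petty.circ 4 ^ 3 := by
            rw [hG]; field_simp
        _ < V ^ (((3 : ℕ) + 2 : ℝ)⁻¹) * (∫ t in (-1)..1, f v t ^ 4) ^ 3 * Petty.circ 4 ^ 3 := by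
            gcongr
        _ ≤ _ := mul_le_mul_of_nonneg_right hle (pow_nonneg hc4.le _)
    exact ⟨v, hv, hlt.le, fun h => absurd h hlt.ne⟩
  rw [not_lt] at hbig
  have hheight : ∀ v ∈ s, f v 0 < 188 / 125 := by
    intro v hv
    obtain ⟨-, hconc, heven, hge, hint, -, hvol⟩ := hprof v hv
    have e4 := integral_even (g := fun t => f v t ^ 4) (fun t => by simp only [hf, heven]) (hint 4)
    have hf0 : 0 ≤ f v 0 := (Real.sqrt_nonneg _).trans (hge 0 (by norm_num))
    have hlow : f v 0 ^ 4 / 5 ≤ ∫ t in (0 : ℝ)..1, f v t ^ 4 := by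
      have e : ∫ t in (0 : ℝ)..1, ((1 - t) * f v 0) ^ 4 = f v 0 ^ 4 / 5 := by
        simp only [mul_pow, intervalIntegral.integral_mul_const]
        rw [intervalIntegral.integral_comp_sub_left (fun z : ℝ => z ^ 4) 1, integral_pow]
        norm_num
        ring
      rw [← e]
      refine intervalIntegral.integral_mono_on zero_le_one
        (Continuous.intervalIntegrable (by fun_prop) _ _) ((hint 4).mono_set (by
          rw [uIcc_of_le (by norm_num : (-1 : ℝ) ≤ 1), uIcc_of_le (zero_le_one' ℝ)]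
          exact Icc_subset_Icc (by norm_num) le_rfl)) fun t ht => ?_
      refine pow_le_pow_left₀ (mul_nonneg (by linarith [ht.2]) hf0) ?_ 4
      have h := hconc.2 (show (0 : ℝ) ∈ Icc (-1) 1 by norm_num) (show (1 : ℝ) ∈ Icc (-1) 1 by norm_num)
        (sub_nonneg.2 ht.2) ht.1 (by ring)
      simp only [smul_eq_mul, mul_zero, mul_one, zero_add] at h
      have h1 : 0 ≤ t * f v 1 :=
        mul_nonneg ht.1 ((Real.sqrt_nonneg _).trans (hge 1 (by norm_num)))
      exact le_trans (by simp only [hf] at h1 ⊢; linarith) h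
    have hV' : V = π ^ 2 / 2 * (2 * ∫ t in (0 : ℝ)..1, f v t ^ 4) := by
      rw [← e4, ← kappa_four]
      exact hvol
    have h1 := mul_le_mul_of_nonneg_left hlow (sq_nonneg π)
    have h2 := threshold
    rw [← hG] at h2
    have h3 : f v 0 ^ 4 < (188 / 125) ^ 4 := by
      refine lt_of_mul_lt_mul_left (a := π ^ 2) ?_ (sq_nonneg π)
      linarith
    exact (pow_lt_pow_iff_left₀ hf0 (by norm_num) (by norm_num)).1 h3
  obtain ⟨v, hv, hjohn⟩ := exists_contact_john hfin hK.compact s c (fun v hv => (hc v hv).1) hsum hid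
  refine ⟨v, hv, ?_⟩
  obtain ⟨-, hconc, heven, hge, hint, -, -⟩ := hprof v hv
  refine stepAt_of_john hconc heven hge hint (hheight v hv) ?_
  have : Fact (finrank ℝ E = 4 + 1) := ⟨hfin⟩
  have hv1 := (hc v hv).2.1
  have hm : finrank ℝ (ℝ ∙ v)ᗮ = 4 :=
    Submodule.finrank_orthogonal_span_singleton (norm_ne_zero_iff.1 (by simp [hv1]))
  have : Nontrivial (ℝ ∙ v)ᗮ := Module.nontrivial_of_finrank_eq_succ hm
  have hfp : profile v K = f v := by
    funext t
    simp only [hf, profile, disc_eq hm]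
    norm_num
  have hb : ∀ x ∈ K, |⟪v, x⟫| ≤ 1 := fun x hx => (hc v hv).2.2 ▸ abs_inner_le_supp hK hs hx
  have hmax : ∀ t ∈ Icc (-1 : ℝ) 1, f v t ≤ f v 0 := fun t ht => by
    have h := antitoneOn_of_concave_even hconc heven (show (0 : ℝ) ∈ Icc (0 : ℝ) 1 by norm_num)
      (show |t| ∈ Icc (0 : ℝ) 1 from ⟨abs_nonneg t, abs_le.2 ht⟩) (abs_nonneg t)
    rcases abs_choice t with e | e
    · simpa only [e] using h
    · simpa only [e, heven] using h
  have hq : IntervalIntegrable (fun t => densQ (f v) t) volume (-1) 1 := by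
    have a6 := (hint 6).continuousOn_mul (g := fun u => 1 / 6 + 3 / 40 * u ^ 2) (by fun_prop)
    have a4 := (hint 4).continuousOn_mul (g := fun u => 3 / 20 * u ^ 4 - u ^ 2) (by fun_prop)
    refine ((a6.add a4).sub ((hint 8).const_mul (3 / 160 : ℝ))).congr fun t _ => ?_
    simp only [densQ_eq, hf]
    ring
  have hbound : ∀ t ∈ Icc (-1 : ℝ) 1, profile v K t ^ 2 + t ^ 2 ≤ 10 / 3 := fun t ht => by
    rw [hfp]
    have h1 := pow_le_pow_left₀ ((Real.sqrt_nonneg _).trans (hge t ht))
      ((hmax t ht).trans (hheight v hv).le) 2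
    have h2 : t ^ 2 ≤ 1 := by nlinarith [ht.1, ht.2]
    norm_num at h1 ⊢
    simp only [hf] at h1 ⊢
    linarith
  have h := john_ge hv1 hm hK.compact hb hbound (by rw [hfp]; exact hq)
  rw [hfp, integral_even (g := densQ (f v)) (fun t => by
    simp only [densQ_eq, hf, heven]; ring) hq] at h
  have hk := kappa_pos 4
  simp only [hf] at h
  refine nonpos_of_mul_nonpos_right (a := 8 * kappa 4) ?_ (by positivity)
  linarith

/-- The step of dimension five. -/
theorem stepHolds_three : StepHolds.{u} 3 := stepHolds_of_contact contactStep_three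

/-- The steps up to dimension five. -/
theorem steps_upto_five : ∀ p, 1 ≤ p → p + 2 ≤ 5 → StepHolds.{u} p := by
  intro p h1 h2
  rcases show p = 1 ∨ p = 2 ∨ p = 3 by omega with rfl | rfl | rfl
  · exact stepHolds_of_profileLemma profileLemma_one
  · exact stepHolds_of_profileLemma Four.profileLemma_two
  · exact stepHolds_three

end Vale.Agent.P237.Petty.Hull.Five
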