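import Mathlib

/-!
# P237: a verified test of positivity of a polynomial in two variables on rectangles

Polynomials are coefficient lists. On a rectangle the polynomial is written in the Bernstein basis;
it is nonnegative there when all of these coefficients are. A tree of rectangles is checked by
evaluation in the kernel.
-/

namespace Vale.Agent.P237.Petty.Hull.Five

/-- A polynomial given by its coefficients in increasing degree. -/
structure Poly (α : Type) where
  c : List α

set_option linter.unusedSectionVars false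

variable {α : Type}

/-- The sum of two coefficient lists. -/
def padd [Add α] : List α → List α → List α
  | [], ys => ys
  | x :: xs, [] => x :: xs
  | x :: xs, y :: ys => (x + y) :: padd xs ys

/-- The product of two coefficient lists. -/
def pmul [Add α] [Mul α] [Zero α] : List α → List α → List α
  | [], _ => []
  | x :: xs, ys => padd (ys.map (x * ·)) (0 :: pmul xs ys)

instance [Add α] : Add (Poly α) := ⟨fun p q => ⟨padd p.c q.c⟩⟩
instance [Add α] [Mul α] [Zero α] : Mul (Poly α) := ⟨fun p q => ⟨pmul p.c q.c⟩⟩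
instance [SMul ℤ α] : SMul ℤ (Poly α) := ⟨fun k p => ⟨p.c.map (k • ·)⟩⟩
instance : Zero (Poly α) := ⟨⟨[]⟩⟩
instance [Add α] [SMul ℤ α] : Sub (Poly α) := ⟨fun p q => p + (-1 : ℤ) • q⟩

/-- An evaluation compatible with the operations. -/
structure IsEval [Add α] [Mul α] [Zero α] [SMul ℤ α] (φ : α → ℝ) : Prop where
  add : ∀ x y, φ (x + y) = φ x + φ y
  mul : ∀ x y, φ (x * y) = φ x * φ y
  smul : ∀ (k : ℤ) x, φ (k • x) = k * φ x
  zero : φ 0 = 0

/-- Horner evaluation. -/
noncomputable def horner (φ : α → ℝ) (x : ℝ) : List α → ℝ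
  | [] => 0
  | c :: cs => φ c + x * horner φ x cs

theorem isEval_cast : IsEval (fun n : ℤ => (n : ℝ)) :=
  ⟨fun x y => by push_cast; rfl, fun x y => by push_cast; rfl,
    fun k x => by simp, by simp⟩

variable [Add α] [Mul α] [Zero α] [SMul ℤ α] {φ : α → ℝ}

theorem horner_padd (h : IsEval φ) (x : ℝ) : ∀ p q : List α,
    horner φ x (padd p q) = horner φ x p + horner φ x q
  | [], q => by simp [padd, horner]
  | a :: p, [] => by simp [padd, horner]
  | a :: p, b :: q => by simp only [padd, horner, h.add, horner_padd h x p q]; ring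

theorem horner_map (x : ℝ) {g : α → α} {k : ℝ} (hg : ∀ y, φ (g y) = k * φ y) :
    ∀ p : List α, horner φ x (p.map g) = k * horner φ x p
  | [] => by simp [horner]
  | a :: p => by simp only [List.map_cons, horner, hg, horner_map x hg p]; ring

theorem horner_pmul (h : IsEval φ) (x : ℝ) : ∀ p q : List α,
    horner φ x (pmul p q) = horner φ x p * horner φ x q
  | [], q => by simp [pmul, horner]
  | a :: p, q => by
    simp only [pmul, horner_padd h, horner_map x (g := (a * ·)) (k := φ a) (fun y => h.mul a y),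
      horner, h.zero, horner_pmul h x p q]
    ring

/-- The evaluation of a polynomial. -/
noncomputable def ev (φ : α → ℝ) (x : ℝ) (p : Poly α) : ℝ := horner φ x p.c

theorem isEval_ev (h : IsEval φ) (x : ℝ) : IsEval (ev φ x) :=
  ⟨fun p q => horner_padd h x p.c q.c, fun p q => horner_pmul h x p.c q.c,
    fun k p => horner_map x (h.smul k) p.c, rfl⟩

theorem ev_sub (h : IsEval φ) (x : ℝ) (p q : Poly α) : ev φ x (p - q) = ev φ x p - ev φ x q := by
  show ev φ x (p + (-1 : ℤ) • q) = _
  rw [(isEval_ev h x).add, (isEval_ev h x).smul]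
  push_cast
  ring

/-- The homogeneous evaluation `Σ cᵢ uⁱ a^(k-i)`. -/
noncomputable def hev (φ : α → ℝ) (u a : ℝ) : List α → ℝ
  | [] => 0
  | c :: cs => φ c * a ^ cs.length + u * hev φ u a cs

/-- Multiplication by `n₀ a + n₁ u`, with the carried coefficient. -/
def mulLin (n₀ n₁ : ℤ) : α → List α → List α
  | prev, [] => [n₁ • prev]
  | prev, c :: cs => (n₀ • c + n₁ • prev) :: mulLin n₀ n₁ c cs

/-- Homogeneous Horner from the highest coefficient. `dm` carries the power of `d (a+u)`. -/
def homRev (n₀ n₁ d : ℤ) : List α → List ℤ → List α → List α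
  | [], _, H => H
  | c :: cs, dm, H => homRev n₀ n₁ d cs (mulLin d d 0 dm)
      (List.zipWith (· + ·) (dm.map (· • c)) (mulLin n₀ n₁ 0 H))

/-- The coefficients of `Σ cᵢ (n₀ a + n₁ u)ⁱ (d (a+u))^(k-i)`. -/
def hom (n₀ n₁ d : ℤ) (l : List α) : List α :=
  match l.reverse with
  | [] => []
  | c :: cs => homRev n₀ n₁ d cs [d, d] [c]

theorem length_mulLin (n₀ n₁ : ℤ) : ∀ (prev : α) (l : List α),
    (mulLin n₀ n₁ prev l).length = l.length + 1
  | _, [] => rfl
  | _, c :: cs => by simp only [mulLin, List.length_cons, length_mulLin n₀ n₁ c cs]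

theorem hev_mulLin (h : IsEval φ) (n₀ n₁ : ℤ) (u a : ℝ) : ∀ (prev : α) (l : List α),
    hev φ u a (mulLin n₀ n₁ prev l) =
      n₁ * φ prev * a ^ l.length + (n₀ * a + n₁ * u) * hev φ u a l
  | prev, [] => by simp [mulLin, hev, h.smul]
  | prev, c :: cs => by
    simp only [mulLin, hev, length_mulLin, h.add, h.smul, hev_mulLin h n₀ n₁ u a c cs,
      List.length_cons]
    ring

theorem hev_zipWith (h : IsEval φ) (u a : ℝ) : ∀ p q : List α, p.length = q.length →
    hev φ u a (List.zipWith (· + ·) p q) = hev φ u a p + hev φ u a q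
  | [], [], _ => by simp [hev]
  | [], _ :: _, e => by simp at e
  | _ :: _, [], e => by simp at e
  | x :: p, y :: q, e => by
    have e' : p.length = q.length := by simpa using e
    simp only [List.zipWith_cons_cons, hev, h.add, hev_zipWith h u a p q e', List.length_zipWith,
      e', min_self]
    ring

theorem hev_map_smul (h : IsEval φ) (u a : ℝ) (c : α) : ∀ l : List ℤ,
    hev φ u a (l.map (· • c)) = hev (fun n : ℤ => (n : ℝ)) u a l * φ c
  | [] => by simp [hev]
  | k :: l => by simp only [List.map_cons, hev, h.smul, hev_map_smul h u a c l, List.length_map]; ring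

theorem horner_append_singleton (x : ℝ) (c : α) : ∀ l : List α,
    horner φ x (l ++ [c]) = horner φ x l + φ c * x ^ l.length
  | [] => by simp [horner]
  | b :: l => by
    simp only [List.cons_append, horner, horner_append_singleton x c l, List.length_cons]
    ring

theorem hev_homRev (h : IsEval φ) (n₀ n₁ d : ℤ) {u a x : ℝ} (hau : a + u = 1)
    (hx : (d : ℝ) * x = n₀ * a + n₁ * u) : ∀ (rest : List α) (dm : List ℤ) (H : List α) (m : ℕ),
    dm.length = m + 2 → H.length = m + 1 → hev (fun n : ℤ => (n : ℝ)) u a dm = (d : ℝ) ^ (m + 1) →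
    hev φ u a (homRev n₀ n₁ d rest dm H) =
      (d : ℝ) ^ rest.length * x ^ rest.length * hev φ u a H
        + (d : ℝ) ^ (rest.length + m) * horner φ x rest.reverse
  | [], dm, H, m, _, _, _ => by simp [homRev, horner]
  | c :: cs, dm, H, m, h1, h2, h3 => by
    rw [homRev, hev_homRev h n₀ n₁ d hau hx cs _ _ (m + 1)
      (by rw [length_mulLin, h1]) (by simp [length_mulLin, h1, h2])
      (by rw [hev_mulLin isEval_cast, h3, Int.cast_zero, mul_zero, zero_mul, zero_add,
        ← mul_add, hau, mul_one]; ring),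
      hev_zipWith h u a _ _ (by simp [length_mulLin, h1, h2]), hev_map_smul h, h3,
      hev_mulLin h, h.zero, List.reverse_cons, horner_append_singleton, List.length_reverse,
      List.length_cons, ← hx]
    ring

theorem hev_hom (h : IsEval φ) (n₀ n₁ d : ℤ) {u a x : ℝ} (hau : a + u = 1)
    (hx : (d : ℝ) * x = n₀ * a + n₁ * u) (l : List α) :
    hev φ u a (hom n₀ n₁ d l) * d = (d : ℝ) ^ l.length * horner φ x l := by
  obtain ⟨r, rfl⟩ : ∃ r, l = r.reverse := ⟨l.reverse, l.reverse_reverse.symm⟩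
  rw [hom, List.reverse_reverse]
  match r with
  | [] => simp [hev, horner]
  | c :: cs =>
    simp only
    rw [hev_homRev h n₀ n₁ d hau hx cs [d, d] [c] 0 rfl rfl
      (by simp only [hev, List.length_singleton, List.length_nil]; linear_combination (d : ℝ) * hau),
      List.reverse_cons, horner_append_singleton, List.length_append, List.length_reverse,
      List.length_singleton]
    simp only [hev, List.length_nil]
    ring

omit [Add α] [Mul α] [Zero α] [SMul ℤ α] in
theorem hev_nonneg {u a : ℝ} (hu : 0 ≤ u) (ha : 0 ≤ a) : ∀ l : List α,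
    (∀ c ∈ l, 0 ≤ φ c) → 0 ≤ hev φ u a l
  | [], _ => le_rfl
  | c :: cs, hl => by
    simp only [hev]
    exact add_nonneg (mul_nonneg (hl c (by simp)) (pow_nonneg ha _))
      (mul_nonneg hu (hev_nonneg hu ha cs fun x hx => hl x (by simp [hx])))

/-! The transform of an integer list, packed into one integer. -/

/-- The sum of the absolute values. -/
def asum : List ℤ → ℤ
  | [] => 0
  | c :: cs => |c| + asum cs

/-- The value at `S`. -/
def pack (S : ℤ) : List ℤ → ℤ
  | [] => 0
  | c :: cs => c + S * pack S cs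

/-- The symmetric digits in the base `2T`. -/
def unpack (T : ℤ) : ℕ → ℤ → List ℤ
  | 0, _ => []
  | k + 1, X => ((X + T) % (2 * T) - T) :: unpack T k ((X + T) / (2 * T))

/-- Homogeneous Horner with scalars. -/
def scalRev (g : ℤ → ℤ) (N D : ℤ) : List ℤ → ℤ → ℤ → ℤ
  | [], _, H => H
  | c :: cs, Dm, H => scalRev g N D cs (Dm * D) (g c * Dm + H * N)

/-- One more than a bound for the coefficients of the transform. -/
def homBound (n₀ n₁ d : ℤ) : List ℤ → ℤ
  | [] => 1
  | c :: cs => 1 + scalRev (fun x => |x|) (|n₀| + |n₁|) (|d| + |d|) cs (|d| + |d|) |c|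

/-- The transform packed in the base `S`. -/
def homPack (n₀ n₁ d S : ℤ) : List ℤ → ℤ
  | [] => 0
  | c :: cs => scalRev id (n₀ + n₁ * S) (d + d * S) cs (d + d * S) c

/-- A fast evaluation of `hom` on integers. -/
def fastHom (n₀ n₁ d : ℤ) (l : List ℤ) : List ℤ :=
  unpack (homBound n₀ n₁ d l.reverse) l.length
    (homPack n₀ n₁ d (2 * homBound n₀ n₁ d l.reverse) l.reverse)

theorem asum_nonneg : ∀ l : List ℤ, 0 ≤ asum l
  | [] => le_rfl
  | c :: cs => add_nonneg (abs_nonneg c) (asum_nonneg cs)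

theorem asum_mulLin (n₀ n₁ : ℤ) : ∀ (prev : ℤ) (l : List ℤ),
    asum (mulLin n₀ n₁ prev l) ≤ |n₁| * |prev| + (|n₀| + |n₁|) * asum l
  | prev, [] => by simp [mulLin, asum, abs_mul]
  | prev, c :: cs => by
    have h1 := asum_mulLin n₀ n₁ c cs
    have h2 := abs_add_le (n₀ * c) (n₁ * prev)
    simp only [mulLin, asum, smul_eq_mul, abs_mul] at *
    linarith

theorem asum_zipWith : ∀ p q : List ℤ, asum (List.zipWith (· + ·) p q) ≤ asum p + asum q
  | [], q => by simp [asum, asum_nonneg]
  | x :: p, [] => by simp [asum, add_nonneg, asum_nonneg]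
  | x :: p, y :: q => by
    have := asum_zipWith p q
    have := abs_add_le x y
    simp only [List.zipWith_cons_cons, asum]
    linarith

theorem asum_map_smul (c : ℤ) : ∀ l : List ℤ, asum (l.map (· • c)) = |c| * asum l
  | [] => by simp [asum]
  | x :: l => by
    rw [List.map_cons, asum, asum, asum_map_smul c l, smul_eq_mul, abs_mul]; ring

theorem asum_homRev (n₀ n₁ d : ℤ) : ∀ (rest dm H : List ℤ) (A B : ℤ), asum dm ≤ A → asum H ≤ B →
    asum (homRev n₀ n₁ d rest dm H) ≤
      scalRev (fun x => |x|) (|n₀| + |n₁|) (|d| + |d|) rest A B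
  | [], dm, H, A, B, _, hB => hB
  | c :: cs, dm, H, A, B, hA, hB => by
    rw [homRev, scalRev]
    refine asum_homRev n₀ n₁ d cs _ _ _ _ ?_ ?_
    · have h := asum_mulLin d d 0 dm
      simp only [abs_zero, mul_zero, zero_add] at h
      exact h.trans (by rw [mul_comm A]; exact mul_le_mul_of_nonneg_left hA (by positivity))
    · have h := asum_mulLin n₀ n₁ 0 H
      simp only [abs_zero, mul_zero, zero_add] at h
      refine (asum_zipWith _ _).trans (add_le_add ?_ ?_)
      · rw [asum_map_smul]; exact mul_le_mul_of_nonneg_left hA (abs_nonneg c)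
      · exact h.trans (by rw [mul_comm B]; exact mul_le_mul_of_nonneg_left hB (by positivity))

theorem pack_mulLin (n₀ n₁ S : ℤ) : ∀ (prev : ℤ) (l : List ℤ),
    pack S (mulLin n₀ n₁ prev l) = n₁ * prev + (n₀ + n₁ * S) * pack S l
  | prev, [] => by simp [mulLin, pack]
  | prev, c :: cs => by simp only [mulLin, pack, pack_mulLin n₀ n₁ S c cs, smul_eq_mul]; ring

theorem pack_zipWith (S : ℤ) : ∀ p q : List ℤ, p.length = q.length →
    pack S (List.zipWith (· + ·) p q) = pack S p + pack S q
  | [], [], _ => by simp [pack]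
  | [], _ :: _, e => by simp at e
  | _ :: _, [], e => by simp at e
  | x :: p, y :: q, e => by
    simp only [List.zipWith_cons_cons, pack, pack_zipWith S p q (by simpa using e)]
    ring

theorem pack_map_smul (S c : ℤ) : ∀ l : List ℤ, pack S (l.map (· • c)) = c * pack S l
  | [] => by simp [pack]
  | x :: l => by
    rw [List.map_cons, pack, pack, pack_map_smul S c l, smul_eq_mul]; ring

theorem pack_homRev (n₀ n₁ d S : ℤ) : ∀ (rest dm H : List ℤ), dm.length = H.length + 1 →
    pack S (homRev n₀ n₁ d rest dm H) =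
      scalRev id (n₀ + n₁ * S) (d + d * S) rest (pack S dm) (pack S H)
  | [], dm, H, _ => rfl
  | c :: cs, dm, H, e => by
    rw [homRev, scalRev, pack_homRev n₀ n₁ d S cs _ _ (by simp [length_mulLin, e]),
      pack_zipWith S _ _ (by simp [length_mulLin, e]), pack_map_smul, pack_mulLin, pack_mulLin]
    simp only [mul_zero, zero_add, id_eq]
    rw [mul_comm (pack S dm) (d + d * S), mul_comm (pack S H) (n₀ + n₁ * S)]

theorem unpack_pack {T : ℤ} : ∀ l : List ℤ, asum l < T → unpack T l.length (pack (2 * T) l) = l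
  | [], _ => rfl
  | c :: cs, h => by
    simp only [asum] at h
    have h1 := asum_nonneg cs
    have h2 := abs_nonneg c
    obtain ⟨h3, h4⟩ := abs_lt.1 (show |c| < T by linarith)
    have e : (c + 2 * T * pack (2 * T) cs + T) = (c + T) + (2 * T) * pack (2 * T) cs := by ring
    have hr : (c + T) % (2 * T) = c + T := Int.emod_eq_of_lt (by linarith) (by linarith)
    have hq : (c + T) / (2 * T) = 0 := Int.ediv_eq_zero_of_lt (by linarith) (by linarith)
    simp only [List.length_cons, pack, unpack]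
    rw [e, Int.add_mul_emod_self_left, Int.add_mul_ediv_left _ _ (by linarith), hr, hq, zero_add,
      unpack_pack cs (by linarith), add_sub_cancel_right]

theorem fastHom_eq (n₀ n₁ d : ℤ) (l : List ℤ) : fastHom n₀ n₁ d l = hom n₀ n₁ d l := by
  obtain ⟨r, rfl⟩ : ∃ r, l = r.reverse := ⟨l.reverse, l.reverse_reverse.symm⟩
  simp only [fastHom, hom, List.reverse_reverse]
  match r with
  | [] => rfl
  | c :: cs =>
    have hlen : (homRev n₀ n₁ d cs [d, d] [c]).length = (c :: cs).reverse.length := by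
      have h : ∀ (rest dm H : List ℤ), dm.length = H.length + 1 →
          (homRev n₀ n₁ d rest dm H).length = rest.length + H.length := by
        intro rest
        induction rest with
        | nil => intro dm H _; simp [homRev]
        | cons x rest ih =>
          intro dm H e
          rw [homRev, ih _ _ (by simp [length_mulLin, e])]
          simp [length_mulLin, e]
          omega
      simp [h cs [d, d] [c] rfl]
    simp only [homBound, homPack]
    set T := 1 + scalRev (fun x => |x|) (|n₀| + |n₁|) (|d| + |d|) cs (|d| + |d|) |c| with hT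
    have h1 : asum (homRev n₀ n₁ d cs [d, d] [c]) < T := by
      have := asum_homRev n₀ n₁ d cs [d, d] [c] (|d| + |d|) |c| (by simp [asum]) (by simp [asum])
      linarith
    have h2 := pack_homRev n₀ n₁ d (2 * T) cs [d, d] [c] rfl
    simp only [pack, mul_zero, add_zero] at h2
    rw [mul_comm (2 * T) d] at h2
    rw [← hlen, ← h2]
    exact unpack_pack _ h1

/-- The value of a polynomial in two variables. -/
noncomputable def ev2 (w s : ℝ) (P : Poly (Poly ℤ)) : ℝ := ev (ev (fun n : ℤ => (n : ℝ)) s) w P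

theorem isEval_ev2 (w s : ℝ) : IsEval (ev2 w s) := isEval_ev (isEval_ev isEval_cast s) w

theorem ev2_sub (w s : ℝ) (P Q : Poly (Poly ℤ)) : ev2 w s (P - Q) = ev2 w s P - ev2 w s Q :=
  ev_sub (isEval_ev isEval_cast s) w P Q

/-- Whether every row has at most `m` coefficients. -/
def narrow : ℕ → List (List ℤ) → Bool
  | 0, M => M.all List.isEmpty
  | m + 1, M => narrow m (M.map List.tail)

/-- The transform in the first variable, computed column by column and transposed. -/
def colHom (n₀ n₁ d : ℤ) : ℕ → List (List ℤ) → List (List ℤ)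
  | 0, M => M.map fun _ => []
  | m + 1, M => List.zipWith (· :: ·) (fastHom n₀ n₁ d (M.map fun r => r.headD 0))
      (colHom n₀ n₁ d m (M.map List.tail))

/-- The largest number of coefficients of a row. -/
def width : List (List ℤ) → ℕ
  | [] => 0
  | r :: M => max r.length (width M)

/-- All Bernstein coefficients on a rectangle are nonnegative. -/
def boxOK (dw ds : ℤ) (P : Poly (Poly ℤ)) (w₀ w₁ s₀ s₁ : ℤ) : Bool :=
  let M := P.c.map Poly.c
  narrow (width M) M &&
    (colHom w₀ w₁ dw (width M) M).all fun row => (fastHom s₀ s₁ ds row).all fun n => decide (0 ≤ n)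

theorem length_homRev (n₀ n₁ d : ℤ) : ∀ (rest : List α) (dm : List ℤ) (H : List α),
    dm.length = H.length + 1 → (homRev n₀ n₁ d rest dm H).length = rest.length + H.length
  | [], dm, H, _ => by simp [homRev]
  | c :: cs, dm, H, e => by
    rw [homRev, length_homRev n₀ n₁ d cs _ _ (by simp [length_mulLin, e])]
    simp [length_mulLin, e]
    omega

theorem length_hom (n₀ n₁ d : ℤ) (l : List α) : (hom n₀ n₁ d l).length = l.length := by
  obtain ⟨r, rfl⟩ : ∃ r, l = r.reverse := ⟨l.reverse, l.reverse_reverse.symm⟩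
  rw [hom, List.reverse_reverse]
  match r with
  | [] => rfl
  | c :: cs => simp [length_homRev]

theorem length_colHom (n₀ n₁ d : ℤ) : ∀ (m : ℕ) (M : List (List ℤ)),
    (colHom n₀ n₁ d m M).length = M.length
  | 0, M => by simp [colHom]
  | m + 1, M => by simp [colHom, fastHom_eq, length_hom, length_colHom n₀ n₁ d m]

theorem hev_zipWith_cons (u a s : ℝ) : ∀ (H : List ℤ) (R : List (List ℤ)), H.length = R.length →
    hev (horner (fun n : ℤ => (n : ℝ)) s) u a (List.zipWith (· :: ·) H R) =
      hev (fun n : ℤ => (n : ℝ)) u a H + s * hev (horner (fun n : ℤ => (n : ℝ)) s) u a R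
  | [], [], _ => by simp [hev]
  | [], _ :: _, e => by simp at e
  | _ :: _, [], e => by simp at e
  | x :: H, y :: R, e => by
    have e' : H.length = R.length := by simpa using e
    simp only [List.zipWith_cons_cons, hev, horner, hev_zipWith_cons u a s H R e',
      List.length_zipWith, e', min_self]
    ring

theorem horner_split (w s : ℝ) : ∀ M : List (List ℤ),
    horner (horner (fun n : ℤ => (n : ℝ)) s) w M =
      horner (fun n : ℤ => (n : ℝ)) w (M.map fun r => r.headD 0) +
        s * horner (horner (fun n : ℤ => (n : ℝ)) s) w (M.map List.tail)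
  | [] => by simp [horner]
  | r :: M => by
    simp only [List.map_cons, horner, horner_split w s M]
    cases r <;> simp [horner] <;> ring

theorem hev_colHom (n₀ n₁ d : ℤ) {u a w : ℝ} (s : ℝ) (hau : a + u = 1)
    (hw : (d : ℝ) * w = n₀ * a + n₁ * u) : ∀ (m : ℕ) (M : List (List ℤ)), narrow m M = true →
    hev (horner (fun n : ℤ => (n : ℝ)) s) u a (colHom n₀ n₁ d m M) * d =
      (d : ℝ) ^ M.length * horner (horner (fun n : ℤ => (n : ℝ)) s) w M
  | 0, M, h => by
    simp only [narrow, List.all_eq_true, List.isEmpty_iff] at h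
    have h1 : horner (horner (fun n : ℤ => (n : ℝ)) s) w M = 0 := by
      induction M with
      | nil => rfl
      | cons r M ih => simp [horner, h r (by simp), ih fun x hx => h x (by simp [hx])]
    have h2 : ∀ N : List (List ℤ),
        hev (horner (fun n : ℤ => (n : ℝ)) s) u a (N.map fun _ => []) = 0 := fun N => by
      induction N with
      | nil => rfl
      | cons r N ih =>
        simp only [List.map_cons, hev, horner]
        rw [ih]
        ring
    rw [colHom, h1, h2]
    simp
  | m + 1, M, h => by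
    rw [colHom, fastHom_eq, hev_zipWith_cons u a s _ _ (by simp [length_hom, length_colHom]),
      horner_split w s M]
    have e1 := hev_hom isEval_cast n₀ n₁ d hau hw (M.map fun r => r.headD 0)
    have e2 := hev_colHom n₀ n₁ d s hau hw m (M.map List.tail) h
    simp only [List.length_map] at e1 e2
    linear_combination e1 + s * e2

/-- The point of an interval in barycentric coordinates. -/
theorem bary {n₀ n₁ d : ℤ} {x : ℝ} (h : n₀ < n₁) (hx₀ : (n₀ : ℝ) ≤ d * x)
    (hx₁ : (d : ℝ) * x ≤ n₁) :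
    ∃ u a : ℝ, 0 ≤ u ∧ 0 ≤ a ∧ a + u = 1 ∧ (d : ℝ) * x = n₀ * a + n₁ * u := by
  have h0 : (0 : ℝ) < n₁ - n₀ := sub_pos.2 (Int.cast_lt.2 h)
  refine ⟨(d * x - n₀) / (n₁ - n₀), (n₁ - d * x) / (n₁ - n₀), div_nonneg (by linarith) h0.le,
    div_nonneg (by linarith) h0.le, ?_, ?_⟩
  · field_simp; ring
  · field_simp; ring

theorem boxOK_sound {dw ds w₀ w₁ s₀ s₁ : ℤ} {P : Poly (Poly ℤ)} (hdw : 0 < dw) (hds : 0 < ds)
    (h : boxOK dw ds P w₀ w₁ s₀ s₁ = true) (hw : w₀ < w₁) (hs : s₀ < s₁) {w s : ℝ}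
    (hw₀ : (w₀ : ℝ) ≤ dw * w) (hw₁ : (dw : ℝ) * w ≤ w₁) (hs₀ : (s₀ : ℝ) ≤ ds * s)
    (hs₁ : (ds : ℝ) * s ≤ s₁) : 0 ≤ ev2 w s P := by
  simp only [boxOK, Bool.and_eq_true, List.all_eq_true, decide_eq_true_eq] at h
  obtain ⟨u, a, hu, ha, hau, hx⟩ := bary hw hw₀ hw₁
  obtain ⟨u', a', hu', ha', hau', hx'⟩ := bary hs hs₀ hs₁
  set M := P.c.map Poly.c with hM
  have hrow : ∀ row ∈ colHom w₀ w₁ dw (width M) M, 0 ≤ horner (fun n : ℤ => (n : ℝ)) s row :=
    fun row hrow => by
    have h2 := hev_hom isEval_cast s₀ s₁ ds hau' hx' row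
    have h3 : 0 ≤ hev (fun n : ℤ => (n : ℝ)) u' a' (hom s₀ s₁ ds row) :=
      hev_nonneg hu' ha' _ fun n hn => Int.cast_nonneg (h.2 row hrow n (by rwa [fastHom_eq]))
    refine nonneg_of_mul_nonneg_right (a := (ds : ℝ) ^ row.length) ?_
      (pow_pos (Int.cast_pos.2 hds) _)
    rw [← h2]
    exact mul_nonneg h3 (Int.cast_nonneg hds.le)
  have e : ev2 w s P = horner (horner (fun n : ℤ => (n : ℝ)) s) w M := by
    rw [hM, ev2, ev]
    induction P.c with
    | nil => rfl
    | cons r l ih => simp [horner, ev, ih]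
  have h4 := hev_colHom w₀ w₁ dw s hau hx (width M) M h.1
  refine nonneg_of_mul_nonneg_right (a := (dw : ℝ) ^ M.length) ?_ (pow_pos (Int.cast_pos.2 hdw) _)
  rw [e, ← h4]
  exact mul_nonneg (hev_nonneg hu ha _ hrow) (Int.cast_nonneg hdw.le)

/-- All coefficients of the difference vanish. -/
def same (P Q : Poly (Poly ℤ)) : Bool := (P - Q).c.all fun r => r.c.all fun n => decide (n = 0)

theorem ev2_eq_of_same {P Q : Poly (Poly ℤ)} (h : same P Q = true) (w s : ℝ) :
    ev2 w s P = ev2 w s Q := by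
  simp only [same, List.all_eq_true, decide_eq_true_eq] at h
  have h1 : ∀ l : List ℤ, (∀ n ∈ l, n = 0) → horner (fun n : ℤ => (n : ℝ)) s l = 0 := fun l hl => by
    induction l with
    | nil => rfl
    | cons n l ih => simp [horner, hl n (by simp), ih fun x hx => hl x (by simp [hx])]
  have h2 : ∀ l : List (Poly ℤ), (∀ r ∈ l, ∀ n ∈ r.c, n = 0) →
      horner (ev (fun n : ℤ => (n : ℝ)) s) w l = 0 := fun l hl => by
    induction l with
    | nil => rfl
    | cons r l ih =>
      simp [horner, ev, h1 r.c (hl r (by simp)), ih fun x hx => hl x (by simp [hx])]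
  have h3 : ev2 w s (P - Q) = 0 := h2 _ h
  rw [ev2_sub] at h3
  linarith

/-- A subdivision of a rectangle, with two parameters on each piece. -/
inductive Tree
  | leaf (k n : ℤ)
  | splitW (m : ℤ) (l r : Tree)
  | splitS (m : ℤ) (l r : Tree)

/-- A piece of a subdivision with its parameters. -/
structure Piece where
  /-- The slope, in thousandths. -/
  k : ℤ
  /-- The range of the secant, in hundredths. -/
  n : ℤ
  /-- The left end. -/
  w₀ : ℤ
  /-- The right end. -/
  w₁ : ℤ
  /-- The lower end. -/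
  s₀ : ℤ
  /-- The upper end. -/
  s₁ : ℤ

/-- The pieces of a subdivision of a rectangle. -/
def Tree.pieces : Tree → ℤ → ℤ → ℤ → ℤ → List Piece
  | .leaf k n, w₀, w₁, s₀, s₁ => [⟨k, n, w₀, w₁, s₀, s₁⟩]
  | .splitW m l r, w₀, w₁, s₀, s₁ => l.pieces w₀ m s₀ s₁ ++ r.pieces m w₁ s₀ s₁
  | .splitS m l r, w₀, w₁, s₀, s₁ => l.pieces w₀ w₁ s₀ m ++ r.pieces w₀ w₁ m s₁

/-- On a piece `1000 A₀ + k A₁` and `100000 B₀ + k n B₁` are nonnegative, and the parameters
satisfy `(1 + (k/1000) (n/100))³ ≤ 1 + n/100`. -/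
def Piece.ok (dw ds : ℤ) (A₀ A₁ B₀ B₁ : Poly (Poly ℤ)) (L : Piece) : Bool :=
  decide (0 ≤ L.k ∧ 0 < L.n ∧ L.w₀ < L.w₁ ∧ L.s₀ < L.s₁ ∧
    (100000 + L.k * L.n) ^ 3 ≤ 100000 ^ 2 * (100000 + 1000 * L.n)) &&
  boxOK dw ds ((1000 : ℤ) • A₀ + L.k • A₁) L.w₀ L.w₁ L.s₀ L.s₁ &&
  boxOK dw ds ((100000 : ℤ) • B₀ + (L.k * L.n) • B₁) L.w₀ L.w₁ L.s₀ L.s₁

/-- What the pieces give at every point of the rectangle. -/
theorem Tree.pieces_sound {dw ds : ℤ} (hdw : 0 < dw) (hds : 0 < ds)
    {A₀ A₁ B₀ B₁ : Poly (Poly ℤ)} : ∀ (t : Tree) {w₀ w₁ s₀ s₁ : ℤ},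
    (∀ L ∈ t.pieces w₀ w₁ s₀ s₁, L.ok dw ds A₀ A₁ B₀ B₁ = true) → ∀ {w s : ℝ},
    (w₀ : ℝ) ≤ dw * w → (dw : ℝ) * w ≤ w₁ → (s₀ : ℝ) ≤ ds * s → (ds : ℝ) * s ≤ s₁ →
    ∃ κ X : ℝ, 0 ≤ κ ∧ 0 < X ∧ (1 + κ * X) ^ 3 ≤ 1 + X ∧
      0 ≤ ev2 w s A₀ + κ * ev2 w s A₁ ∧ 0 ≤ ev2 w s B₀ + κ * X * ev2 w s B₁
  | .leaf k n, w₀, w₁, s₀, s₁, h, w, s, hw₀, hw₁, hs₀, hs₁ => by
    have h' := h ⟨k, n, w₀, w₁, s₀, s₁⟩ (by simp [pieces])
    simp only [Piece.ok, Bool.and_eq_true, decide_eq_true_eq] at h'
    obtain ⟨⟨⟨hk, hn, hw, hs, hc⟩, hA⟩, hB⟩ := h'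
    have eA := boxOK_sound hdw hds hA hw hs hw₀ hw₁ hs₀ hs₁
    have eB := boxOK_sound hdw hds hB hw hs hw₀ hw₁ hs₀ hs₁
    rw [(isEval_ev2 w s).add, (isEval_ev2 w s).smul, (isEval_ev2 w s).smul] at eA eB
    push_cast at eA eB
    have hc' : ((100000 : ℝ) + k * n) ^ 3 ≤ 100000 ^ 2 * (100000 + 1000 * n) := by exact_mod_cast hc
    refine ⟨k / 1000, n / 100, div_nonneg (Int.cast_nonneg hk) (by norm_num),
      div_pos (Int.cast_pos.2 hn) (by norm_num), ?_, by linarith, by linarith⟩
    have e : (1 + (k : ℝ) / 1000 * (n / 100)) ^ 3 = (100000 + k * n) ^ 3 / 100000 ^ 3 := by ring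
    rw [e, div_le_iff₀ (by positivity)]
    linarith
  | .splitW m l r, w₀, w₁, s₀, s₁, h, w, s, hw₀, hw₁, hs₀, hs₁ => by
    simp only [pieces, List.forall_mem_append] at h
    rcases le_total ((dw : ℝ) * w) m with hm | hm
    · exact l.pieces_sound hdw hds h.1 hw₀ hm hs₀ hs₁
    · exact r.pieces_sound hdw hds h.2 hm hw₁ hs₀ hs₁
  | .splitS m l r, w₀, w₁, s₀, s₁, h, w, s, hw₀, hw₁, hs₀, hs₁ => by
    simp only [pieces, List.forall_mem_append] at h
    rcases le_total ((ds : ℝ) * s) m with hm | hm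
    · exact l.pieces_sound hdw hds h.1 hw₀ hw₁ hs₀ hm
    · exact r.pieces_sound hdw hds h.2 hw₀ hw₁ hm hs₁

end Vale.Agent.P237.Petty.Hull.Five
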