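import Vale.Agent.P237.Petty.Hull.FiveTail

/-!
# P237: lower bounds for the excess of the cube of a profile over the semicircle
-/

namespace Vale.Agent.P237.Petty.Hull.Five

open Real Set MeasureTheory
open Four (circTail hasDerivAt_circTail)

/-- A lower bound for a difference of cubes. -/
theorem cube_diff {l : ℝ} (hl : 0 < l) (c : ℝ) :
    (l ^ 2 - c ^ 2) * (l + c ^ 2 / (2 * l)) ≤ l ^ 3 - c ^ 3 := by
  have e : l ^ 3 - c ^ 3 - (l ^ 2 - c ^ 2) * (l + c ^ 2 / (2 * l)) =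
      (l - c) ^ 2 * c ^ 2 / (2 * l) := by
    field_simp; ring
  have : 0 ≤ (l - c) ^ 2 * c ^ 2 / (2 * l) := by positivity
  linarith

/-- The excess of the hull over the circle to the right of `T` is at least any primitive of a
function below the difference of the cubes along the tangent. -/
theorem tail_excess {p q r : ℝ} (hr : 0 ≤ r)
    {G g : ℝ → ℝ} (hG : ∀ ρ, HasDerivAt G (g ρ) ρ) (hG0 : G 0 = 0)
    (hg : ∀ ρ ∈ Ioo 0 r, g ρ ≤ q * ((q + p * ρ) ^ 3 - √(1 - (p - q * ρ) ^ 2) ^ 3)) :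
    G r ≤ tailA p q r - circTail (p - q * r) := by
  set Φ := fun ρ => tailA p q ρ - circTail (p - q * ρ) - G ρ
  have hd : ∀ ρ, HasDerivAt Φ
      (q * ((q + p * ρ) ^ 3 - √(1 - (p - q * ρ) ^ 2) ^ 3) - g ρ) ρ := fun ρ => by
    have i : HasDerivAt (fun z : ℝ => z) 1 ρ := hasDerivAt_id ρ
    have h1 : HasDerivAt (fun z => tailA p q z) (q * (q + p * ρ) ^ 3) ρ := by
      unfold tailA Four.tailB
      refine ((((i.const_mul (q ^ 3)).fun_add
        ((i.fun_pow 2).const_mul (3 / 2 * p * q ^ 2))).fun_add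
        ((i.fun_pow 3).const_mul (p ^ 2 * q))).fun_add
        (((i.fun_pow 4).const_mul (p ^ 3)).div_const 4)).const_mul q |>.add_const _
        |>.congr_deriv ?_
      push_cast
      ring
    have h2 := (hasDerivAt_circTail (p - q * ρ)).comp ρ ((i.const_mul q).const_sub p)
    refine ((h1.fun_sub h2).fun_sub (hG ρ)).congr_deriv ?_
    ring
  have hmono : MonotoneOn Φ (Icc 0 r) :=
    monotoneOn_of_hasDerivWithinAt_nonneg (convex_Icc _ _)
      (fun ρ _ => (hd ρ).continuousAt.continuousWithinAt)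
      (fun ρ _ => (hd ρ).hasDerivWithinAt) fun ρ hρ => by
        rw [interior_Icc] at hρ
        linarith [hg ρ hρ]
  have h0 : Φ 0 = 0 := by
    simp [Φ, hG0, tailA, Four.tailB]
  have := hmono ⟨le_rfl, hr⟩ ⟨hr, le_rfl⟩ hr
  simp only [h0, Φ] at this
  linarith

theorem tail_excess_nonneg {p q r : ℝ} (hc : p ^ 2 + q ^ 2 = 1) (hp : 0 ≤ p) (hq : 0 < q)
    (hr : 0 ≤ r) : 0 ≤ tailA p q r - circTail (p - q * r) := by
  refine tail_excess (p := p) (q := q) hr (G := fun _ => 0) (g := fun _ => 0)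
    (fun ρ => hasDerivAt_const ρ 0) rfl fun ρ hρ => ?_
  refine mul_nonneg hq.le (sub_nonneg.2 (pow_le_pow_left₀ (Real.sqrt_nonneg _) ?_ 3))
  refine (Real.sqrt_le_iff).2 ⟨add_nonneg hq.le (mul_nonneg hp hρ.1.le), ?_⟩
  have e : (q + p * ρ) ^ 2 - (1 - (p - q * ρ) ^ 2) = ρ ^ 2 := by
    linear_combination (1 + ρ ^ 2) * hc
  nlinarith [sq_nonneg ρ]

/-- The bound of the excess on the tangent when `1 ≤ q + p r`. -/
theorem tail_high {p q r : ℝ} (hc : p ^ 2 + q ^ 2 = 1) (hp : 0 ≤ p) (hq : 0 < q) (hr : 0 ≤ r)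
    (hT : q * r ≤ p) :
    q * r ^ 3 * (2 * (q + p * r) * (q / 3 + p * r / 4) + q ^ 2 / 3 + p * q * r / 2
      - q ^ 2 * r ^ 2 / 5) / (2 * (q + p * r)) ≤ tailA p q r - circTail (p - q * r) := by
  have hy : 0 < q + p * r := by positivity
  have key := tail_excess (p := p) (q := q) hr
    (G := fun ρ => q * (q * ρ ^ 3 / 3 + p * ρ ^ 4 / 4
      + (q ^ 2 * ρ ^ 3 / 3 + p * q * ρ ^ 4 / 2 - q ^ 2 * ρ ^ 5 / 5) / (2 * (q + p * r))))
    (g := fun ρ => q * (ρ ^ 2 * (q + p * ρ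
      + (q ^ 2 + 2 * p * q * ρ - q ^ 2 * ρ ^ 2) / (2 * (q + p * r)))))
    (fun ρ => by
      have i : HasDerivAt (fun z : ℝ => z) 1 ρ := hasDerivAt_id ρ
      refine (((((i.fun_pow 3).const_mul q).div_const 3).fun_add
        (((i.fun_pow 4).const_mul p).div_const 4)).fun_add
          ((((((i.fun_pow 3).const_mul (q ^ 2)).div_const 3).fun_add
            (((i.fun_pow 4).const_mul (p * q)).div_const 2)).fun_sub
              (((i.fun_pow 5).const_mul (q ^ 2)).div_const 5)).div_const (2 * (q + p * r)))).const_mul q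
          |>.congr_deriv ?_
      push_cast
      field_simp
      ring) (by simp)
    (fun ρ hρ => ?_)
  · refine le_trans (le_of_eq ?_) key
    field_simp
    ring
  · set l := q + p * ρ with hl'
    set c := √(1 - (p - q * ρ) ^ 2) with hc'
    have hl : 0 < l := by
      have := hρ.1; positivity
    have h0 : 0 ≤ 1 - (p - q * ρ) ^ 2 := by
      have h1 : 0 ≤ p - q * ρ := by nlinarith [hρ.2]
      have h2 : p - q * ρ ≤ 1 := by nlinarith [mul_nonneg hq.le hρ.1.le]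
      nlinarith
    have hc2 : c ^ 2 = q ^ 2 + 2 * p * q * ρ - q ^ 2 * ρ ^ 2 := by
      rw [hc', Real.sq_sqrt h0]; linear_combination (-1) * hc
    have hd : l ^ 2 - c ^ 2 = ρ ^ 2 := by
      rw [hc2, hl']; linear_combination ρ ^ 2 * hc
    have hle : c ^ 2 / (2 * (q + p * r)) ≤ c ^ 2 / (2 * l) :=
      div_le_div_of_nonneg_left (sq_nonneg c) (by positivity)
        (by nlinarith [mul_le_mul_of_nonneg_left hρ.2.le hp])
    refine mul_le_mul_of_nonneg_left (le_trans ?_ (cube_diff hl _)) hq.le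
    rw [hd, ← hc2]
    gcongr

/-- The bound of the excess on the tangent when `q + p r ≤ 1`. -/
theorem tail_low {p q r : ℝ} (hc : p ^ 2 + q ^ 2 = 1) (hp : 0 < p) (hq : 0 < q) (hr : 0 ≤ r)
    (hT : q * r ≤ p) (hrp : r ≤ p) :
    q ^ 2 * r ^ 3 / 2 ≤ tailA p q r - circTail (p - q * r) := by
  refine tail_excess (p := p) (q := q) hr (G := fun ρ => q ^ 2 * ρ ^ 3 / 2)
    (g := fun ρ => q * (ρ ^ 2 * (3 * q / 2)))
    (fun ρ => by
      have i : HasDerivAt (fun z : ℝ => z) 1 ρ := hasDerivAt_id ρ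
      refine (((i.fun_pow 3).const_mul (q ^ 2)).div_const 2).congr_deriv ?_
      push_cast
      ring) (by simp) fun ρ hρ => ?_
  set l := q + p * ρ with hl'
  set c := √(1 - (p - q * ρ) ^ 2) with hc'
  have hl : 0 < l := by
    have := hρ.1; positivity
  have h0 : 0 ≤ 1 - (p - q * ρ) ^ 2 := by
    have h1 : 0 ≤ p - q * ρ := by nlinarith [hρ.2]
    have h2 : p - q * ρ ≤ 1 := by nlinarith [mul_nonneg hq.le hρ.1.le]
    nlinarith
  have hd : l ^ 2 - c ^ 2 = ρ ^ 2 := by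
    rw [hc', Real.sq_sqrt h0, hl']; linear_combination (1 + ρ ^ 2) * hc
  refine mul_le_mul_of_nonneg_left (le_trans ?_ (cube_diff hl _)) hq.le
  rw [hd]
  refine mul_le_mul_of_nonneg_left ?_ (sq_nonneg ρ)
  have e : l + c ^ 2 / (2 * l) - 3 * q / 2 = ρ * (3 * p * l - ρ) / (2 * l) := by
    field_simp
    rw [show c ^ 2 = l ^ 2 - ρ ^ 2 by linarith, hl']
    ring
  have h3 : 0 ≤ 3 * p * l - ρ := by
    have hq1 : q ≤ 1 := by nlinarith
    rcases le_total (1 / 3) (p ^ 2) with h | h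
    · rw [hl']; nlinarith [mul_nonneg (sub_nonneg.2 h) hρ.1.le, mul_pos hp hq]
    · rw [hl']
      have := mul_le_mul_of_nonneg_left (hρ.2.le.trans hrp) (show 0 ≤ 1 - 3 * p ^ 2 by linarith)
      have h4 : 0 ≤ p * (3 * q + 3 * p ^ 2 - 1) := by
        refine mul_nonneg hp.le ?_
        nlinarith
      linarith
  have : 0 ≤ ρ * (3 * p * l - ρ) / (2 * l) :=
    div_nonneg (mul_nonneg hρ.1.le h3) (by positivity)
  linarith

/-- The lower bound for a profile to the left of `T` when `1 ≤ y`. -/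
theorem prefix_high {f : ℝ → ℝ} {T y : ℝ} (hT : 0 ≤ T) (hT1 : T ≤ 1) (hy : 0 < y)
    (hle : ∀ u ∈ Icc 0 T, y ≤ f u) (hi : IntervalIntegrable (fun u => f u ^ 3) volume 0 T) :
    ((y ^ 2 - 1) * (2 * y ^ 2 + 1) * T + (2 * y ^ 2 + 1 - (y ^ 2 - 1)) * T ^ 3 / 3 - T ^ 5 / 5) /
      (2 * y) ≤ ∫ u in (0 : ℝ)..T, (f u ^ 3 - √(1 - u ^ 2) ^ 3) := by
  have e : ∫ u in (0 : ℝ)..T, ((y ^ 2 - 1 + u ^ 2) * (2 * y ^ 2 + 1 - u ^ 2)) / (2 * y) =
      ((y ^ 2 - 1) * (2 * y ^ 2 + 1) * T + (2 * y ^ 2 + 1 - (y ^ 2 - 1)) * T ^ 3 / 3 - T ^ 5 / 5) /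
        (2 * y) := by
    rw [intervalIntegral.integral_eq_sub_of_hasDerivAt (f := fun u =>
      ((y ^ 2 - 1) * (2 * y ^ 2 + 1) * u + (2 * y ^ 2 + 1 - (y ^ 2 - 1)) * u ^ 3 / 3 - u ^ 5 / 5) /
        (2 * y)) (fun u _ => by
        have i : HasDerivAt (fun z : ℝ => z) 1 u := hasDerivAt_id u
        refine ((((i.const_mul ((y ^ 2 - 1) * (2 * y ^ 2 + 1))).fun_add
          (((i.fun_pow 3).const_mul (2 * y ^ 2 + 1 - (y ^ 2 - 1))).div_const 3)).fun_sub
            ((i.fun_pow 5).div_const 5)).div_const (2 * y)).congr_deriv ?_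
        push_cast
        ring) (Continuous.intervalIntegrable (by fun_prop) _ _)]
    simp
  rw [← e]
  refine intervalIntegral.integral_mono_on hT (Continuous.intervalIntegrable (by fun_prop) _ _)
    (hi.sub (Continuous.intervalIntegrable (by fun_prop) _ _)) fun u hu => ?_
  have h0 : 0 ≤ 1 - u ^ 2 := by nlinarith [hu.1, hu.2]
  refine le_trans ?_ (sub_le_sub_right (pow_le_pow_left₀ hy.le (hle u hu) 3) _)
  refine le_trans (le_of_eq ?_) (cube_diff hy _)
  rw [Real.sq_sqrt h0]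
  field_simp
  ring

/-- The lower bound for a profile to the left of `T` when `y ≤ 1`: the left tangent. -/
theorem prefix_low {f : ℝ → ℝ} {a b T y r : ℝ} (hconc : ConcaveOn ℝ (Icc 0 T) f)
    (hge : ∀ u ∈ Icc 0 T, √(1 - u ^ 2) ≤ f u) (hT1 : T ≤ 1) (ha : 0 ≤ a) (hb : 0 < b)
    (hab : a ^ 2 + b ^ 2 = 1) (hr : 0 < r) (hy : 0 < y) (eT : a + b * r = T) (ey : b - a * r = y)
    (hfT : f T = y) (hi : IntervalIntegrable (fun u => f u ^ 3) volume 0 T) :
    y * r ^ 3 * (y / 3 + 1 / 6 - T ^ 2 / 6 + T * y * r / 15) ≤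
      ∫ u in (0 : ℝ)..T, (f u ^ 3 - √(1 - u ^ 2) ^ 3) := by
  have haT : a < T := by nlinarith [mul_pos hb hr]
  have hT0 : 0 ≤ T := ha.trans haT.le
  have hby : y ≤ b := by nlinarith
  have hb1 : b ≤ 1 := by nlinarith
  have hfa : b ≤ f a := by
    have := hge a ⟨ha, haT.le⟩
    rwa [show 1 - a ^ 2 = b ^ 2 by linarith, Real.sqrt_sq hb.le] at this
  have hline : ∀ u ∈ Icc a T, (1 - a * u) / b ≤ f u := by
    intro u hu
    have hd : 0 < T - a := sub_pos.2 haT
    have h := hconc.2 (⟨ha, haT.le⟩ : a ∈ Icc 0 T) (⟨hT0, le_rfl⟩ : T ∈ Icc 0 T)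
      (div_nonneg (sub_nonneg.2 hu.2) hd.le) (div_nonneg (sub_nonneg.2 hu.1) hd.le)
      (by field_simp; ring)
    simp only [smul_eq_mul] at h
    rw [show (T - u) / (T - a) * a + (u - a) / (T - a) * T = u by field_simp; ring, hfT] at h
    refine le_trans ?_ (le_trans (add_le_add (mul_le_mul_of_nonneg_left hfa
      (div_nonneg (sub_nonneg.2 hu.2) hd.le)) le_rfl) h)
    refine le_of_eq ?_
    field_simp
    rw [← eT, ← ey]
    linear_combination (-r * b) * hab + (a * r) * hab - (a * r) * hab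
  have hi' : IntervalIntegrable (fun u => f u ^ 3 - √(1 - u ^ 2) ^ 3) volume 0 T :=
    hi.sub (Continuous.intervalIntegrable (by fun_prop) _ _)
  have hnn : ∀ u ∈ Icc 0 T, 0 ≤ f u ^ 3 - √(1 - u ^ 2) ^ 3 := fun u hu =>
    sub_nonneg.2 (pow_le_pow_left₀ (Real.sqrt_nonneg _) (hge u hu) 3)
  have e : ∫ u in a..T, (u - a) ^ 2 / b ^ 2 * (y + (1 - u ^ 2) / 2) =
      b * r ^ 3 * (y / 3 + 1 / 6 - a ^ 2 / 6 - a * (b * r) / 4 - (b * r) ^ 2 / 10) := by
    rw [intervalIntegral.integral_eq_sub_of_hasDerivAt (f := fun u =>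
      ((y + (1 - a ^ 2) / 2) * (u - a) ^ 3 / 3 - a * (u - a) ^ 4 / 4 - (u - a) ^ 5 / 10) / b ^ 2)
      (fun u _ => by
        have i : HasDerivAt (fun z : ℝ => z - a) 1 u := (hasDerivAt_id u).sub_const a
        refine (((((i.fun_pow 3).const_mul (y + (1 - a ^ 2) / 2)).div_const 3).fun_sub
          (((i.fun_pow 4).const_mul a).div_const 4)).fun_sub
            ((i.fun_pow 5).div_const 10)).div_const (b ^ 2) |>.congr_deriv ?_
        push_cast
        ring) (Continuous.intervalIntegrable (by fun_prop) _ _)]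
    rw [← eT, sub_self, add_sub_cancel_left]
    field_simp
    ring
  have hcmp : y * r ^ 3 * (y / 3 + 1 / 6 - T ^ 2 / 6 + T * y * r / 15) ≤
      b * r ^ 3 * (y / 3 + 1 / 6 - a ^ 2 / 6 - a * (b * r) / 4 - (b * r) ^ 2 / 10) := by
    have h1 : y / 3 + 1 / 6 - T ^ 2 / 6 + T * y * r / 15 ≤
        y / 3 + 1 / 6 - a ^ 2 / 6 - a * (b * r) / 4 - (b * r) ^ 2 / 10 := by
      have h2 := mul_le_mul_of_nonneg_left hby (mul_nonneg hT0 hr.le)
      have h3 : 0 ≤ a * (b * r) := by positivity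
      rw [← eT] at h2 ⊢
      linarith
    have h4 : 0 ≤ y / 3 + 1 / 6 - T ^ 2 / 6 + T * y * r / 15 := by
      have : 0 ≤ T * y * r := by positivity
      nlinarith
    exact mul_le_mul (mul_le_mul_of_nonneg_right hby (by positivity)) h1 h4 (by positivity)
  refine le_trans hcmp ?_
  rw [← e]
  refine le_trans ?_ (intervalIntegral.integral_mono_interval ha haT.le le_rfl
    ((ae_restrict_mem measurableSet_Ioc).mono fun u hu => hnn u (Ioc_subset_Icc_self hu)) hi')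
  refine intervalIntegral.integral_mono_on haT.le (Continuous.intervalIntegrable (by fun_prop) _ _)
    (hi'.mono_set (by rw [uIcc_of_le haT.le, uIcc_of_le hT0]; exact Icc_subset_Icc_left ha))
    fun u hu => ?_
  set l := (1 - a * u) / b with hl
  have hly : y ≤ l := by
    rw [hl, le_div_iff₀ hb]
    have := mul_le_mul_of_nonneg_left hu.2 ha
    have e3 : 1 - a * T = y * b := by rw [← eT, ← ey]; linear_combination (-1) * hab
    linarith
  have hl1 : l ≤ 1 := by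
    have h5 : a * a ≤ a * u := mul_le_mul_of_nonneg_left hu.1 ha
    have : l ≤ b := by rw [hl, div_le_iff₀ hb]; linarith
    linarith
  have hl0 : 0 < l := hy.trans_le hly
  have h0 : 0 ≤ 1 - u ^ 2 := by nlinarith [hu.1, hu.2]
  refine le_trans ?_ (sub_le_sub_right (pow_le_pow_left₀ hl0.le (hline u hu) 3) _)
  refine le_trans ?_ (cube_diff hl0 _)
  rw [Real.sq_sqrt h0]
  have e2 : (u - a) ^ 2 / b ^ 2 = l ^ 2 - (1 - u ^ 2) := by
    rw [hl, div_pow, eq_sub_iff_add_eq, ← mul_right_inj' (pow_ne_zero 2 hb.ne')]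
    field_simp
    linear_combination (1 - u ^ 2) * hab
  rw [← e2]
  gcongr
  · linarith

end Vale.Agent.P237.Petty.Hull.Five
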