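import Vale.Agent.P237.Petty.Hull.FivePath
import Vale.Agent.P237.Petty.Threshold

/-!
# P237: the John term of a body in dimension five

In John position `∑ c_v ∫ φ(‖x‖²) (‖x‖² - 5 ⟪v, x⟫²) = 0` for every `φ`. With
`φ(z) = 1 - 3/20 min z (10/3)` the integrand increases with the distance from the axis, so in each
slice the centred ball of equal volume gives a lower bound.
-/

namespace Vale.Agent.P237.Petty.Hull.Five

open Real Set MeasureTheory Module Metric
open AllN (hslice glue vroot)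
open scoped RealInnerProductSpace

universe u

set_option linter.unusedSectionVars false

variable {E : Type u} [NormedAddCommGroup E] [InnerProductSpace ℝ E] [FiniteDimensional ℝ E]
  [MeasurableSpace E] [BorelSpace E]

/-- The weight of the John identity. -/
noncomputable def weight (z : ℝ) : ℝ := 1 - 3 / 20 * min z (10 / 3)

theorem weight_of_le {z : ℝ} (h : z ≤ 10 / 3) : weight z = 1 - 3 / 20 * z := by
  rw [weight, min_eq_left h]

/-- The integrand on a slice at height `t`, as a function of the squared distance from the axis. -/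
noncomputable def sliceFun (t w : ℝ) : ℝ := weight (w + t ^ 2) * (w - 4 * t ^ 2)

theorem monotone_sliceFun (t : ℝ) : Monotone (sliceFun t) := by
  intro w₁ w₂ h
  set a := 10 / 3 - t ^ 2 with ha
  have low : ∀ u v, u ≤ v → v ≤ a → sliceFun t u ≤ sliceFun t v := fun u v huv hv => by
    rw [sliceFun, sliceFun, weight_of_le (by linarith), weight_of_le (by linarith)]
    nlinarith [mul_nonneg (sub_nonneg.2 huv) (show 0 ≤ 20 / 3 - u - v by nlinarith),
      mul_nonneg (sub_nonneg.2 huv) (sq_nonneg t)]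
  have high : ∀ u v, u ≤ v → a ≤ u → sliceFun t u ≤ sliceFun t v := fun u v huv hu => by
    simp only [sliceFun, weight, min_eq_right (show (10 / 3 : ℝ) ≤ u + t ^ 2 by linarith),
      min_eq_right (show (10 / 3 : ℝ) ≤ v + t ^ 2 by linarith)]
    linarith
  rcases le_total w₂ a with h2 | h2
  · exact low w₁ w₂ h h2
  rcases le_total a w₁ with h1 | h1
  · exact high w₁ w₂ h h1
  exact (low w₁ a h1 le_rfl).trans (high a w₂ h2 le_rfl)

theorem continuous_sliceFun (t : ℝ) : Continuous (sliceFun t) := by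
  unfold sliceFun weight; fun_prop

/-- Among sets of given volume the centred ball has the least integral of an increasing radial
function. -/
theorem radial_ge {v : E} [Nontrivial (ℝ ∙ v)ᗮ] {S : Set (ℝ ∙ v)ᗮ} (hS : IsCompact S) {h : ℝ → ℝ}
    (hc : Continuous h) (hm : MonotoneOn h (Ici 0)) :
    ∫ y in closedBall (0 : (ℝ ∙ v)ᗮ) (vroot S / disc v), h ‖y‖ ≤ ∫ y in S, h ‖y‖ := by
  set ρ := vroot S / disc v
  have hρ : 0 ≤ ρ := div_nonneg (AllN.vroot_nonneg S) (disc_pos v).le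
  set B := closedBall (0 : (ℝ ∙ v)ᗮ) ρ
  have hB : IsCompact B := isCompact_closedBall _ _
  have hvol : volume.real B = volume.real S := by
    rw [← AllN.vroot_pow B, ← AllN.vroot_pow S, vroot_closedBall v hρ,
      div_mul_cancel₀ _ (disc_pos v).ne']
  set q := fun y : (ℝ ∙ v)ᗮ => h ‖y‖ - h ρ
  have hint : ∀ A : Set (ℝ ∙ v)ᗮ, IsCompact A → IntegrableOn q A := fun A hA =>
    (Continuous.continuousOn (by fun_prop)).integrableOn_compact hA
  have key : ∫ y in B, q y ≤ ∫ y in S, q y := by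
    rw [← integral_indicator hB.measurableSet, ← integral_indicator hS.measurableSet]
    refine integral_mono ((hint B hB).integrable_indicator hB.measurableSet)
      ((hint S hS).integrable_indicator hS.measurableSet) fun y => ?_
    by_cases h1 : y ∈ B
    · have : q y ≤ 0 := sub_nonpos.2 (hm (norm_nonneg y) hρ (mem_closedBall_zero_iff.1 h1))
      by_cases h2 : y ∈ S <;> simp [h1, h2, this]
    · have : 0 ≤ q y := sub_nonneg.2 (hm hρ (norm_nonneg y)
        (not_le.1 fun h' => h1 (mem_closedBall_zero_iff.2 h')).le)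
      by_cases h2 : y ∈ S <;> simp [h1, h2, this]
  have hsq : ∀ A : Set (ℝ ∙ v)ᗮ, IsCompact A →
      ∫ y in A, q y = (∫ y in A, h ‖y‖) - volume.real A * h ρ := fun A hA => by
    rw [integral_sub ((Continuous.continuousOn (by fun_prop)).integrableOn_compact hA)
      (integrableOn_const (C := h ρ) hA.measure_lt_top.ne), setIntegral_const, smul_eq_mul]
  rw [hsq B hB, hsq S hS, hvol] at key
  linarith

/-- The integral of a radial function over a centred ball. -/
theorem radial_ball {F : Type*} [NormedAddCommGroup F] [InnerProductSpace ℝ F]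
    [FiniteDimensional ℝ F] [MeasurableSpace F] [BorelSpace F] [Nontrivial F] {h : ℝ → ℝ} {ρ : ℝ}
    (hρ : 0 ≤ ρ) :
    ∫ y in closedBall (0 : F) ρ, h ‖y‖ = finrank ℝ F * volume.real (closedBall (0 : F) 1) *
      ∫ r in (0 : ℝ)..ρ, r ^ (finrank ℝ F - 1) * h r := by
  rw [← integral_indicator measurableSet_closedBall]
  have e : (closedBall (0 : F) ρ).indicator (fun y => h ‖y‖) =
      fun y => (Iic ρ).indicator h ‖y‖ := by
    funext y
    by_cases hy : ‖y‖ ≤ ρ <;> simp [indicator, hy]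
  rw [e, integral_fun_norm_addHaar volume, measureReal_def, measureReal_def,
    Measure.addHaar_unitClosedBall_eq_addHaar_unitBall]
  have : (fun y : ℝ => y ^ (finrank ℝ F - 1) • (Iic ρ).indicator h y) =
      (Iic ρ).indicator fun y => y ^ (finrank ℝ F - 1) * h y := by
    funext y
    by_cases hy : y ≤ ρ <;> simp [indicator, hy]
  rw [this, setIntegral_indicator measurableSet_Iic, Ioi_inter_Iic,
    ← intervalIntegral.integral_of_le hρ, smul_eq_mul, nsmul_eq_mul]
  ring

theorem sliceFun_integral {t ρ : ℝ} (hρ : 0 ≤ ρ) (h : ρ ^ 2 + t ^ 2 ≤ 10 / 3) :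
    ∫ r in (0 : ℝ)..ρ, r ^ 3 * sliceFun t (r ^ 2) = ρ ^ 6 / 6 + 3 / 40 * t ^ 2 * ρ ^ 6
      - t ^ 2 * ρ ^ 4 + 3 / 20 * t ^ 4 * ρ ^ 4 - 3 / 160 * ρ ^ 8 := by
  rw [intervalIntegral.integral_congr (g := fun r => (1 + 9 / 20 * t ^ 2) * r ^ 5
    - 3 / 20 * r ^ 7 + (3 / 5 * t ^ 4 - 4 * t ^ 2) * r ^ 3) fun r hr => ?_]
  · rw [intervalIntegral.integral_eq_sub_of_hasDerivAt (f := fun r => (1 + 9 / 20 * t ^ 2) * r ^ 6 / 6
      - 3 / 20 * r ^ 8 / 8 + (3 / 5 * t ^ 4 - 4 * t ^ 2) * r ^ 4 / 4) (fun r _ => by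
        have i : HasDerivAt (fun z : ℝ => z) 1 r := hasDerivAt_id r
        refine (((((i.fun_pow 6).const_mul (1 + 9 / 20 * t ^ 2)).div_const 6).fun_sub
          (((i.fun_pow 8).const_mul (3 / 20 : ℝ)).div_const 8)).fun_add
          (((i.fun_pow 4).const_mul (3 / 5 * t ^ 4 - 4 * t ^ 2)).div_const 4)).congr_deriv ?_
        push_cast
        ring) (Continuous.intervalIntegrable (by fun_prop) _ _)]
    ring
  · rw [uIcc_of_le hρ] at hr
    have : r ^ 2 ≤ ρ ^ 2 := pow_le_pow_left₀ hr.1 hr.2 2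
    simp only [sliceFun]
    rw [weight_of_le (by linarith)]
    ring

/-- The John integral of a body is at least the John term of its profile. -/
theorem john_ge {v : E} [Nontrivial (ℝ ∙ v)ᗮ] (hv : ‖v‖ = 1) (hm : finrank ℝ (ℝ ∙ v)ᗮ = 4)
    {K : Set E} (hK : IsCompact K) (hb : ∀ x ∈ K, |⟪v, x⟫| ≤ 1)
    (hbound : ∀ t ∈ Icc (-1 : ℝ) 1, profile v K t ^ 2 + t ^ 2 ≤ 10 / 3)
    (hi : IntervalIntegrable (fun t => densQ (profile v K) t) volume (-1) 1) :
    4 * kappa 4 * ∫ t in (-1)..1, densQ (profile v K) t ≤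
      ∫ x in K, weight (‖x‖ ^ 2) * (‖x‖ ^ 2 - 5 * ⟪v, x⟫ ^ 2) := by
  obtain ⟨hia, hA⟩ := integral_slices hv hK hb
    (g := fun x => weight (‖x‖ ^ 2) * (‖x‖ ^ 2 - 5 * ⟪v, x⟫ ^ 2)) (by unfold weight; fun_prop)
  rw [hA, ← intervalIntegral.integral_const_mul]
  refine intervalIntegral.integral_mono_on (by norm_num) (hi.const_mul _) hia fun t ht => ?_
  set ρ := vroot (hslice v K t) / disc v
  have hρ : 0 ≤ ρ := div_nonneg (AllN.vroot_nonneg _) (disc_pos v).le
  have e : ∀ y : (ℝ ∙ v)ᗮ, weight (‖glue v (y, t)‖ ^ 2) *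
      (‖glue v (y, t)‖ ^ 2 - 5 * ⟪v, glue v (y, t)⟫ ^ 2) = sliceFun t (‖y‖ ^ 2) := fun y => by
    rw [norm_glue_sq hv, AllN.inner_glue hv, sliceFun]
    ring
  simp only [e]
  refine le_trans (le_of_eq ?_) (radial_ge (AllN.isCompact_hslice v hK t)
    (h := fun r => sliceFun t (r ^ 2)) ((continuous_sliceFun t).comp (continuous_pow 2))
    fun a ha b _ hab => monotone_sliceFun t (pow_le_pow_left₀ ha hab 2))
  rw [radial_ball (h := fun r => sliceFun t (r ^ 2)) hρ, hm, real_closedBall hm,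
    sliceFun_integral hρ (hbound t ht), densQ_eq]
  norm_num [profile, ρ]

/-- In John position some contact direction has a nonpositive John term. -/
theorem exists_contact_john (hfin : finrank ℝ E = 5) {K : Set E} (hK : IsCompact K) (s : Finset E)
    (c : E → ℝ) (hc : ∀ v ∈ s, 0 ≤ c v) (hsum : ∑ v ∈ s, c v = finrank ℝ E)
    (hid : ∀ x : E, ∑ v ∈ s, c v * ⟪v, x⟫ ^ 2 = ‖x‖ ^ 2) :
    ∃ v ∈ s, ∫ x in K, weight (‖x‖ ^ 2) * (‖x‖ ^ 2 - 5 * ⟪v, x⟫ ^ 2) ≤ 0 := by
  have hint : ∀ v : E, IntegrableOn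
      (fun x => c v * (weight (‖x‖ ^ 2) * (‖x‖ ^ 2 - 5 * ⟪v, x⟫ ^ 2))) K := fun v =>
    (Continuous.continuousOn (by unfold weight; fun_prop)).integrableOn_compact hK
  have hzero : ∑ v ∈ s, c v * ∫ x in K, weight (‖x‖ ^ 2) * (‖x‖ ^ 2 - 5 * ⟪v, x⟫ ^ 2) = 0 := by
    simp only [← integral_const_mul]
    rw [← integral_finsetSum s fun v _ => hint v]
    refine setIntegral_eq_zero_of_forall_eq_zero fun x _ => ?_
    calc ∑ v ∈ s, c v * (weight (‖x‖ ^ 2) * (‖x‖ ^ 2 - 5 * ⟪v, x⟫ ^ 2))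
        = weight (‖x‖ ^ 2) *
            ((∑ v ∈ s, c v) * ‖x‖ ^ 2 - 5 * ∑ v ∈ s, c v * ⟪v, x⟫ ^ 2) := by
          rw [Finset.sum_mul, Finset.mul_sum, ← Finset.sum_sub_distrib, Finset.mul_sum]
          exact Finset.sum_congr rfl fun v _ => by ring
      _ = 0 := by rw [hsum, hid, hfin]; push_cast; ring
  obtain ⟨w, hw, hcw⟩ : ∃ w ∈ s, c w ≠ 0 := by
    refine Finset.exists_ne_zero_of_sum_ne_zero ?_
    rw [hsum, hfin]
    norm_num
  by_contra hno
  simp only [not_exists, not_and, not_le] at hno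
  exact absurd hzero (ne_of_gt (Finset.sum_pos' (fun v hv => mul_nonneg (hc v hv) (hno v hv).le)
    ⟨w, hw, mul_pos ((hc w hw).lt_of_ne hcw.symm) (hno w hw)⟩))

end Vale.Agent.P237.Petty.Hull.Five
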