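import Mathlib

/-!
# P237: moments along the tangent from a point to the unit circle

`lineJK p q r` is the integral of `l^J ρ^K` over the abscissae of the tangent, where `l` is the
height and `ρ` the distance from the touching point. Generated formulas.
-/

namespace Vale.Agent.P237.Petty.Hull.Five

open Set

/-- `∫ l^4 ρ^0` along the tangent. -/
noncomputable def line40 (p q r : ℝ) : ℝ :=
  (1) * q ^ 5 * r
    + (2) * p * q ^ 4 * r ^ 2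
    + (2) * p ^ 2 * q ^ 3 * r ^ 3
    + (1) * p ^ 3 * q ^ 2 * r ^ 4
    + (1/5) * p ^ 4 * q * r ^ 5

/-- The density of the derivative of `line40`. -/
noncomputable def line40D (p q r : ℝ) : ℝ :=
  (2) * q ^ 3
    + (4) * p * q ^ 2 * r
    + (3) * p ^ 2 * q * r ^ 2
    + (4/5) * p ^ 3 * r ^ 3

theorem hasDerivWithinAt_line40 {P Q R : ℝ → ℝ} {x α κ : ℝ} {s : Set ℝ}
    (hc : P x ^ 2 + Q x ^ 2 = 1) (hq : Q x ≠ 0) (hr : R x ≠ 0)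
    (hP : HasDerivWithinAt P (Q x ^ 2 * κ / R x) s x)
    (hQ : HasDerivWithinAt Q (-P x * Q x * κ / R x) s x)
    (hR : HasDerivWithinAt R (-α / Q x + (Q x + P x * R x) * κ / R x) s x) :
    HasDerivWithinAt (fun t => line40 (P t) (Q t) (R t))
      (-α * ((Q x + P x * R x) ^ 4) + κ * Q x * R x * line40D (P x) (Q x) (R x) + Q x ^ 4 * (Q x ^ 2 * κ / R x)) s x := by
  have h := (((((((hQ.fun_pow 5).const_mul ((1) : ℝ)).fun_mul hR).fun_add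
      (((hP.const_mul ((2) : ℝ)).fun_mul (hQ.fun_pow 4)).fun_mul (hR.fun_pow 2))).fun_add
      ((((hP.fun_pow 2).const_mul ((2) : ℝ)).fun_mul (hQ.fun_pow 3)).fun_mul (hR.fun_pow 3))).fun_add
      ((((hP.fun_pow 3).const_mul ((1) : ℝ)).fun_mul (hQ.fun_pow 2)).fun_mul (hR.fun_pow 4))).fun_add
      ((((hP.fun_pow 4).const_mul ((1/5) : ℝ)).fun_mul hQ).fun_mul (hR.fun_pow 5)))
  refine h.congr_deriv ?_
  simp only [line40D, Nat.reduceSub, Nat.cast_ofNat]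
  linear_combination (κ * (R x)⁻¹ * (
      (2) * Q x ^ 4 * R x ^ 2
      + (4) * P x * Q x ^ 3 * R x ^ 3
      + (3) * P x ^ 2 * Q x ^ 2 * R x ^ 4
      + (4/5) * P x ^ 3 * Q x * R x ^ 5)) * hc
    + (κ * Q x * R x * ((2) * Q x ^ 3
      + (4) * P x * Q x ^ 2 * R x
      + (3) * P x ^ 2 * Q x * R x ^ 2
      + (4/5) * P x ^ 3 * R x ^ 3)) * (mul_inv_cancel₀ hr)
    + (-α * ((Q x + P x * R x) ^ 4)) * (mul_inv_cancel₀ hq)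

/-- `∫ l^4 ρ^2` along the tangent. -/
noncomputable def line42 (p q r : ℝ) : ℝ :=
  (1/3) * q ^ 5 * r ^ 3
    + (1) * p * q ^ 4 * r ^ 4
    + (6/5) * p ^ 2 * q ^ 3 * r ^ 5
    + (2/3) * p ^ 3 * q ^ 2 * r ^ 6
    + (1/7) * p ^ 4 * q * r ^ 7

/-- The density of the derivative of `line42`. -/
noncomputable def line42D (p q r : ℝ) : ℝ :=
  (1) * q ^ 5
    + (10/3) * p * q ^ 4 * r
    + (1) * q ^ 3 * r ^ 2
    + (5) * p ^ 2 * q ^ 3 * r ^ 2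
    + (12/5) * p * q ^ 2 * r ^ 3
    + (4) * p ^ 3 * q ^ 2 * r ^ 3
    + (2) * p ^ 2 * q * r ^ 4
    + (5/3) * p ^ 4 * q * r ^ 4
    + (4/7) * p ^ 3 * r ^ 5
    + (2/7) * p ^ 5 * r ^ 5

theorem hasDerivWithinAt_line42 {P Q R : ℝ → ℝ} {x α κ : ℝ} {s : Set ℝ}
    (hc : P x ^ 2 + Q x ^ 2 = 1) (hq : Q x ≠ 0) (hr : R x ≠ 0)
    (hP : HasDerivWithinAt P (Q x ^ 2 * κ / R x) s x)
    (hQ : HasDerivWithinAt Q (-P x * Q x * κ / R x) s x)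
    (hR : HasDerivWithinAt R (-α / Q x + (Q x + P x * R x) * κ / R x) s x) :
    HasDerivWithinAt (fun t => line42 (P t) (Q t) (R t))
      (-α * ((Q x + P x * R x) ^ 4 * R x ^ 2) + κ * Q x * R x * line42D (P x) (Q x) (R x)) s x := by
  have h := (((((((hQ.fun_pow 5).const_mul ((1/3) : ℝ)).fun_mul (hR.fun_pow 3)).fun_add
      (((hP.const_mul ((1) : ℝ)).fun_mul (hQ.fun_pow 4)).fun_mul (hR.fun_pow 4))).fun_add
      ((((hP.fun_pow 2).const_mul ((6/5) : ℝ)).fun_mul (hQ.fun_pow 3)).fun_mul (hR.fun_pow 5))).fun_add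
      ((((hP.fun_pow 3).const_mul ((2/3) : ℝ)).fun_mul (hQ.fun_pow 2)).fun_mul (hR.fun_pow 6))).fun_add
      ((((hP.fun_pow 4).const_mul ((1/7) : ℝ)).fun_mul hQ).fun_mul (hR.fun_pow 7)))
  refine h.congr_deriv ?_
  simp only [line42D, Nat.reduceSub, Nat.cast_ofNat]
  linear_combination (κ * (R x)⁻¹ * (
      (1) * Q x ^ 4 * R x ^ 4
      + (12/5) * P x * Q x ^ 3 * R x ^ 5
      + (2) * P x ^ 2 * Q x ^ 2 * R x ^ 6
      + (4/7) * P x ^ 3 * Q x * R x ^ 7)) * hc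
    + (κ * Q x * R x * ((1) * Q x ^ 5
      + (10/3) * P x * Q x ^ 4 * R x
      + (1) * Q x ^ 3 * R x ^ 2
      + (5) * P x ^ 2 * Q x ^ 3 * R x ^ 2
      + (12/5) * P x * Q x ^ 2 * R x ^ 3
      + (4) * P x ^ 3 * Q x ^ 2 * R x ^ 3
      + (2) * P x ^ 2 * Q x * R x ^ 4
      + (5/3) * P x ^ 4 * Q x * R x ^ 4
      + (4/7) * P x ^ 3 * R x ^ 5
      + (2/7) * P x ^ 5 * R x ^ 5)) * (mul_inv_cancel₀ hr)
    + (-α * ((Q x + P x * R x) ^ 4 * R x ^ 2)) * (mul_inv_cancel₀ hq)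

/-- `∫ l^4 ρ^4` along the tangent. -/
noncomputable def line44 (p q r : ℝ) : ℝ :=
  (1/5) * q ^ 5 * r ^ 5
    + (2/3) * p * q ^ 4 * r ^ 6
    + (6/7) * p ^ 2 * q ^ 3 * r ^ 7
    + (1/2) * p ^ 3 * q ^ 2 * r ^ 8
    + (1/9) * p ^ 4 * q * r ^ 9

/-- The density of the derivative of `line44`. -/
noncomputable def line44D (p q r : ℝ) : ℝ :=
  (1) * q ^ 5 * r ^ 2
    + (4) * p * q ^ 4 * r ^ 3
    + (2/3) * q ^ 3 * r ^ 4
    + (20/3) * p ^ 2 * q ^ 3 * r ^ 4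
    + (12/7) * p * q ^ 2 * r ^ 5
    + (40/7) * p ^ 3 * q ^ 2 * r ^ 5
    + (3/2) * p ^ 2 * q * r ^ 6
    + (5/2) * p ^ 4 * q * r ^ 6
    + (4/9) * p ^ 3 * r ^ 7
    + (4/9) * p ^ 5 * r ^ 7

theorem hasDerivWithinAt_line44 {P Q R : ℝ → ℝ} {x α κ : ℝ} {s : Set ℝ}
    (hc : P x ^ 2 + Q x ^ 2 = 1) (hq : Q x ≠ 0) (hr : R x ≠ 0)
    (hP : HasDerivWithinAt P (Q x ^ 2 * κ / R x) s x)
    (hQ : HasDerivWithinAt Q (-P x * Q x * κ / R x) s x)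
    (hR : HasDerivWithinAt R (-α / Q x + (Q x + P x * R x) * κ / R x) s x) :
    HasDerivWithinAt (fun t => line44 (P t) (Q t) (R t))
      (-α * ((Q x + P x * R x) ^ 4 * R x ^ 4) + κ * Q x * R x * line44D (P x) (Q x) (R x)) s x := by
  have h := (((((((hQ.fun_pow 5).const_mul ((1/5) : ℝ)).fun_mul (hR.fun_pow 5)).fun_add
      (((hP.const_mul ((2/3) : ℝ)).fun_mul (hQ.fun_pow 4)).fun_mul (hR.fun_pow 6))).fun_add
      ((((hP.fun_pow 2).const_mul ((6/7) : ℝ)).fun_mul (hQ.fun_pow 3)).fun_mul (hR.fun_pow 7))).fun_add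
      ((((hP.fun_pow 3).const_mul ((1/2) : ℝ)).fun_mul (hQ.fun_pow 2)).fun_mul (hR.fun_pow 8))).fun_add
      ((((hP.fun_pow 4).const_mul ((1/9) : ℝ)).fun_mul hQ).fun_mul (hR.fun_pow 9)))
  refine h.congr_deriv ?_
  simp only [line44D, Nat.reduceSub, Nat.cast_ofNat]
  linear_combination (κ * (R x)⁻¹ * (
      (2/3) * Q x ^ 4 * R x ^ 6
      + (12/7) * P x * Q x ^ 3 * R x ^ 7
      + (3/2) * P x ^ 2 * Q x ^ 2 * R x ^ 8
      + (4/9) * P x ^ 3 * Q x * R x ^ 9)) * hc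
    + (κ * Q x * R x * ((1) * Q x ^ 5 * R x ^ 2
      + (4) * P x * Q x ^ 4 * R x ^ 3
      + (2/3) * Q x ^ 3 * R x ^ 4
      + (20/3) * P x ^ 2 * Q x ^ 3 * R x ^ 4
      + (12/7) * P x * Q x ^ 2 * R x ^ 5
      + (40/7) * P x ^ 3 * Q x ^ 2 * R x ^ 5
      + (3/2) * P x ^ 2 * Q x * R x ^ 6
      + (5/2) * P x ^ 4 * Q x * R x ^ 6
      + (4/9) * P x ^ 3 * R x ^ 7
      + (4/9) * P x ^ 5 * R x ^ 7)) * (mul_inv_cancel₀ hr)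
    + (-α * ((Q x + P x * R x) ^ 4 * R x ^ 4)) * (mul_inv_cancel₀ hq)

/-- `∫ l^6 ρ^0` along the tangent. -/
noncomputable def line60 (p q r : ℝ) : ℝ :=
  (1) * q ^ 7 * r
    + (3) * p * q ^ 6 * r ^ 2
    + (5) * p ^ 2 * q ^ 5 * r ^ 3
    + (5) * p ^ 3 * q ^ 4 * r ^ 4
    + (3) * p ^ 4 * q ^ 3 * r ^ 5
    + (1) * p ^ 5 * q ^ 2 * r ^ 6
    + (1/7) * p ^ 6 * q * r ^ 7

/-- The density of the derivative of `line60`. -/
noncomputable def line60D (p q r : ℝ) : ℝ :=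
  (3) * q ^ 5
    + (10) * p * q ^ 4 * r
    + (15) * p ^ 2 * q ^ 3 * r ^ 2
    + (12) * p ^ 3 * q ^ 2 * r ^ 3
    + (5) * p ^ 4 * q * r ^ 4
    + (6/7) * p ^ 5 * r ^ 5

theorem hasDerivWithinAt_line60 {P Q R : ℝ → ℝ} {x α κ : ℝ} {s : Set ℝ}
    (hc : P x ^ 2 + Q x ^ 2 = 1) (hq : Q x ≠ 0) (hr : R x ≠ 0)
    (hP : HasDerivWithinAt P (Q x ^ 2 * κ / R x) s x)
    (hQ : HasDerivWithinAt Q (-P x * Q x * κ / R x) s x)
    (hR : HasDerivWithinAt R (-α / Q x + (Q x + P x * R x) * κ / R x) s x) :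
    HasDerivWithinAt (fun t => line60 (P t) (Q t) (R t))
      (-α * ((Q x + P x * R x) ^ 6) + κ * Q x * R x * line60D (P x) (Q x) (R x) + Q x ^ 6 * (Q x ^ 2 * κ / R x)) s x := by
  have h := (((((((((hQ.fun_pow 7).const_mul ((1) : ℝ)).fun_mul hR).fun_add
      (((hP.const_mul ((3) : ℝ)).fun_mul (hQ.fun_pow 6)).fun_mul (hR.fun_pow 2))).fun_add
      ((((hP.fun_pow 2).const_mul ((5) : ℝ)).fun_mul (hQ.fun_pow 5)).fun_mul (hR.fun_pow 3))).fun_add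
      ((((hP.fun_pow 3).const_mul ((5) : ℝ)).fun_mul (hQ.fun_pow 4)).fun_mul (hR.fun_pow 4))).fun_add
      ((((hP.fun_pow 4).const_mul ((3) : ℝ)).fun_mul (hQ.fun_pow 3)).fun_mul (hR.fun_pow 5))).fun_add
      ((((hP.fun_pow 5).const_mul ((1) : ℝ)).fun_mul (hQ.fun_pow 2)).fun_mul (hR.fun_pow 6))).fun_add
      ((((hP.fun_pow 6).const_mul ((1/7) : ℝ)).fun_mul hQ).fun_mul (hR.fun_pow 7)))
  refine h.congr_deriv ?_
  simp only [line60D, Nat.reduceSub, Nat.cast_ofNat]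
  linear_combination (κ * (R x)⁻¹ * (
      (3) * Q x ^ 6 * R x ^ 2
      + (10) * P x * Q x ^ 5 * R x ^ 3
      + (15) * P x ^ 2 * Q x ^ 4 * R x ^ 4
      + (12) * P x ^ 3 * Q x ^ 3 * R x ^ 5
      + (5) * P x ^ 4 * Q x ^ 2 * R x ^ 6
      + (6/7) * P x ^ 5 * Q x * R x ^ 7)) * hc
    + (κ * Q x * R x * ((3) * Q x ^ 5
      + (10) * P x * Q x ^ 4 * R x
      + (15) * P x ^ 2 * Q x ^ 3 * R x ^ 2
      + (12) * P x ^ 3 * Q x ^ 2 * R x ^ 3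
      + (5) * P x ^ 4 * Q x * R x ^ 4
      + (6/7) * P x ^ 5 * R x ^ 5)) * (mul_inv_cancel₀ hr)
    + (-α * ((Q x + P x * R x) ^ 6)) * (mul_inv_cancel₀ hq)

/-- `∫ l^6 ρ^2` along the tangent. -/
noncomputable def line62 (p q r : ℝ) : ℝ :=
  (1/3) * q ^ 7 * r ^ 3
    + (3/2) * p * q ^ 6 * r ^ 4
    + (3) * p ^ 2 * q ^ 5 * r ^ 5
    + (10/3) * p ^ 3 * q ^ 4 * r ^ 6
    + (15/7) * p ^ 4 * q ^ 3 * r ^ 7
    + (3/4) * p ^ 5 * q ^ 2 * r ^ 8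
    + (1/9) * p ^ 6 * q * r ^ 9

/-- The density of the derivative of `line62`. -/
noncomputable def line62D (p q r : ℝ) : ℝ :=
  (1) * q ^ 7
    + (14/3) * p * q ^ 6 * r
    + (3/2) * q ^ 5 * r ^ 2
    + (21/2) * p ^ 2 * q ^ 5 * r ^ 2
    + (6) * p * q ^ 4 * r ^ 3
    + (14) * p ^ 3 * q ^ 4 * r ^ 3
    + (10) * p ^ 2 * q ^ 3 * r ^ 4
    + (35/3) * p ^ 4 * q ^ 3 * r ^ 4
    + (60/7) * p ^ 3 * q ^ 2 * r ^ 5
    + (6) * p ^ 5 * q ^ 2 * r ^ 5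
    + (15/4) * p ^ 4 * q * r ^ 6
    + (7/4) * p ^ 6 * q * r ^ 6
    + (2/3) * p ^ 5 * r ^ 7
    + (2/9) * p ^ 7 * r ^ 7

theorem hasDerivWithinAt_line62 {P Q R : ℝ → ℝ} {x α κ : ℝ} {s : Set ℝ}
    (hc : P x ^ 2 + Q x ^ 2 = 1) (hq : Q x ≠ 0) (hr : R x ≠ 0)
    (hP : HasDerivWithinAt P (Q x ^ 2 * κ / R x) s x)
    (hQ : HasDerivWithinAt Q (-P x * Q x * κ / R x) s x)
    (hR : HasDerivWithinAt R (-α / Q x + (Q x + P x * R x) * κ / R x) s x) :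
    HasDerivWithinAt (fun t => line62 (P t) (Q t) (R t))
      (-α * ((Q x + P x * R x) ^ 6 * R x ^ 2) + κ * Q x * R x * line62D (P x) (Q x) (R x)) s x := by
  have h := (((((((((hQ.fun_pow 7).const_mul ((1/3) : ℝ)).fun_mul (hR.fun_pow 3)).fun_add
      (((hP.const_mul ((3/2) : ℝ)).fun_mul (hQ.fun_pow 6)).fun_mul (hR.fun_pow 4))).fun_add
      ((((hP.fun_pow 2).const_mul ((3) : ℝ)).fun_mul (hQ.fun_pow 5)).fun_mul (hR.fun_pow 5))).fun_add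
      ((((hP.fun_pow 3).const_mul ((10/3) : ℝ)).fun_mul (hQ.fun_pow 4)).fun_mul (hR.fun_pow 6))).fun_add
      ((((hP.fun_pow 4).const_mul ((15/7) : ℝ)).fun_mul (hQ.fun_pow 3)).fun_mul (hR.fun_pow 7))).fun_add
      ((((hP.fun_pow 5).const_mul ((3/4) : ℝ)).fun_mul (hQ.fun_pow 2)).fun_mul (hR.fun_pow 8))).fun_add
      ((((hP.fun_pow 6).const_mul ((1/9) : ℝ)).fun_mul hQ).fun_mul (hR.fun_pow 9)))
  refine h.congr_deriv ?_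
  simp only [line62D, Nat.reduceSub, Nat.cast_ofNat]
  linear_combination (κ * (R x)⁻¹ * (
      (3/2) * Q x ^ 6 * R x ^ 4
      + (6) * P x * Q x ^ 5 * R x ^ 5
      + (10) * P x ^ 2 * Q x ^ 4 * R x ^ 6
      + (60/7) * P x ^ 3 * Q x ^ 3 * R x ^ 7
      + (15/4) * P x ^ 4 * Q x ^ 2 * R x ^ 8
      + (2/3) * P x ^ 5 * Q x * R x ^ 9)) * hc
    + (κ * Q x * R x * ((1) * Q x ^ 7
      + (14/3) * P x * Q x ^ 6 * R x
      + (3/2) * Q x ^ 5 * R x ^ 2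
      + (21/2) * P x ^ 2 * Q x ^ 5 * R x ^ 2
      + (6) * P x * Q x ^ 4 * R x ^ 3
      + (14) * P x ^ 3 * Q x ^ 4 * R x ^ 3
      + (10) * P x ^ 2 * Q x ^ 3 * R x ^ 4
      + (35/3) * P x ^ 4 * Q x ^ 3 * R x ^ 4
      + (60/7) * P x ^ 3 * Q x ^ 2 * R x ^ 5
      + (6) * P x ^ 5 * Q x ^ 2 * R x ^ 5
      + (15/4) * P x ^ 4 * Q x * R x ^ 6
      + (7/4) * P x ^ 6 * Q x * R x ^ 6
      + (2/3) * P x ^ 5 * R x ^ 7
      + (2/9) * P x ^ 7 * R x ^ 7)) * (mul_inv_cancel₀ hr)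
    + (-α * ((Q x + P x * R x) ^ 6 * R x ^ 2)) * (mul_inv_cancel₀ hq)

/-- `∫ l^8 ρ^0` along the tangent. -/
noncomputable def line80 (p q r : ℝ) : ℝ :=
  (1) * q ^ 9 * r
    + (4) * p * q ^ 8 * r ^ 2
    + (28/3) * p ^ 2 * q ^ 7 * r ^ 3
    + (14) * p ^ 3 * q ^ 6 * r ^ 4
    + (14) * p ^ 4 * q ^ 5 * r ^ 5
    + (28/3) * p ^ 5 * q ^ 4 * r ^ 6
    + (4) * p ^ 6 * q ^ 3 * r ^ 7
    + (1) * p ^ 7 * q ^ 2 * r ^ 8
    + (1/9) * p ^ 8 * q * r ^ 9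

/-- The density of the derivative of `line80`. -/
noncomputable def line80D (p q r : ℝ) : ℝ :=
  (4) * q ^ 7
    + (56/3) * p * q ^ 6 * r
    + (42) * p ^ 2 * q ^ 5 * r ^ 2
    + (56) * p ^ 3 * q ^ 4 * r ^ 3
    + (140/3) * p ^ 4 * q ^ 3 * r ^ 4
    + (24) * p ^ 5 * q ^ 2 * r ^ 5
    + (7) * p ^ 6 * q * r ^ 6
    + (8/9) * p ^ 7 * r ^ 7

theorem hasDerivWithinAt_line80 {P Q R : ℝ → ℝ} {x α κ : ℝ} {s : Set ℝ}
    (hc : P x ^ 2 + Q x ^ 2 = 1) (hq : Q x ≠ 0) (hr : R x ≠ 0)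
    (hP : HasDerivWithinAt P (Q x ^ 2 * κ / R x) s x)
    (hQ : HasDerivWithinAt Q (-P x * Q x * κ / R x) s x)
    (hR : HasDerivWithinAt R (-α / Q x + (Q x + P x * R x) * κ / R x) s x) :
    HasDerivWithinAt (fun t => line80 (P t) (Q t) (R t))
      (-α * ((Q x + P x * R x) ^ 8) + κ * Q x * R x * line80D (P x) (Q x) (R x) + Q x ^ 8 * (Q x ^ 2 * κ / R x)) s x := by
  have h := (((((((((((hQ.fun_pow 9).const_mul ((1) : ℝ)).fun_mul hR).fun_add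
      (((hP.const_mul ((4) : ℝ)).fun_mul (hQ.fun_pow 8)).fun_mul (hR.fun_pow 2))).fun_add
      ((((hP.fun_pow 2).const_mul ((28/3) : ℝ)).fun_mul (hQ.fun_pow 7)).fun_mul (hR.fun_pow 3))).fun_add
      ((((hP.fun_pow 3).const_mul ((14) : ℝ)).fun_mul (hQ.fun_pow 6)).fun_mul (hR.fun_pow 4))).fun_add
      ((((hP.fun_pow 4).const_mul ((14) : ℝ)).fun_mul (hQ.fun_pow 5)).fun_mul (hR.fun_pow 5))).fun_add
      ((((hP.fun_pow 5).const_mul ((28/3) : ℝ)).fun_mul (hQ.fun_pow 4)).fun_mul (hR.fun_pow 6))).fun_add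
      ((((hP.fun_pow 6).const_mul ((4) : ℝ)).fun_mul (hQ.fun_pow 3)).fun_mul (hR.fun_pow 7))).fun_add
      ((((hP.fun_pow 7).const_mul ((1) : ℝ)).fun_mul (hQ.fun_pow 2)).fun_mul (hR.fun_pow 8))).fun_add
      ((((hP.fun_pow 8).const_mul ((1/9) : ℝ)).fun_mul hQ).fun_mul (hR.fun_pow 9)))
  refine h.congr_deriv ?_
  simp only [line80D, Nat.reduceSub, Nat.cast_ofNat]
  linear_combination (κ * (R x)⁻¹ * (
      (4) * Q x ^ 8 * R x ^ 2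
      + (56/3) * P x * Q x ^ 7 * R x ^ 3
      + (42) * P x ^ 2 * Q x ^ 6 * R x ^ 4
      + (56) * P x ^ 3 * Q x ^ 5 * R x ^ 5
      + (140/3) * P x ^ 4 * Q x ^ 4 * R x ^ 6
      + (24) * P x ^ 5 * Q x ^ 3 * R x ^ 7
      + (7) * P x ^ 6 * Q x ^ 2 * R x ^ 8
      + (8/9) * P x ^ 7 * Q x * R x ^ 9)) * hc
    + (κ * Q x * R x * ((4) * Q x ^ 7
      + (56/3) * P x * Q x ^ 6 * R x
      + (42) * P x ^ 2 * Q x ^ 5 * R x ^ 2
      + (56) * P x ^ 3 * Q x ^ 4 * R x ^ 3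
      + (140/3) * P x ^ 4 * Q x ^ 3 * R x ^ 4
      + (24) * P x ^ 5 * Q x ^ 2 * R x ^ 5
      + (7) * P x ^ 6 * Q x * R x ^ 6
      + (8/9) * P x ^ 7 * R x ^ 7)) * (mul_inv_cancel₀ hr)
    + (-α * ((Q x + P x * R x) ^ 8)) * (mul_inv_cancel₀ hq)

end Vale.Agent.P237.Petty.Hull.Five
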