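import Vale.Agent.P237.Petty.Hull.FiveParam

/-!
# P237: a certificate of the hull step in dimension five

Generated data: the four forms in the parameters, a subdivision of the rectangle, and the kernel's
test of each piece.
-/

namespace Vale.Agent.P237.Petty.Hull.Five

/-- The form `low0`. -/
def lowP0 : Poly (Poly ℤ) := ⟨[
    ⟨[42976237500]⟩,
    ⟨[]⟩,
    ⟨[-1066603387500, 854323050000, -464213531250]⟩,
    ⟨[]⟩,
    ⟨[13252013775000, -20513627400000, 9830601506250, -2542059450000, 52305750000]⟩,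
    ⟨[]⟩,
    ⟨[-20096736975000, 66697501500000, -73349409262500, 29811209400000, -5596715250000, 269001000000]⟩,
    ⟨[]⟩,
    ⟨[4488964987500, -38766222600000, 93883578862500, -90118482300000, 34452054000000, -6157134000000, 470751750000]⟩,
    ⟨[]⟩,
    ⟨[3379385362500, -8271974550000, -2985878306250, 29811209400000, -34452054000000, 15243390000000, -3452179500000, 278964000000]⟩,
    ⟨[]⟩,
    ⟨[0, 0, 464213531250, -2542059450000, 5596715250000, -6157134000000, 3452179500000, -836892000000]⟩,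
    ⟨[]⟩,
    ⟨[0, 0, 0, 0, -52305750000, 269001000000, -470751750000, 278964000000]⟩]⟩

theorem lowP0_eq : same (low0 pb pa pn pLow (pConst 1)) lowP0 = true := by decide +kernel

/-- The form `low1`. -/
def lowP1 : Poly (Poly ℤ) := ⟨[
    ⟨[]⟩,
    ⟨[]⟩,
    ⟨[]⟩,
    ⟨[0, 0, 0, 2904900526080]⟩,
    ⟨[]⟩,
    ⟨[0, 0, 0, -9683001753600, 14911822700544, -677810122752]⟩,
    ⟨[]⟩,
    ⟨[0, 0, 0, 9683001753600, -38990220394496, 37602323476480, -3550433976320]⟩,
    ⟨[]⟩,
    ⟨[0, 0, 0, 0, 27499724980224, -71331446251520, 54870343270400, -6778101227520]⟩,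
    ⟨[]⟩,
    ⟨[0, 0, 0, -4841500876800, 2323920420864, 33244972687360, -66489945374720, 43057081131008, -5551587672064]⟩,
    ⟨[]⟩,
    ⟨[0, 0, 0, 1936600350720, -5745247707136, 484150087680, 18720470056960, -27564278325248, 14201735905280, -1549280280576]⟩,
    ⟨[]⟩,
    ⟨[0, 0, 0, 0, 0, 677810122752, -3550433976320, 6778101227520, -5551587672064, 1549280280576]⟩]⟩

theorem lowP1_eq : same (low1 pb pa pn pLow (pConst 1)) lowP1 = true := by decide +kernel

/-- The form `fRest`. -/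
def lowP2 : Poly (Poly ℤ) := ⟨[
    ⟨[68761980]⟩,
    ⟨[]⟩,
    ⟨[-1706565420, 1366916880, -742741650]⟩,
    ⟨[]⟩,
    ⟨[21203222040, -32821803840, 15728962410, -4067295120, 83689200]⟩,
    ⟨[]⟩,
    ⟨[-32154779160, 106716002400, -117359054820, 47697935040, -8954744400, 430401600]⟩,
    ⟨[]⟩,
    ⟨[7182343980, -62025956160, 150213726180, -144189571680, 55123286400, -9851414400, 753202800]⟩,
    ⟨[]⟩,
    ⟨[5407016580, -13235159280, -4777405290, 47697935040, -55123286400, 24389424000, -5523487200, 446342400]⟩,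
    ⟨[]⟩,
    ⟨[0, 0, 742741650, -4067295120, 8954744400, -9851414400, 5523487200, -1339027200]⟩,
    ⟨[]⟩,
    ⟨[0, 0, 0, 0, -83689200, 430401600, -753202800, 446342400]⟩]⟩

theorem lowP2_eq : same (fRest pb pa pn pLow (pConst 1)) lowP2 = true := by decide +kernel

/-- The form `top1`. -/
def lowP3 : Poly (Poly ℤ) := ⟨[
    ⟨[2737889280]⟩,
    ⟨[]⟩,
    ⟨[2737889280, 7301038080]⟩,
    ⟨[]⟩,
    ⟨[-5475778560, 14602076160, 5475778560]⟩,
    ⟨[]⟩,
    ⟨[-5475778560, 0, 16427335680]⟩,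
    ⟨[]⟩,
    ⟨[2737889280, -14602076160, 16427335680]⟩,
    ⟨[]⟩,
    ⟨[2737889280, -7301038080, 5475778560]⟩]⟩

theorem lowP3_eq : same (top1 pb pa pn pLow (pConst 1)) lowP3 = true := by decide +kernel

/-- A subdivision of the rectangle. -/
def treeLow : Tree :=
  .splitW 1600
    (.splitW 800
      (.leaf 330 3)
      (.leaf 317 15))
    (.splitW 2400
      (.leaf 299 36)
      (.leaf 275 71))

theorem low_piece0 : Piece.ok 3200 1024 lowP0 lowP1 lowP2 lowP3
    ⟨330, 3, 0, 800, 0, 1024⟩ = true := by decide +kernel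

theorem low_piece1 : Piece.ok 3200 1024 lowP0 lowP1 lowP2 lowP3
    ⟨317, 15, 800, 1600, 0, 1024⟩ = true := by decide +kernel

theorem low_piece2 : Piece.ok 3200 1024 lowP0 lowP1 lowP2 lowP3
    ⟨299, 36, 1600, 2400, 0, 1024⟩ = true := by decide +kernel

theorem low_piece3 : Piece.ok 3200 1024 lowP0 lowP1 lowP2 lowP3
    ⟨275, 71, 2400, 3200, 0, 1024⟩ = true := by decide +kernel

theorem low_ok {w s : ℝ} (hw₀ : (0 : ℝ) ≤ 3200 * w) (hw₁ : 3200 * w ≤ 3200) (hs₀ : 0 ≤ s)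
    (hs₁ : s ≤ 1) :
    ∃ κ X : ℝ, 0 ≤ κ ∧ 0 < X ∧ (1 + κ * X) ^ 3 ≤ 1 + X ∧
      0 ≤ ev2 w s (low0 pb pa pn pLow (pConst 1)) + κ * ev2 w s (low1 pb pa pn pLow (pConst 1)) ∧
      0 ≤ ev2 w s (fRest pb pa pn pLow (pConst 1)) + κ * X * ev2 w s (top1 pb pa pn pLow (pConst 1)) := by
  rw [ev2_eq_of_same lowP0_eq, ev2_eq_of_same lowP1_eq, ev2_eq_of_same lowP2_eq, ev2_eq_of_same lowP3_eq]
  refine treeLow.pieces_sound (dw := 3200) (ds := 1024) (w₀ := 0) (w₁ := 3200) (s₀ := 0) (s₁ := 1024)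
    (by norm_num) (by norm_num) ?_ (by push_cast; linarith) (by push_cast; linarith)
    (by push_cast; linarith) (by push_cast; linarith)
  rw [show treeLow.pieces 0 3200 0 1024 = [⟨330, 3, 0, 800, 0, 1024⟩,
      ⟨317, 15, 800, 1600, 0, 1024⟩,
      ⟨299, 36, 1600, 2400, 0, 1024⟩,
      ⟨275, 71, 2400, 3200, 0, 1024⟩] from rfl]
  simp [low_piece0, low_piece1, low_piece2, low_piece3]

end Vale.Agent.P237.Petty.Hull.Five
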