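import Vale.Agent.P237.Petty.Hull.FiveCheck

/-!
# P237: the derivative of the functional of dimension five along the hull homotopy

`(p, q)` is the right touching point and `r` the length of the tangent. `moment j k` is
`∫₀¹ x^(k+1) (q + p r x)^j dx`. The quantities are written with `(p, q, r) = (b/n, a/n, R/D)` as
quotients of forms with integer coefficients, so that positivity can be tested by the kernel.
-/

namespace Vale.Agent.P237.Petty.Hull.Five

/-- The derivative of `∫ f³ / A₀` along the tangent, divided by the common factor. -/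
noncomputable def cA (p q r : ℝ) : ℝ :=
  1061 / 625 * (2 * q ^ 2 + 8 / 3 * p * q * r + p ^ 2 * r ^ 2)

/-- The derivative of `3751/2000 ∫ f⁴` along the tangent. -/
noncomputable def cB (p q r : ℝ) : ℝ :=
  3751 / 2000 * (2 * q ^ 3 + 4 * p * q ^ 2 * r + 3 * p ^ 2 * q * r ^ 2 + 4 / 5 * p ^ 3 * r ^ 3)

/-- `∫₀¹ x^(k+1) (q + p r x)³ dx`. -/
noncomputable def moment3 (k : ℕ) (p q r : ℝ) : ℝ :=
  q ^ 3 / (k + 2) + 3 * p * q ^ 2 * r / (k + 3) + 3 * p ^ 2 * q * r ^ 2 / (k + 4)
    + p ^ 3 * r ^ 3 / (k + 5)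

/-- `∫₀¹ x^(k+1) (q + p r x)⁵ dx`. -/
noncomputable def moment5 (k : ℕ) (p q r : ℝ) : ℝ :=
  q ^ 5 / (k + 2) + 5 * p * q ^ 4 * r / (k + 3) + 10 * p ^ 2 * q ^ 3 * r ^ 2 / (k + 4)
    + 10 * p ^ 3 * q ^ 2 * r ^ 3 / (k + 5) + 5 * p ^ 4 * q * r ^ 4 / (k + 6)
    + p ^ 5 * r ^ 5 / (k + 7)

/-- The derivative of the John term along the tangent. -/
noncomputable def cM (p q r : ℝ) : ℝ :=
  15 / 8 * (1107 / 2000) * ((17 * (5 * moment5 0 p q r - 4 * moment3 0 p q r)
    - r ^ 2 * (56 * moment3 2 p q r + 15 * moment5 2 p q r) + 12 * r ^ 4 * moment3 4 p q r) / 20)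

/-- The margin at a root bound equal to one. -/
noncomputable def rest (p q r : ℝ) : ℝ := cA p q r - cB p q r + cM p q r

/-- The lower bound for the excess of `∫ f³ / A₀` when `q + p r ≤ 1`. -/
noncomputable def xLow (p q r : ℝ) : ℝ :=
  1061 / 625 * (q ^ 2 * r ^ 3 / 2 + (q + p * r) * r ^ 3 * ((q + p * r) / 3 + 1 / 6
    - (p - q * r) ^ 2 / 6 + (p - q * r) * (q + p * r) * r / 15))

/-- The numerator of the lower bound when `1 ≤ q + p r`, to be divided by `2 (q + p r)`. -/
noncomputable def xHigh (p q r : ℝ) : ℝ :=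
  let T := p - q * r
  let y := q + p * r
  let A := y ^ 2 - 1
  let B := 2 * y ^ 2 + 1
  1061 / 625 * (q * r ^ 3 * (2 * y * (q / 3 + p * r / 4) + q ^ 2 / 3 + p * q * r / 2
    - q ^ 2 * r ^ 2 / 5) + A * B * T + (B - A) * T ^ 3 / 3 - T ^ 5 / 5)

/-! The integral forms. -/

section Forms

variable {α : Type} [Add α] [Sub α] [Mul α] [SMul ℤ α]

/-- The form of `cA`. -/
def fA (b a R D : α) : α :=
  (6 : ℤ) • (a * a * (D * D)) + (8 : ℤ) • (a * b * (R * D)) + (3 : ℤ) • (b * b * (R * R))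

/-- The form of `cB`. -/
def fB (b a R D : α) : α :=
  (10 : ℤ) • (a * a * a * (D * D * D)) + (20 : ℤ) • (a * a * b * (R * (D * D)))
    + (15 : ℤ) • (a * b * b * (R * R * D)) + (4 : ℤ) • (b * b * b * (R * R * R))

/-- The form of `moment3`, the integer coefficients being `2520` times those of the definition. -/
def f3 (c₀ c₁ c₂ c₃ : ℤ) (b a R D : α) : α :=
  c₀ • (a * a * a * (D * D * D)) + c₁ • (a * a * b * (R * (D * D)))
    + c₂ • (a * b * b * (R * R * D)) + c₃ • (b * b * b * (R * R * R))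

/-- The form of `moment5`. -/
def f5 (c₀ c₁ c₂ c₃ c₄ c₅ : ℤ) (b a R D : α) : α :=
  c₀ • (a * a * a * (a * a) * (D * D * D * (D * D)))
    + c₁ • (a * a * a * (a * b) * (R * (D * D * (D * D))))
    + c₂ • (a * a * a * (b * b) * (R * R * (D * D * D)))
    + c₃ • (a * a * b * (b * b) * (R * R * R * (D * D)))
    + c₄ • (a * b * b * (b * b) * (R * R * (R * R) * D))
    + c₅ • (b * b * b * (b * b) * (R * R * R * (R * R)))

/-- The form of the John term. -/
def fM (b a n R D : α) : α :=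
  (17 : ℤ) • ((5 : ℤ) • (D * D * f5 1260 4200 6300 5040 2100 360 b a R D) -
      (4 : ℤ) • (n * n * (D * D * (D * D)) * f3 1260 2520 1890 504 b a R D))
    - R * R * ((56 : ℤ) • (n * n * (D * D) * f3 630 1512 1260 360 b a R D)
        + (15 : ℤ) • f5 630 2520 4200 3600 1575 280 b a R D)
    + (12 : ℤ) • (R * R * (R * R) * (n * n) * f3 420 1080 945 280 b a R D)

/-- The form of `rest`. -/
def fRest (b a n R D : α) : α :=
  (456314880 : ℤ) • (n * n * n * (D * D * (D * D) * D) * fA b a R D)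
    - (302480640 : ℤ) • (n * n * (D * D * (D * D)) * fB b a R D)
    + (16605 : ℤ) • fM b a n R D

/-- The form of the tangent point's height. -/
def fY (b a R D : α) : α := a * D + b * R

/-- The form of the tangent point's abscissa. -/
def fT (b a R D : α) : α := b * D - a * R

/-- The form of `xLow`. -/
def fXLow (b a n R D : α) : α :=
  (15 : ℤ) • (a * a * n * (R * R * R) * (D * D * (D * D)))
    + fY b a R D * (R * R * R) * ((10 : ℤ) • (fY b a R D * n * (D * D))
        + (5 : ℤ) • (n * n * (D * D * D)) - (5 : ℤ) • (fT b a R D * fT b a R D * D)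
        + (2 : ℤ) • (fT b a R D * fY b a R D * R))

/-- The form of `xHigh`. -/
def fXHigh (b a n R D : α) : α :=
  let y := fY b a R D
  let T := fT b a R D
  let A := y * y - n * n * (D * D)
  let B := (2 : ℤ) • (y * y) + n * n * (D * D)
  a * (R * R * R) * (n * n) * (y * ((40 : ℤ) • (a * D) + (30 : ℤ) • (b * R))
      + (20 : ℤ) • (a * a * (D * D)) + (30 : ℤ) • (a * b * (R * D))
      - (12 : ℤ) • (a * a * (R * R)))
    + (60 : ℤ) • (A * B * T) + (20 : ℤ) • ((B - A) * (T * T * T))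
    - (12 : ℤ) • (T * T * T * (T * T))

/-- The constant part of the secant margin, low case. -/
def low0 (b a n R D : α) : α := (625 : ℤ) • (D * D * fRest b a n R D)

/-- The slope part of the secant margin, low case. -/
def low1 (b a n R D : α) : α := (16138336256 : ℤ) • (fXLow b a n R D * fA b a R D)

/-- The constant part of the secant margin, high case. -/
def high0 (b a n R D : α) : α := (1250 : ℤ) • (n * fY b a R D * fRest b a n R D)

/-- The slope part of the secant margin, high case. -/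
def high1 (b a n R D : α) : α := (8069168128 : ℤ) • (D * fXHigh b a n R D * fA b a R D)

/-- The slope part of the margin beyond the secant range. -/
def top1 (b a n R D : α) : α :=
  (456314880 : ℤ) • (n * n * n * (D * D * (D * D) * D) * fA b a R D)

end Forms

variable {b a n R D : ℝ}

theorem fA_eq (hn : n ≠ 0) (hD : D ≠ 0) :
    fA b a R D = 1875 / 1061 * (n ^ 2 * D ^ 2) * cA (b / n) (a / n) (R / D) := by
  simp only [fA, cA, zsmul_eq_mul]
  push_cast
  field_simp
  ring

theorem fB_eq (hn : n ≠ 0) (hD : D ≠ 0) :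
    fB b a R D = 10000 / 3751 * (n ^ 3 * D ^ 3) * cB (b / n) (a / n) (R / D) := by
  simp only [fB, cB, zsmul_eq_mul]
  push_cast
  field_simp
  ring

theorem fM_eq (hn : n ≠ 0) (hD : D ≠ 0) :
    fM b a n R D = 806400000 / 16605 * (n ^ 5 * D ^ 7) * cM (b / n) (a / n) (R / D) := by
  simp only [fM, f3, f5, cM, moment3, moment5, zsmul_eq_mul]
  push_cast
  field_simp
  ring

theorem fRest_eq (hn : n ≠ 0) (hD : D ≠ 0) :
    fRest b a n R D = 806400000 * (n ^ 5 * D ^ 7) * rest (b / n) (a / n) (R / D) := by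
  simp only [fRest, fA_eq hn hD, fB_eq hn hD, fM_eq hn hD, rest, zsmul_eq_mul]
  push_cast
  ring

theorem fY_eq (hn : n ≠ 0) (hD : D ≠ 0) :
    fY b a R D = n * D * (a / n + b / n * (R / D)) := by
  simp only [fY]
  field_simp

theorem fXLow_eq (hn : n ≠ 0) (hD : D ≠ 0) :
    fXLow b a n R D = 625 * 30 / 1061 * (n ^ 3 * D ^ 7) * xLow (b / n) (a / n) (R / D) := by
  simp only [fXLow, fY, fT, xLow, zsmul_eq_mul]
  push_cast
  field_simp
  ring

theorem fXHigh_eq (hn : n ≠ 0) (hD : D ≠ 0) :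
    fXHigh b a n R D = 625 * 60 / 1061 * (n ^ 5 * D ^ 5) * xHigh (b / n) (a / n) (R / D) := by
  simp only [fXHigh, fY, fT, xHigh, zsmul_eq_mul]
  push_cast
  field_simp
  ring

theorem top1_eq (hn : n ≠ 0) (hD : D ≠ 0) :
    top1 b a n R D = 806400000 * (n ^ 5 * D ^ 7) * cA (b / n) (a / n) (R / D) := by
  simp only [top1, fA_eq hn hD, zsmul_eq_mul]
  push_cast
  ring

theorem low0_eq (hn : n ≠ 0) (hD : D ≠ 0) :
    low0 b a n R D = 806400000 * 625 * (n ^ 5 * D ^ 9) * rest (b / n) (a / n) (R / D) := by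
  simp only [low0, fRest_eq hn hD, zsmul_eq_mul]
  push_cast
  ring

theorem low1_eq (hn : n ≠ 0) (hD : D ≠ 0) :
    low1 b a n R D = 806400000 * 625 * (n ^ 5 * D ^ 9) *
      (xLow (b / n) (a / n) (R / D) * cA (b / n) (a / n) (R / D)) := by
  simp only [low1, fA_eq hn hD, fXLow_eq hn hD, zsmul_eq_mul]
  push_cast
  ring

theorem high0_eq (hn : n ≠ 0) (hD : D ≠ 0) :
    high0 b a n R D = 806400000 * 625 * (n ^ 7 * D ^ 8) *
      (2 * (a / n + b / n * (R / D)) * rest (b / n) (a / n) (R / D)) := by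
  simp only [high0, fRest_eq hn hD, fY_eq hn hD, zsmul_eq_mul]
  push_cast
  ring

theorem high1_eq (hn : n ≠ 0) (hD : D ≠ 0) :
    high1 b a n R D = 806400000 * 625 * (n ^ 7 * D ^ 8) *
      (xHigh (b / n) (a / n) (R / D) * cA (b / n) (a / n) (R / D)) := by
  simp only [high1, fA_eq hn hD, fXHigh_eq hn hD, zsmul_eq_mul]
  push_cast
  ring

variable {w s : ℝ}

theorem ev2_low0 (b a n R D : Poly (Poly ℤ)) : ev2 w s (low0 b a n R D) =
    low0 (ev2 w s b) (ev2 w s a) (ev2 w s n) (ev2 w s R) (ev2 w s D) := by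
  simp only [low0, fRest, fA, fB, fM, f3, f5, (isEval_ev2 w s).add, (isEval_ev2 w s).mul,
    (isEval_ev2 w s).smul, ev2_sub, zsmul_eq_mul]

theorem ev2_low1 (b a n R D : Poly (Poly ℤ)) : ev2 w s (low1 b a n R D) =
    low1 (ev2 w s b) (ev2 w s a) (ev2 w s n) (ev2 w s R) (ev2 w s D) := by
  simp only [low1, fXLow, fY, fT, fA, (isEval_ev2 w s).add, (isEval_ev2 w s).mul,
    (isEval_ev2 w s).smul, ev2_sub, zsmul_eq_mul]

theorem ev2_high0 (b a n R D : Poly (Poly ℤ)) : ev2 w s (high0 b a n R D) =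
    high0 (ev2 w s b) (ev2 w s a) (ev2 w s n) (ev2 w s R) (ev2 w s D) := by
  simp only [high0, fRest, fY, fA, fB, fM, f3, f5, (isEval_ev2 w s).add, (isEval_ev2 w s).mul,
    (isEval_ev2 w s).smul, ev2_sub, zsmul_eq_mul]

theorem ev2_high1 (b a n R D : Poly (Poly ℤ)) : ev2 w s (high1 b a n R D) =
    high1 (ev2 w s b) (ev2 w s a) (ev2 w s n) (ev2 w s R) (ev2 w s D) := by
  simp only [high1, fXHigh, fY, fT, fA, (isEval_ev2 w s).add, (isEval_ev2 w s).mul,
    (isEval_ev2 w s).smul, ev2_sub, zsmul_eq_mul]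

theorem ev2_rest (b a n R D : Poly (Poly ℤ)) : ev2 w s (fRest b a n R D) =
    fRest (ev2 w s b) (ev2 w s a) (ev2 w s n) (ev2 w s R) (ev2 w s D) := by
  simp only [fRest, fA, fB, fM, f3, f5, (isEval_ev2 w s).add, (isEval_ev2 w s).mul,
    (isEval_ev2 w s).smul, ev2_sub, zsmul_eq_mul]

theorem ev2_top1 (b a n R D : Poly (Poly ℤ)) : ev2 w s (top1 b a n R D) =
    top1 (ev2 w s b) (ev2 w s a) (ev2 w s n) (ev2 w s R) (ev2 w s D) := by
  simp only [top1, fA, (isEval_ev2 w s).add, (isEval_ev2 w s).mul, (isEval_ev2 w s).smul,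
    zsmul_eq_mul]

end Vale.Agent.P237.Petty.Hull.Five
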