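import Vale.Agent.P237.Petty.Hull.FiveMargin

/-!
# P237: the parametrisations of the hull step in dimension five

With `p = 2w/(1+w²)`, `q = (1-w²)/(1+w²)` three parametrisations of `r` are used: `r = w s`;
`r = 2w/(1-w²+(1+w²) s)`; and `r = w (100 + (c-100) s)/100` with three values of `c`.
-/

namespace Vale.Agent.P237.Petty.Hull.Five

/-- `2w`. -/
def pb : Poly (Poly ℤ) := ⟨[⟨[]⟩, ⟨[2]⟩]⟩

/-- `1 - w²`. -/
def pa : Poly (Poly ℤ) := ⟨[⟨[1]⟩, ⟨[]⟩, ⟨[-1]⟩]⟩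

/-- `1 + w²`. -/
def pn : Poly (Poly ℤ) := ⟨[⟨[1]⟩, ⟨[]⟩, ⟨[1]⟩]⟩

/-- `w s`. -/
def pLow : Poly (Poly ℤ) := ⟨[⟨[]⟩, ⟨[0, 1]⟩]⟩

/-- The constant `k`. -/
def pConst (k : ℤ) : Poly (Poly ℤ) := ⟨[⟨[k]⟩]⟩

/-- `1 - w² + (1+w²) s`. -/
def pCone : Poly (Poly ℤ) := ⟨[⟨[1, 1]⟩, ⟨[]⟩, ⟨[-1, 1]⟩]⟩

/-- `w (100 + (c-100) s)`. -/
def pSlope (c : ℤ) : Poly (Poly ℤ) := ⟨[⟨[]⟩, ⟨[100, c - 100]⟩]⟩

theorem ev2_pb (w s : ℝ) : ev2 w s pb = 2 * w := by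
  simp [ev2, ev, pb, horner]; ring

theorem ev2_pa (w s : ℝ) : ev2 w s pa = 1 - w ^ 2 := by
  simp [ev2, ev, pa, horner]; ring

theorem ev2_pn (w s : ℝ) : ev2 w s pn = 1 + w ^ 2 := by
  simp [ev2, ev, pn, horner]; ring

theorem ev2_pLow (w s : ℝ) : ev2 w s pLow = w * s := by
  simp [ev2, ev, pLow, horner]

theorem ev2_pConst (w s : ℝ) (k : ℤ) : ev2 w s (pConst k) = k := by
  simp [ev2, ev, pConst, horner]

theorem ev2_pCone (w s : ℝ) : ev2 w s pCone = 1 - w ^ 2 + (1 + w ^ 2) * s := by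
  simp [ev2, ev, pCone, horner]; ring

theorem ev2_pSlope (w s : ℝ) (c : ℤ) : ev2 w s (pSlope c) = w * (100 + ((c : ℝ) - 100) * s) := by
  simp only [ev2, ev, pSlope, horner]; push_cast; ring

end Vale.Agent.P237.Petty.Hull.Five
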