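import Vale.Agent.P237.Petty.Hull.FiveLow
import Vale.Agent.P237.Petty.Hull.FiveCone
import Vale.Agent.P237.Petty.Hull.FiveSlopeA
import Vale.Agent.P237.Petty.Hull.FiveSlopeB
import Vale.Agent.P237.Petty.Hull.FiveSlopeC

/-!
# P237: the sign of the hull step in dimension five
-/

namespace Vale.Agent.P237.Petty.Hull.Five

/-- The derivative of the functional along the hull homotopy, divided by the common factor. -/
noncomputable def margin (p q r S : ℝ) : ℝ := S * cA p q r - cB p q r + cM p q r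

theorem cA_nonneg {p q r : ℝ} (hp : 0 ≤ p) (hq : 0 ≤ q) (hr : 0 ≤ r) : 0 ≤ cA p q r := by
  unfold cA; positivity

/-- The cube root lies above the secant, and above its end value beyond. -/
theorem root_bound {κ X x S : ℝ} (hκ : 0 ≤ κ) (hX : 0 < X) (h : (1 + κ * X) ^ 3 ≤ 1 + X)
    (hx : 0 ≤ x) (hS : 0 ≤ S) (hS3 : S ^ 3 = 1 + x) : 1 + κ * x ≤ S ∨ 1 + κ * X ≤ S := by
  rcases le_total x X with hxX | hxX
  · left
    refine (pow_le_pow_iff_left₀ (by positivity) hS (show 3 ≠ 0 by norm_num)).1 ?_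
    rw [hS3]
    have h1 : 3 * κ + 3 * κ ^ 2 * X + κ ^ 3 * X ^ 2 ≤ 1 := by
      refine le_of_mul_le_mul_left ?_ hX
      linarith
    have h2 : 3 * κ + 3 * κ ^ 2 * x + κ ^ 3 * x ^ 2 ≤ 1 := by
      have := mul_le_mul_of_nonneg_left hxX (show 0 ≤ 3 * κ ^ 2 by positivity)
      have := mul_le_mul_of_nonneg_left (pow_le_pow_left₀ hx hxX 2) (pow_nonneg hκ 3)
      linarith
    have := mul_le_mul_of_nonneg_left h2 hx
    linarith
  · right
    refine (pow_le_pow_iff_left₀ (by positivity) hS (show 3 ≠ 0 by norm_num)).1 ?_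
    rw [hS3]
    linarith

theorem margin_of_bounds {p q r S x c z : ℝ} (hp : 0 ≤ p) (hq : 0 ≤ q) (hr : 0 ≤ r) (hx : 0 ≤ x)
    (hS : 0 ≤ S) (hS3 : S ^ 3 = 1 + x) {κ X : ℝ} (hκ : 0 ≤ κ) (hX : 0 < X)
    (hκX : (1 + κ * X) ^ 3 ≤ 1 + X) (hc : 0 < c) (hz : z ≤ c * x)
    (hsec : 0 ≤ c * rest p q r + κ * (z * cA p q r))
    (htop : 0 ≤ rest p q r + κ * X * cA p q r) : 0 ≤ margin p q r S := by
  have hA := cA_nonneg hp hq hr
  have e : margin p q r S = rest p q r + (S - 1) * cA p q r := by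
    rw [margin, rest]; ring
  rw [e]
  rcases root_bound hκ hX hκX hx hS hS3 with h | h
  · have h1 := mul_le_mul_of_nonneg_left (mul_le_mul_of_nonneg_right hz hA) hκ
    have h2 := mul_le_mul_of_nonneg_right (show κ * x ≤ S - 1 by linarith) hA
    have h3 := mul_le_mul_of_nonneg_left h2 hc.le
    refine le_of_mul_le_mul_left (a := c) ?_ hc
    linarith
  · have := mul_le_mul_of_nonneg_right (show κ * X ≤ S - 1 by linarith) hA
    linarith

/-- The parameter of the circle. -/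
theorem half_angle {p q : ℝ} (hc : p ^ 2 + q ^ 2 = 1) (hp : 0 < p) (hq : 0 < q) :
    ∃ w : ℝ, 0 < w ∧ w < 1 ∧ p = 2 * w / (1 + w ^ 2) ∧ q = (1 - w ^ 2) / (1 + w ^ 2) := by
  have hp1 : p < 1 + q := by nlinarith
  refine ⟨p / (1 + q), by positivity, (div_lt_one (by linarith)).2 hp1, ?_, ?_⟩
  · field_simp
    linear_combination hc
  · field_simp
    linear_combination (q + 1) * hc

/-- Reading the certificates of the high case. -/
theorem margin_of_high {w R D S x κ X : ℝ} (hw : 0 < w) (hw1 : w < 1) (hR : 0 ≤ R) (hD : 0 < D)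
    (hx : 0 ≤ x) (hS : 0 ≤ S) (hS3 : S ^ 3 = 1 + x) (hκ : 0 ≤ κ) (hX : 0 < X)
    (hκX : (1 + κ * X) ^ 3 ≤ 1 + X)
    (hz : xHigh (2 * w / (1 + w ^ 2)) ((1 - w ^ 2) / (1 + w ^ 2)) (R / D) ≤
      2 * ((1 - w ^ 2) / (1 + w ^ 2) + 2 * w / (1 + w ^ 2) * (R / D)) * x)
    (h1 : 0 ≤ high0 (2 * w) (1 - w ^ 2) (1 + w ^ 2) R D +
      κ * high1 (2 * w) (1 - w ^ 2) (1 + w ^ 2) R D)
    (h2 : 0 ≤ fRest (2 * w) (1 - w ^ 2) (1 + w ^ 2) R D +
      κ * X * top1 (2 * w) (1 - w ^ 2) (1 + w ^ 2) R D) :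
    0 ≤ margin (2 * w / (1 + w ^ 2)) ((1 - w ^ 2) / (1 + w ^ 2)) (R / D) S := by
  have hn : (0 : ℝ) < 1 + w ^ 2 := by positivity
  have ha : 0 < 1 - w ^ 2 := by nlinarith
  rw [high0_eq hn.ne' hD.ne', high1_eq hn.ne' hD.ne'] at h1
  rw [fRest_eq hn.ne' hD.ne', top1_eq hn.ne' hD.ne'] at h2
  have hp : 0 ≤ 2 * w / (1 + w ^ 2) := by positivity
  have hq : 0 < (1 - w ^ 2) / (1 + w ^ 2) := div_pos ha hn
  have hr : 0 ≤ R / D := div_nonneg hR hD.le
  generalize 2 * w / (1 + w ^ 2) = p at *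
  generalize (1 - w ^ 2) / (1 + w ^ 2) = q at *
  generalize R / D = r at *
  refine margin_of_bounds hp hq.le hr hx hS hS3 hκ hX hκX
    (c := 2 * (q + p * r)) (by positivity) hz ?_ ?_
  · refine nonneg_of_mul_nonneg_right (a := 806400000 * 625 * ((1 + w ^ 2) ^ 7 * D ^ 8)) ?_
      (by positivity)
    linarith
  · refine nonneg_of_mul_nonneg_right (a := 806400000 * ((1 + w ^ 2) ^ 5 * D ^ 7)) ?_ (by positivity)
    linarith

/-- The derivative along the hull homotopy is nonnegative. Here `x` bounds the relative excess of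
`∫ f³` from below in the two cases `q + p r ≤ 1` and `1 ≤ q + p r`. -/
theorem margin_nonneg {p q r x S : ℝ} (hc : p ^ 2 + q ^ 2 = 1) (hp : 0 < p) (hq : 0 < q)
    (hr : 0 < r) (hT : q * r ≤ p) (hY : q + p * r ≤ 188 / 125) (hx : 0 ≤ x) (hS : 0 ≤ S)
    (hS3 : S ^ 3 = 1 + x) (hlow : q + p * r ≤ 1 → xLow p q r ≤ x)
    (hhigh : 1 ≤ q + p * r → xHigh p q r ≤ 2 * (q + p * r) * x) : 0 ≤ margin p q r S := by
  obtain ⟨w, hw, hw1, rfl, rfl⟩ := half_angle hc hp hq
  have hn : (0 : ℝ) < 1 + w ^ 2 := by positivity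
  have ey : (1 - w ^ 2) / (1 + w ^ 2) + 2 * w / (1 + w ^ 2) * r =
      1 + 2 * w * (r - w) / (1 + w ^ 2) := by
    field_simp; ring
  rcases le_total r w with hrw | hrw
  · have hy : 2 * w * (r - w) / (1 + w ^ 2) ≤ 0 :=
      div_nonpos_of_nonpos_of_nonneg (by nlinarith) hn.le
    have hs1 : r / w ≤ 1 := (div_le_one hw).2 hrw
    obtain ⟨κ, X, hκ, hX, hκX, h1, h2⟩ := low_ok (w := w) (s := r / w) (by linarith)
      (by linarith) (by positivity) hs1
    simp only [ev2_low0, ev2_low1, ev2_rest, ev2_top1, ev2_pb, ev2_pa, ev2_pn, ev2_pLow,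
      ev2_pConst, mul_div_cancel₀ r hw.ne', Int.cast_one] at h1 h2
    rw [low0_eq hn.ne' one_ne_zero, low1_eq hn.ne' one_ne_zero, div_one] at h1
    rw [fRest_eq hn.ne' one_ne_zero, top1_eq hn.ne' one_ne_zero, div_one] at h2
    simp only [one_pow, mul_one] at h1 h2
    have hz := hlow (by rw [ey]; linarith)
    generalize 2 * w / (1 + w ^ 2) = p at *
    generalize (1 - w ^ 2) / (1 + w ^ 2) = q at *
    refine margin_of_bounds hp.le hq.le hr.le hx hS hS3 hκ hX hκX (c := 1) one_pos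
      (z := xLow p q r) (by linarith) ?_ ?_
    · refine nonneg_of_mul_nonneg_right (a := 806400000 * 625 * (1 + w ^ 2) ^ 5) ?_ (by positivity)
      linarith
    · refine nonneg_of_mul_nonneg_right (a := 806400000 * (1 + w ^ 2) ^ 5) ?_ (by positivity)
      linarith
  · have hy : 0 ≤ 2 * w * (r - w) / (1 + w ^ 2) :=
      div_nonneg (mul_nonneg (by positivity) (sub_nonneg.2 hrw)) hn.le
    have hz := hhigh (by rw [ey]; linarith)
    have hbr : (1 - w ^ 2) * r ≤ 2 * w := by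
      rwa [div_mul_eq_mul_div, div_le_div_iff_of_pos_right hn] at hT
    rcases le_total w (1 / 2) with hw2 | hw2
    · set s := (2 * w / r - (1 - w ^ 2)) / (1 + w ^ 2) with hs
      have hs0 : 0 ≤ s := div_nonneg (sub_nonneg.2 ((le_div_iff₀ hr).2 hbr)) hn.le
      have hs1 : s ≤ 1 := by
        rw [hs, div_le_one hn]
        have : 2 * w / r ≤ 2 := (div_le_iff₀ hr).2 (by linarith)
        linarith
      have eD : 1 - w ^ 2 + (1 + w ^ 2) * s = 2 * w / r := by
        rw [hs, mul_div_cancel₀ _ hn.ne']; ring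
      obtain ⟨κ, X, hκ, hX, hκX, h1, h2⟩ := cone_ok (w := w) (s := s) (by linarith)
        (by linarith) hs0 hs1
      simp only [ev2_high0, ev2_high1, ev2_rest, ev2_top1, ev2_pb, ev2_pa, ev2_pn, ev2_pCone,
        eD] at h1 h2
      have er : 2 * w / (2 * w / r) = r := by field_simp
      have := margin_of_high hw hw1 (R := 2 * w) (D := 2 * w / r) (by positivity) (by positivity)
        hx hS hS3 hκ hX hκX (by rwa [er]) h1 h2
      rwa [er] at this
    · have hlin : (1 - w ^ 2) + 2 * w * r ≤ 188 / 125 * (1 + w ^ 2) := by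
        rwa [div_mul_eq_mul_div, ← add_div, div_le_iff₀ hn] at hY
      have key : ∀ c : ℤ, 100 < c → (252 / 5 : ℝ) ≤ (2 * (c : ℝ) - 1252 / 5) * w ^ 2 →
          (∀ s : ℝ, 0 ≤ s → s ≤ 1 → ∃ κ X : ℝ, 0 ≤ κ ∧ 0 < X ∧ (1 + κ * X) ^ 3 ≤ 1 + X ∧
            0 ≤ ev2 w s (high0 pb pa pn (pSlope c) (pConst 100)) +
              κ * ev2 w s (high1 pb pa pn (pSlope c) (pConst 100)) ∧
            0 ≤ ev2 w s (fRest pb pa pn (pSlope c) (pConst 100)) +
              κ * X * ev2 w s (top1 pb pa pn (pSlope c) (pConst 100))) →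
          0 ≤ margin (2 * w / (1 + w ^ 2)) ((1 - w ^ 2) / (1 + w ^ 2)) r S := by
        intro c hc100 hcw hok
        have hc' : (0 : ℝ) < (c : ℝ) - 100 := sub_pos.2 (by exact_mod_cast hc100)
        have hb : 100 * r ≤ (c : ℝ) * w := by
          refine le_of_mul_le_mul_left (a := w) ?_ hw
          linarith
        set s := (100 * r - 100 * w) / (w * ((c : ℝ) - 100)) with hs
        have hs0 : 0 ≤ s := div_nonneg (by linarith) (by positivity)
        have hs1 : s ≤ 1 := (div_le_one (by positivity)).2 (by linarith)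
        have eR : w * (100 + ((c : ℝ) - 100) * s) = 100 * r := by
          rw [hs]; field_simp; ring
        obtain ⟨κ, X, hκ, hX, hκX, h1, h2⟩ := hok s hs0 hs1
        simp only [ev2_high0, ev2_high1, ev2_rest, ev2_top1, ev2_pb, ev2_pa, ev2_pn, ev2_pSlope,
          ev2_pConst, eR] at h1 h2
        push_cast at h1 h2
        have er : 100 * r / 100 = r := mul_div_cancel_left₀ r (by norm_num)
        have := margin_of_high hw hw1 (R := 100 * r) (D := 100) (by positivity) (by norm_num)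
          hx hS hS3 hκ hX hκX (by rwa [er]) h1 h2
        rwa [er] at this
      rcases le_total w (7 / 10) with hw3 | hw3
      · exact key 227 (by norm_num) (by nlinarith) fun s h0 h1 =>
          slope₁_ok (by linarith) (by linarith) h0 h1
      · rcases le_total w (9 / 10) with hw4 | hw4
        · exact key 177 (by norm_num) (by push_cast; nlinarith) fun s h0 h1 =>
            slope₂_ok (by linarith) (by linarith) h0 h1
        · exact key 157 (by norm_num) (by push_cast; nlinarith) fun s h0 h1 =>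
            slope₃_ok (by linarith) (by linarith) h0 h1

end Vale.Agent.P237.Petty.Hull.Five
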