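import Vale.Agent.P237.Petty.Hull.FourPath
import Vale.Agent.P237.Petty.UpTo
import Vale.Agent.P237.Petty.LemmaThree
import Vale.Agent.P237.Petty.Three

/-!
# P237: Petty's inequality in dimension four

The hull homotopy gives `∫ f² / (2/3)` to the power `3/2` at least `∫ f³` over its circle value for
every profile with `∫ f⁵ ≤ 5 ∫ t² f³`, with equality only for the circle value. This is the profile
lemma of dimension four.
-/

namespace Vale.Agent.P237.Petty.Hull.Four

open Real Set MeasureTheory Filter Topology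

theorem kappa_four : kappa 4 = π ^ 2 / 2 := by
  rw [kappa, measureReal_def,
    InnerProductSpace.volume_closedBall_of_dim_even (k := 2) (by simp)]
  simp [ENNReal.toReal_ofReal (show (0 : ℝ) ≤ π ^ 2 / 2 by positivity)]

theorem circ_three : Petty.circ 3 = 3 * π / 8 := by
  rw [circ_eq, kappa_four, kappa_three]
  field_simp
  ring

theorem circ_two : Petty.circ 2 = 4 / 3 := by
  rw [circ_eq, kappa_three, kappa_two]
  field_simp

theorem circTail_zero : circTail 0 = 3 * π / 16 := by
  have h := circ_three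
  rw [Petty.circ, integral_even (g := fun t : ℝ => √(1 - t ^ 2) ^ 3) (fun t => by simp only [neg_sq])
    (Continuous.intervalIntegrable (by fun_prop) _ _)] at h
  simp only [circTail]
  linarith

/-- A shifted power expands into the powers. -/
theorem tendsto_integral_add_pow {f w : ℝ → ℝ} (n : ℕ) (hw : ContinuousOn w (Icc 0 1))
    (hi : ∀ j : ℕ, IntervalIntegrable (fun u => f u ^ j) volume 0 1) :
    Tendsto (fun e : ℝ => ∫ u in (0 : ℝ)..1, w u * (f u + e) ^ n) (𝓝[>] 0)
      (𝓝 (∫ u in (0 : ℝ)..1, w u * f u ^ n)) := by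
  have hwi : ∀ j : ℕ, IntervalIntegrable (fun u => w u * f u ^ j) volume 0 1 := fun j =>
    (hi j).continuousOn_mul (by rwa [uIcc_of_le (zero_le_one' ℝ)])
  have e : ∀ c : ℝ, (∫ u in (0 : ℝ)..1, w u * (f u + c) ^ n) =
      ∑ j ∈ Finset.range (n + 1),
        (∫ u in (0 : ℝ)..1, w u * f u ^ j) * (c ^ (n - j) * n.choose j) := by
    intro c
    simp only [add_pow, Finset.mul_sum]
    rw [intervalIntegral.integral_finsetSum fun j _ => ?_]
    · refine Finset.sum_congr rfl fun j _ => ?_
      rw [← intervalIntegral.integral_mul_const]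
      exact intervalIntegral.integral_congr fun u _ => by ring
    · exact ((hwi j).mul_const (c ^ (n - j) * n.choose j)).congr fun u _ => by ring
  have hc : Continuous fun c : ℝ => ∫ u in (0 : ℝ)..1, w u * (f u + c) ^ n := by
    simp only [e]
    fun_prop
  have := (hc.tendsto 0).mono_left (nhdsWithin_le_nhds (s := Ioi (0 : ℝ)))
  simpa using this

/-- The inequality for a profile on and above the circle. -/
theorem gap_ge {f : ℝ → ℝ} (hc : ConcaveOn ℝ (Icc (-1) 1) f) (he : ∀ t, f (-t) = f t)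
    (hge : ∀ t ∈ Icc (-1 : ℝ) 1, √(1 - t ^ 2) ≤ f t) :
    1 - 17 / 10 * circTail 0 ≤ gap (∫ u in (0 : ℝ)..1, f u ^ 2) (∫ u in (0 : ℝ)..1, f u ^ 3)
      (∫ u in (0 : ℝ)..1, densQ f u) := by
  have hmono := antitoneOn_of_concave_even hc he
  have hi : ∀ j : ℕ, IntervalIntegrable (fun u => f u ^ j) volume 0 1 := fun j => by
    refine AntitoneOn.intervalIntegrable ?_
    rw [uIcc_of_le (zero_le_one' ℝ)]
    exact fun a ha b hb hab => pow_le_pow_left₀
      ((Real.sqrt_nonneg _).trans (hge b ⟨by linarith [hb.1], hb.2⟩)) (hmono ha hb hab) j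
  have hL : ∀ e : ℝ, 0 < e → Lifted (fun u => f u + e) := fun e he0 =>
    ⟨hc.add_const e, fun t => by simp only [he], fun u hu => by linarith [hge u hu]⟩
  have h2 := tendsto_integral_add_pow (f := f) (w := fun _ => 1) 2 continuousOn_const hi
  have h3 := tendsto_integral_add_pow (f := f) (w := fun _ => 1) 3 continuousOn_const hi
  have h5 := tendsto_integral_add_pow (f := f) (w := fun _ => 1) 5 continuousOn_const hi
  have h53 := tendsto_integral_add_pow (f := f) (w := fun u => 5 * u ^ 2) 3 (by fun_prop) hi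
  simp only [one_mul] at h2 h3 h5
  have hQ : ∀ {g : ℝ → ℝ}, (∀ j : ℕ, IntervalIntegrable (fun u => g u ^ j) volume 0 1) →
      (∫ u in (0 : ℝ)..1, densQ g u) =
        (∫ u in (0 : ℝ)..1, g u ^ 5) - ∫ u in (0 : ℝ)..1, 5 * u ^ 2 * g u ^ 3 := fun hg =>
    intervalIntegral.integral_sub (hg 5) ((hg 3).continuousOn_mul (by fun_prop))
  have ht : Tendsto (fun e : ℝ => ∫ u in (0 : ℝ)..1, densQ (fun u => f u + e) u) (𝓝[>] 0)
      (𝓝 (∫ u in (0 : ℝ)..1, densQ f u)) := by
    rw [hQ hi]
    refine (h5.sub h53).congr' ?_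
    filter_upwards [self_mem_nhdsWithin] with e he0
    exact (hQ fun j => (hL e he0).intervalIntegrable j).symm
  refine ge_of_tendsto ((continuous_gap.tendsto _).comp (h2.prodMk_nhds (h3.prodMk_nhds ht))) ?_
  filter_upwards [self_mem_nhdsWithin] with e he0
  exact (hL e he0).gap_ge

/-- The profile lemma in dimension four. -/
theorem profileLemma_two : ProfileLemma 2 := by
  intro f hconc heven hge hint hM
  have e2 := integral_even (g := fun t => f t ^ 2) (fun t => by simp only [heven]) (hint 2)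
  have e3 := integral_even (g := fun t => f t ^ 3) (fun t => by simp only [heven]) (hint 3)
  have e5 := integral_even (g := fun t => f t ^ 5) (fun t => by simp only [heven]) (hint 5)
  have et := integral_even (g := fun t => t ^ 2 * f t ^ 3) (fun t => by simp only [heven, neg_sq])
    ((hint 3).continuousOn_mul (by fun_prop))
  norm_num at hM
  rw [e5, et] at hM
  simp only [show 2 + 1 = 3 from rfl, circ_two, circ_three, e2, e3]
  have hg := gap_ge hconc heven hge
  set a := ∫ u in (0 : ℝ)..1, f u ^ 2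
  set b := ∫ u in (0 : ℝ)..1, f u ^ 3
  have hsub : ∀ j : ℕ, IntervalIntegrable (fun u => f u ^ j) volume 0 1 := fun j =>
    (hint j).mono_set (by
      rw [uIcc_of_le (by norm_num : (-1 : ℝ) ≤ 1), uIcc_of_le (zero_le_one' ℝ)]
      exact Icc_subset_Icc (by norm_num) le_rfl)
  have hm : (∫ u in (0 : ℝ)..1, densQ f u) ≤ 0 := by
    have e : (∫ u in (0 : ℝ)..1, 5 * u ^ 2 * f u ^ 3) =
        5 * ∫ u in (0 : ℝ)..1, u ^ 2 * f u ^ 3 := by
      rw [← intervalIntegral.integral_const_mul]
      exact intervalIntegral.integral_congr fun u _ => by ring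
    rw [show (∫ u in (0 : ℝ)..1, densQ f u) = (∫ u in (0 : ℝ)..1, f u ^ 5) -
      ∫ u in (0 : ℝ)..1, 5 * u ^ 2 * f u ^ 3 from
      intervalIntegral.integral_sub (hsub 5) ((hsub 3).continuousOn_mul (by fun_prop)), e]
    linarith
  have hb0 : 3 * π / 16 ≤ b := by
    rw [← circTail_zero]
    refine intervalIntegral.integral_mono_on zero_le_one
      (Continuous.intervalIntegrable (by fun_prop) _ _) (hsub 3) fun u hu =>
      pow_le_pow_left₀ (Real.sqrt_nonneg _) (hge u ⟨by linarith [hu.1], hu.2⟩) 3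
  have ha0 : 0 ≤ a := intervalIntegral.integral_nonneg zero_le_one fun u _ => sq_nonneg _
  rw [gap, circTail_zero] at hg
  set S := √(3 / 2 * a)
  have hS : S ^ 2 = 3 / 2 * a := Real.sq_sqrt (by positivity)
  have hS3 : 3 / 2 * a * S = S ^ 3 := by rw [pow_succ, hS]
  rw [hS3] at hg
  set c := 3 * π / 16 with hc
  have hc0 : 0 < c := by positivity
  have hc1 : 1 < 17 / 10 * c := by rw [hc]; linarith [Real.pi_gt_d2]
  have key : b / c + (17 / 10 - 1 / c) * (b - c) ≤ S ^ 3 := by
    have e : b / c + (17 / 10 - 1 / c) * (b - c) = 17 / 10 * b + (1 - 17 / 10 * c) := by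
      field_simp; ring
    linarith
  have hpos : 0 ≤ (17 / 10 - 1 / c) * (b - c) := by
    refine mul_nonneg ?_ (sub_nonneg.2 hb0)
    rw [sub_nonneg, div_le_iff₀ hc0]
    linarith
  have hbc : 0 ≤ b / c := div_nonneg (hc0.le.trans hb0) hc0.le
  have ea : (2 * a) ^ 3 = 64 / 27 * (S ^ 3) ^ 2 := by
    rw [← pow_mul, show (3 * 2 : ℕ) = 2 * 3 from rfl, pow_mul, hS]; ring
  have eb : 2 * b = 3 * π / 8 * (b / c) := by rw [hc]; field_simp; ring
  rw [ea, eb]
  refine ⟨?_, fun heq => ?_⟩
  · have h := pow_le_pow_left₀ hbc (show b / c ≤ S ^ 3 by linarith) 2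
    have h' := mul_le_mul_of_nonneg_left h (show (0 : ℝ) ≤ 64 / 27 * (3 * π / 8) ^ 2 by positivity)
    linarith
  · have hsq : (b / c) ^ 2 = (S ^ 3) ^ 2 := by
      have h0 : (64 / 27 * (3 * π / 8) ^ 2 : ℝ) ≠ 0 := by positivity
      apply mul_left_cancel₀ h0
      linarith
    have hS0 : b / c = S ^ 3 :=
      (pow_left_inj₀ hbc (by positivity) (by norm_num)).1 hsq
    have hz : (17 / 10 - 1 / c) * (b - c) = 0 := le_antisymm (by linarith) hpos
    have hne : 17 / 10 - 1 / c ≠ 0 := by
      refine ne_of_gt (sub_pos.2 ?_)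
      rw [div_lt_iff₀ hc0]
      linarith
    have : b = c := sub_eq_zero.1 ((mul_eq_zero.1 hz).resolve_left hne)
    rw [this, div_self hc0.ne', mul_one]

/-- The profile lemmas up to dimension four. -/
theorem profileLemma_upto : ∀ p, 1 ≤ p → p + 2 ≤ 4 → ProfileLemma p := by
  intro p h1 h2
  rcases show p = 1 ∨ p = 2 by omega with rfl | rfl
  · exact profileLemma_one
  · exact profileLemma_two

end Vale.Agent.P237.Petty.Hull.Four
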