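import Vale.Agent.P237.Petty.Hull.FiveExcess
import Vale.Agent.P237.Petty.Hull.FiveStep
import Vale.Agent.P237.Petty.Hull.Four

/-!
# P237: the functional of dimension five grows along the hull homotopy
-/

namespace Vale.Agent.P237.Petty.Hull.Five

open Real Set MeasureTheory Filter Topology
open Four (circTail hasDerivWithinAt_primitive)

variable {F : ℝ → ℝ}

/-- An even concave function strictly above the semicircle and of bounded height. -/
structure Lifted (F : ℝ → ℝ) : Prop where
  base : Four.Lifted F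
  height : F 0 ≤ 188 / 125

/-- The integrand of the John term. -/
noncomputable def densQ (F : ℝ → ℝ) (u : ℝ) : ℝ := johnG (F u) (F u ^ 2 + u ^ 2 - 1)

theorem densQ_eq (F : ℝ → ℝ) (u : ℝ) : densQ F u =
    F u ^ 6 / 6 + 3 / 40 * u ^ 2 * F u ^ 6 - u ^ 2 * F u ^ 4 + 3 / 20 * u ^ 4 * F u ^ 4
      - 3 / 160 * F u ^ 8 := by
  simp only [densQ, johnG]
  ring

theorem Lifted.intervalIntegrable_densQ (h : Lifted F) :
    IntervalIntegrable (densQ F) volume 0 1 := by
  have h4 := h.base.intervalIntegrable 4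
  have h6 := h.base.intervalIntegrable 6
  have h8 := h.base.intervalIntegrable 8
  rw [funext (densQ_eq F)]
  exact ((((h6.div_const 6).add (h6.continuousOn_mul (by fun_prop))).sub
    (h4.continuousOn_mul (by fun_prop))).add (h4.continuousOn_mul (by fun_prop))).sub
      (h8.const_mul _)

theorem continuous_circFour : Continuous circFour := by unfold circFour; fun_prop

theorem continuous_tailA : Continuous fun z : ℝ × ℝ × ℝ => tailA z.1 z.2.1 z.2.2 :=
  Four.continuous_tailB

theorem continuous_tailB : Continuous fun z : ℝ × ℝ × ℝ => tailB z.1 z.2.1 z.2.2 := by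
  unfold tailB line40 circFour; fun_prop

theorem continuous_tailM : Continuous fun z : ℝ × ℝ × ℝ => tailM z.1 z.2.1 z.2.2 := by
  unfold tailM line80 line60 line62 line40 line42 line44 circJohn; fun_prop

theorem continuous_gap : Continuous fun z : ℝ × ℝ × ℝ => gap z.1 z.2.1 z.2.2 := by
  have h : Continuous fun x : ℝ => x ^ (4 / 3 : ℝ) := Real.continuous_rpow_const (by norm_num)
  unfold gap
  exact ((h.comp (continuous_fst.div_const _)).sub (by fun_prop)).add (by fun_prop)

/-- The derivative of `gap` along a path is at least the margin. -/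
theorem gap_deriv_nonneg {a κ p q r : ℝ} (hκ : 0 ≤ κ) (hp : 0 < p) (hq : 0 < q) (hr : 0 < r)
    (hm : 0 ≤ margin p q r ((a / baseA) ^ (1 / 3 : ℝ))) (ha : 0 ≤ a) :
    0 ≤ 4 / 3 * (a / baseA) ^ (1 / 3 : ℝ) *
          (κ * q * r * (3 / 4 * (2 * q ^ 2 + 8 / 3 * p * q * r + p ^ 2 * r ^ 2)) / baseA)
        - 3751 / 2000 * (κ * q * r * (2000 / 3751 * cB p q r))
        + 15 / 8 * (1107 / 2000) * (κ * q * r * (8 / 15 * (2000 / 1107) * cM p q r)) := by
  set S := (a / baseA) ^ (1 / 3 : ℝ)
  have hS : 0 ≤ S := Real.rpow_nonneg (div_nonneg ha baseA_pos.le) _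
  have e : 4 / 3 * S * (κ * q * r * (3 / 4 * (2 * q ^ 2 + 8 / 3 * p * q * r + p ^ 2 * r ^ 2)) / baseA)
      - 3751 / 2000 * (κ * q * r * (2000 / 3751 * cB p q r))
      + 15 / 8 * (1107 / 2000) * (κ * q * r * (8 / 15 * (2000 / 1107) * cM p q r)) =
      κ * q * r * (margin p q r S + S * (baseA⁻¹ - 1061 / 625) *
        (2 * q ^ 2 + 8 / 3 * p * q * r + p ^ 2 * r ^ 2)) := by
    simp only [margin, cA]
    ring
  rw [e]
  have h1 : 0 ≤ S * (baseA⁻¹ - 1061 / 625) * (2 * q ^ 2 + 8 / 3 * p * q * r + p ^ 2 * r ^ 2) :=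
    mul_nonneg (mul_nonneg hS (sub_nonneg.2 omega_le)) (by positivity)
  exact mul_nonneg (by positivity) (add_nonneg hm h1)

/-- The margin from lower bounds of the excess. -/
theorem margin_of_excess {p q r a : ℝ} (hc : p ^ 2 + q ^ 2 = 1) (hp : 0 < p) (hq : 0 < q)
    (hr : 0 < r) (hT : q * r ≤ p) (hY : q + p * r ≤ 188 / 125) (ha : baseA ≤ a)
    (hlow : q + p * r ≤ 1 → xLow p q r ≤ 1061 / 625 * (a - baseA))
    (hhigh : 1 ≤ q + p * r → xHigh p q r ≤ 2 * (q + p * r) * (1061 / 625 * (a - baseA))) :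
    0 ≤ margin p q r ((a / baseA) ^ (1 / 3 : ℝ)) := by
  have hA := baseA_pos
  have hx : 1061 / 625 * (a - baseA) ≤ a / baseA - 1 := by
    rw [show a / baseA - 1 = baseA⁻¹ * (a - baseA) by field_simp]
    exact mul_le_mul_of_nonneg_right omega_le (sub_nonneg.2 ha)
  have h1 : 1 ≤ a / baseA := (one_le_div hA).2 ha
  refine margin_nonneg hc hp hq hr hT hY (x := a / baseA - 1) (by linarith)
    (Real.rpow_nonneg (by linarith) _) ?_ (fun h => (hlow h).trans hx)
    fun h => (hhigh h).trans (mul_le_mul_of_nonneg_left hx (by positivity))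
  rw [show (1 / 3 : ℝ) = ((3 : ℕ) : ℝ)⁻¹ by norm_num,
    Real.rpow_inv_natCast_pow (by linarith) (by norm_num)]
  ring

theorem baseA_eq : baseA = circTail 0 := Four.circTail_zero.symm

/-- The cone family `T = 0`, as a function of the height. -/
noncomputable def cone (y : ℝ) : ℝ :=
  gap (tailA (tp 0 y) (tq 0 y) (len 0 y)) (tailB (tp 0 y) (tq 0 y) (len 0 y))
    (tailM (tp 0 y) (tq 0 y) (len 0 y))

theorem cone_one : cone 1 = 1 - 3751 / 2000 * (8 / 15) := by
  have h1 : len 0 1 = 0 := by simp [len]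
  have h2 : tp 0 1 = 0 := by simp [tp, h1]
  have h3 : tq 0 1 = 1 := by simp [tq, h1]
  simp only [cone, h1, h2, h3, gap, tailA, Four.tailB, tailB, tailM, line40, line42, line44,
    line60, line62, line80, circFour, circJohn]
  norm_num [← baseA_eq, baseA_pos.ne']

theorem continuousOn_cone : ContinuousOn cone (Ici 1) := by
  have hl : Continuous fun y : ℝ => len 0 y := by unfold len; fun_prop
  have hne : ∀ y ∈ Ici (1 : ℝ), y ^ 2 + (0 : ℝ) ^ 2 ≠ 0 := fun y hy => by
    have : (1 : ℝ) ≤ y := hy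
    positivity
  have hp : ContinuousOn (fun y : ℝ => tp 0 y) (Ici 1) :=
    ContinuousOn.div (by fun_prop) (by fun_prop) hne
  have hq : ContinuousOn (fun y : ℝ => tq 0 y) (Ici 1) :=
    ContinuousOn.div (by fun_prop) (by fun_prop) hne
  have h3 := hp.prodMk (hq.prodMk hl.continuousOn)
  have hA := continuous_tailA.comp_continuousOn h3
  have hB := continuous_tailB.comp_continuousOn h3
  have hM := continuous_tailM.comp_continuousOn h3
  simp only [Function.comp_def] at hA hB hM
  unfold cone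
  exact (continuous_gap.comp_continuousOn (hA.prodMk (hB.prodMk hM)) :)

theorem cone_mono : MonotoneOn cone (Icc 1 (188 / 125)) := by
  refine monotoneOn_of_hasDerivWithinAt_nonneg (convex_Icc _ _)
    (continuousOn_cone.mono Icc_subset_Ici_self) (f' := fun y =>
      let p := tp 0 y
      let q := tq 0 y
      let r := len 0 y
      4 / 3 * (tailA p q r / baseA) ^ (1 / 3 : ℝ) *
          (1 * q * r * (3 / 4 * (2 * q ^ 2 + 8 / 3 * p * q * r + p ^ 2 * r ^ 2)) / baseA)
        - 3751 / 2000 * (1 * q * r * (2000 / 3751 * cB p q r))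
        + 15 / 8 * (1107 / 2000) * (1 * q * r * (8 / 15 * (2000 / 1107) * cM p q r)))
    (fun y hy => ?_) fun y hy => ?_
  all_goals rw [interior_Icc] at hy
  all_goals have hy' : √(1 - (0 : ℝ) ^ 2) < y := by simpa using hy.1
  all_goals obtain ⟨hr, hp, hq, hc, eT, ey⟩ := tangent_facts le_rfl one_pos hy'
  · rw [interior_Icc]
    obtain ⟨dR, dP, dQ⟩ := hasDerivWithinAt_data (τ := fun _ => (0 : ℝ)) (f := fun t => t) le_rfl
      one_pos hy' (hasDerivWithinAt_const y (Ioo 1 (188 / 125)) 0)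
      (hasDerivWithinAt_id y (Ioo 1 (188 / 125)))
    simp only [zero_mul, zero_div, add_zero] at dR dP dQ
    obtain ⟨dA, dB, dM⟩ := hasDerivWithinAt_tails (P := fun t => tp 0 t) (Q := fun t => tq 0 t)
      (R := fun t => len 0 t) (α := (0 : ℝ)) (κ := (1 : ℝ)) hc hq hr.ne' dP dQ
      (by simpa [ey] using dR)
    simp only [neg_zero, zero_mul, zero_add] at dA dB dM
    exact hasDerivWithinAt_gap dA dB dM
  · simp only
    set p := tp 0 y
    set q := tq 0 y
    set r := len 0 y
    have h0 := tail_excess_nonneg hc hp.le hq hr.le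
    have hh := tail_high hc hp.le hq hr.le (by linarith)
    rw [show p - q * r = 0 from eT, ← baseA_eq] at h0 hh
    refine gap_deriv_nonneg zero_le_one hp hq hr ?_ (by linarith [baseA_pos])
    refine margin_of_excess hc hp hq hr (by linarith) (by linarith [hy.2]) (by linarith)
      (fun h => ?_) fun _ => ?_
    · linarith [hy.1]
    · have hy0 : 0 < q + p * r := by positivity
      have hh' := (div_le_iff₀ (by positivity)).1 hh
      simp only [xHigh, show p - q * r = 0 from eT]
      linarith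

/-- The functional of the hull profile at `T`. -/
noncomputable def hullGap (F : ℝ → ℝ) (T : ℝ) : ℝ :=
  gap ((∫ u in (0 : ℝ)..T, F u ^ 3) + tailA (tp T (F T)) (tq T (F T)) (len T (F T)))
    ((∫ u in (0 : ℝ)..T, F u ^ 4) + tailB (tp T (F T)) (tq T (F T)) (len T (F T)))
    ((∫ u in (0 : ℝ)..T, densQ F u) + tailM (tp T (F T)) (tq T (F T)) (len T (F T)))

theorem Lifted.continuousOn_hullGap (h : Lifted F) {b : ℝ} (hb : b < 1) :
    ContinuousOn (hullGap F) (Icc 0 b) := by
  have hP : ∀ {g : ℝ → ℝ}, IntervalIntegrable g volume 0 1 →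
      ContinuousOn (fun T => ∫ u in (0 : ℝ)..T, g u) (Icc 0 b) := fun hg => by
    refine (intervalIntegral.continuousOn_primitive_interval' hg left_mem_uIcc).mono ?_
    rw [uIcc_of_le (zero_le_one' ℝ)]
    exact Icc_subset_Icc_right hb.le
  have hd := h.base.continuousOn_data hb
  have hA := continuous_tailA.comp_continuousOn hd
  have hB := continuous_tailB.comp_continuousOn hd
  have hM := continuous_tailM.comp_continuousOn hd
  simp only [Function.comp_def] at hA hB hM
  unfold hullGap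
  exact (continuous_gap.comp_continuousOn
    (((hP (h.base.intervalIntegrable 3)).add hA).prodMk
      (((hP (h.base.intervalIntegrable 4)).add hB).prodMk
        ((hP h.intervalIntegrable_densQ).add hM))) :)

theorem Lifted.hullGap_deriv (h : Lifted F) {T : ℝ} (hT : T ∈ Ico (0 : ℝ) 1) :
    ∃ d, 0 ≤ d ∧ HasDerivWithinAt (hullGap F) d (Ici T) T := by
  have hb := h.base
  have hTI : T ∈ interior (Icc (-1 : ℝ) 1) := by
    rw [interior_Icc]
    exact ⟨by linarith [hT.1], hT.2⟩
  have hTm : T ∈ Icc (-1 : ℝ) 1 := interior_subset hTI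
  have hT01 : T ∈ Icc (0 : ℝ) 1 := ⟨hT.1, hT.2.le⟩
  obtain ⟨hr, hp, hq, hc, eT, ey⟩ := tangent_facts hT.1 hT.2 (hb.above T hTm)
  -- the right derivative
  have hG := (hb.concave.neg).hasDerivWithinAt_rightDeriv_of_mem_interior hTI
  set g := derivWithin (-F) (Ioi T) T
  have hF : HasDerivWithinAt F (-g) (Ici T) T := by
    have := (hasDerivWithinAt_Ioi_iff_Ici.1 hG).neg
    simpa using this
  set p := tp T (F T)
  set q := tq T (F T)
  set r := len T (F T)
  set y := F T
  have hp1 : p < 1 := tp_lt_one hT.1 hT.2 (hb.above T hTm)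
  have hη : 0 ≤ -g + 1 * p / q := by
    have hpI : p ∈ Icc (-1 : ℝ) 1 := ⟨by linarith, hp1.le⟩
    have hlt : T < p := by nlinarith [mul_pos hq hr]
    have h1 := (hb.concave.neg).rightDeriv_le_slope_of_mem_interior hTI hpI hlt
    have h2 : q ≤ F p := by
      have := (hb.above p hpI).le
      rwa [show 1 - p ^ 2 = q ^ 2 by linarith, Real.sqrt_sq hq.le] at this
    rw [slope_def_field, show p - T = q * r by linarith] at h1
    simp only [Pi.neg_apply] at h1
    rw [le_div_iff₀ (mul_pos hq hr)] at h1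
    have h3 : g * (q * r) ≤ p * r := by
      change g * (q * r) ≤ _ at h1
      linarith
    have h4 : g * q ≤ p := le_of_mul_le_mul_right (by linarith) hr
    have h5 : g ≤ p / q := (le_div_iff₀ hq).2 h4
    rw [one_mul]
    linarith
  obtain ⟨dR, dP, dQ⟩ := hasDerivWithinAt_data (τ := fun x => x) (f := F) hT.1 hT.2
    (hb.above T hTm) (hasDerivWithinAt_id T (Ici T)) hF
  obtain ⟨dA, dB, dM⟩ := hasDerivWithinAt_tails (P := fun t => tp t (F t))
    (Q := fun t => tq t (F t)) (R := fun t => len t (F t)) (α := (1 : ℝ)) (κ := -g + 1 * p / q)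
    hc hq hr.ne'
    dP dQ (dR.congr_deriv (by rw [show q + p * r = F T from ey]))
  set κ := -g + 1 * p / q
  have cF := hb.continuousOn
  have cQ : ContinuousOn (densQ F) (Ioo (-1) 1) := by
    rw [funext (densQ_eq F)]
    fun_prop
  have iA := hasDerivWithinAt_primitive (hb.intervalIntegrable 3) (cF.pow 3) hT
  have iB := hasDerivWithinAt_primitive (hb.intervalIntegrable 4) (cF.pow 4) hT
  have iM := hasDerivWithinAt_primitive h.intervalIntegrable_densQ cQ hT
  -- the prefix bound
  have hi3 : IntervalIntegrable (fun u => F u ^ 3) volume 0 T := (hb.intervalIntegrable 3).mono_set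
    (by rw [uIcc_of_le hT.1, uIcc_of_le (zero_le_one' ℝ)]; exact Icc_subset_Icc_right hT.2.le)
  have hcc : Continuous fun u : ℝ => √(1 - u ^ 2) ^ 3 := by fun_prop
  have hL0 : 0 ≤ ∫ u in (0 : ℝ)..T, (F u ^ 3 - √(1 - u ^ 2) ^ 3) :=
    intervalIntegral.integral_nonneg hT.1 fun u hu => sub_nonneg.2
      (pow_le_pow_left₀ (Real.sqrt_nonneg _)
        (hb.above u ⟨by linarith [hu.1], by linarith [hu.2, hT.2]⟩).le 3)
  set L := ∫ u in (0 : ℝ)..T, (F u ^ 3 - √(1 - u ^ 2) ^ 3) with hLdef
  have hA : (∫ u in (0 : ℝ)..T, F u ^ 3) + tailA p q r - baseA =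
      L + (tailA p q r - circTail (p - q * r)) := by
    rw [hLdef, intervalIntegral.integral_sub hi3 (hcc.intervalIntegrable _ _), baseA_eq,
      show p - q * r = T from eT]
    simp only [circTail]
    rw [← intervalIntegral.integral_add_adjacent_intervals (hcc.intervalIntegrable 0 T)
      (hcc.intervalIntegrable T 1)]
    ring
  have h0 := tail_excess_nonneg hc hp.le hq hr.le
  have hTr : q * r ≤ p := by linarith [hT.1]
  have hy0 : 0 < y := hb.pos hTm
  have hY : y ≤ 188 / 125 := (hb.antitone ⟨le_rfl, zero_le_one⟩ hT01 hT.1).trans h.height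
  set a := (∫ u in (0 : ℝ)..T, F u ^ 3) + tailA p q r
  refine ⟨4 / 3 * (a / baseA) ^ (1 / 3 : ℝ) *
          (κ * q * r * (3 / 4 * (2 * q ^ 2 + 8 / 3 * p * q * r + p ^ 2 * r ^ 2)) / baseA)
        - 3751 / 2000 * (κ * q * r * (2000 / 3751 * cB p q r))
        + 15 / 8 * (1107 / 2000) * (κ * q * r * (8 / 15 * (2000 / 1107) * cM p q r)), ?_, ?_⟩
  · refine gap_deriv_nonneg hη hp hq hr ?_ (by linarith [baseA_pos])
    refine margin_of_excess hc hp hq hr hTr (by rwa [ey]) (by linarith) (fun h1 => ?_) fun h1 => ?_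
    · have hy1 : y ≤ 1 := ey ▸ h1
      have hrp : r ≤ p := by nlinarith
      set b := (y + T * r) / (1 + r ^ 2) with hb'
      have hsq : y ^ 2 + T ^ 2 - 1 = r ^ 2 :=
        (len_sq (sq_gt (by nlinarith [hT.1, hT.2]) (hb.above T hTm)).2.le).symm
      have hT0 := hT.1
      have hb0 : 0 < b := by rw [hb']; positivity
      have hge : y * r ≤ T := by
        nlinarith [mul_nonneg (sub_nonneg.2 (pow_le_one₀ hy0.le hy1 : y ^ 2 ≤ 1))
          (add_nonneg (sq_nonneg T) (sq_nonneg y)), mul_nonneg hy0.le hr.le]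
      have hlow := prefix_low (a := (T - y * r) / (1 + r ^ 2)) (b := b) (y := y) (r := r)
        (hb.concave.subset (Icc_subset_Icc (by norm_num) hT.2.le) (convex_Icc _ _))
        (fun u hu => (hb.above u ⟨by linarith [hu.1], by linarith [hu.2, hT.2]⟩).le) hT.2.le
        (div_nonneg (sub_nonneg.2 hge) (by positivity)) hb0
        (by rw [hb']; field_simp; linear_combination (1 + r ^ 2) * hsq) hr hy0
        (by rw [hb']; field_simp; ring) (by rw [hb']; field_simp; ring) rfl hi3
      have ht := tail_low hc hp hq hr.le hTr hrp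
      simp only [xLow, eT, ey]
      refine mul_le_mul_of_nonneg_left ?_ (by norm_num)
      rw [hA, eT]
      rw [eT] at ht
      linarith
    · rw [ey] at h1
      have hhigh := prefix_high hT.1 hT.2.le hy0
        (fun u hu => hb.antitone ⟨hu.1, hu.2.trans hT.2.le⟩ hT01 hu.2) hi3
      have ht := tail_high hc hp.le hq hr.le hTr
      rw [ey, eT] at ht
      rw [div_le_iff₀ (by positivity)] at ht hhigh
      simp only [xHigh, eT, ey]
      rw [hA, eT]
      linarith
  · refine (hasDerivWithinAt_gap (iA.fun_add dA) (iB.fun_add dB) (iM.fun_add dM)).congr_deriv ?_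
    have e3 : F T ^ 3 = (q + p * r) ^ 3 := by rw [show q + p * r = F T from ey]
    have e4 : F T ^ 4 = (q + p * r) ^ 4 := by rw [show q + p * r = F T from ey]
    have e5 : densQ F T = johnG (q + p * r) (r ^ 2) := by
      rw [show q + p * r = F T from ey, densQ, len_sq (sq_gt (by nlinarith [hT.1, hT.2])
        (hb.above T hTm)).2.le]
    rw [e3, e4, e5]
    ring

theorem Lifted.hullGap_mono (h : Lifted F) {b : ℝ} (hb0 : 0 ≤ b) (hb : b < 1) :
    hullGap F 0 ≤ hullGap F b := by
  choose d hd using fun T : Ico (0 : ℝ) 1 => h.hullGap_deriv T.2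
  classical
  set d' : ℝ → ℝ := fun T => if hT : T ∈ Ico (0 : ℝ) 1 then d ⟨T, hT⟩ else 0
  have key := image_le_of_deriv_right_le_deriv_boundary (f := fun T => -hullGap F T)
    (f' := fun T => -d' T) (h.continuousOn_hullGap hb).neg (fun T hT => by
      have hT' : T ∈ Ico (0 : ℝ) 1 := ⟨hT.1, hT.2.trans hb⟩
      simp only [d', dif_pos hT']
      exact (hd ⟨T, hT'⟩).2.neg)
    (B := fun _ => -hullGap F 0) (B' := fun _ => 0) le_rfl continuousOn_const
    (fun T _ => hasDerivWithinAt_const T _ _) (fun T hT => by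
      have hT' : T ∈ Ico (0 : ℝ) 1 := ⟨hT.1, hT.2.trans hb⟩
      simp only [d', dif_pos hT', neg_nonpos]
      exact (hd ⟨T, hT'⟩).1) (show b ∈ Icc 0 b from ⟨hb0, le_rfl⟩)
  linarith [key]

theorem Lifted.hullGap_zero (h : Lifted F) : 1 - 3751 / 2000 * (8 / 15) ≤ hullGap F 0 := by
  have h1 : 1 < F 0 := by
    have := h.base.above 0 ⟨by norm_num, by norm_num⟩
    simpa using this
  have e : hullGap F 0 = cone (F 0) := by simp [hullGap, cone]
  rw [e, ← cone_one]
  exact cone_mono ⟨le_rfl, by norm_num⟩ ⟨h1.le, h.height⟩ h1.le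

/-- The inequality for a lifted profile. -/
theorem Lifted.gap_ge (h : Lifted F) :
    1 - 3751 / 2000 * (8 / 15) ≤ gap (∫ u in (0 : ℝ)..1, F u ^ 3) (∫ u in (0 : ℝ)..1, F u ^ 4)
      (∫ u in (0 : ℝ)..1, densQ F u) := by
  have hb := h.base
  have hbd : BddBelow (F '' Ioo (0 : ℝ) 1) :=
    ⟨0, by rintro _ ⟨t, ht, rfl⟩; exact (hb.pos ⟨by linarith [ht.1], ht.2.le⟩).le⟩
  set l := sInf (F '' Ioo (0 : ℝ) 1)
  have hl0 : 0 ≤ l := le_csInf ((nonempty_Ioo.2 zero_lt_one).image F)
    (by rintro _ ⟨t, ht, rfl⟩; exact (hb.pos ⟨by linarith [ht.1], ht.2.le⟩).le)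
  have hlim : Tendsto F (𝓝[<] 1) (𝓝 l) :=
    (hb.antitone.mono Ioo_subset_Icc_self).tendsto_nhdsWithin_Ioo_left
      (nonempty_Ioo.2 zero_lt_one) hbd
  have hid : Tendsto (fun T : ℝ => T) (𝓝[<] 1) (𝓝 1) := nhdsWithin_le_nhds
  have hev : ∀ᶠ T in 𝓝[<] (1 : ℝ), T ∈ Ioo (0 : ℝ) 1 := Ioo_mem_nhdsLT zero_lt_one
  have hlen : Tendsto (fun T => len T (F T)) (𝓝[<] 1) (𝓝 l) := by
    have h2 := ((hlim.pow 2).add (hid.pow 2)).sub_const 1
    rw [show l ^ 2 + 1 ^ 2 - 1 = l ^ 2 by ring] at h2
    simpa [len, Real.sqrt_sq hl0] using h2.sqrt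
  have hp : Tendsto (fun T => tp T (F T)) (𝓝[<] 1) (𝓝 1) := by
    refine tendsto_of_tendsto_of_tendsto_of_le_of_le' hid tendsto_const_nhds ?_ ?_
    · filter_upwards [hev] with T hT
      obtain ⟨hr, hp, hq, -, eT, -⟩ :=
        tangent_facts hT.1.le hT.2 (hb.above T ⟨by linarith [hT.1], hT.2.le⟩)
      nlinarith [mul_pos hq hr]
    · filter_upwards [hev] with T hT
      exact (tp_lt_one hT.1.le hT.2 (hb.above T ⟨by linarith [hT.1], hT.2.le⟩)).le
  have hq : Tendsto (fun T => tq T (F T)) (𝓝[<] 1) (𝓝 0) := by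
    have h2 := ((hp.pow 2).const_sub 1).sqrt
    rw [show √(1 - (1 : ℝ) ^ 2) = 0 by norm_num] at h2
    refine h2.congr' ?_
    filter_upwards [hev] with T hT
    obtain ⟨-, -, hq, hc, -, -⟩ :=
      tangent_facts hT.1.le hT.2 (hb.above T ⟨by linarith [hT.1], hT.2.le⟩)
    rw [show 1 - tp T (F T) ^ 2 = tq T (F T) ^ 2 by linarith, Real.sqrt_sq hq.le]
  have h3 := hp.prodMk_nhds (hq.prodMk_nhds hlen)
  have hP : ∀ {g : ℝ → ℝ}, IntervalIntegrable g volume 0 1 →
      Tendsto (fun T => ∫ u in (0 : ℝ)..T, g u) (𝓝[<] 1) (𝓝 (∫ u in (0 : ℝ)..1, g u)) := by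
    intro g hg
    have hc := intervalIntegral.continuousOn_primitive_interval' hg left_mem_uIcc
    rw [uIcc_of_le (zero_le_one' ℝ)] at hc
    refine (hc 1 ⟨zero_le_one, le_rfl⟩).tendsto.mono_left ?_
    rw [← nhdsWithin_Ioo_eq_nhdsLT (zero_lt_one' ℝ)]
    exact nhdsWithin_mono _ Ioo_subset_Icc_self
  have tA := (hP (hb.intervalIntegrable 3)).add ((continuous_tailA.tendsto _).comp h3)
  have tB := (hP (hb.intervalIntegrable 4)).add ((continuous_tailB.tendsto _).comp h3)
  have tM := (hP h.intervalIntegrable_densQ).add ((continuous_tailM.tendsto _).comp h3)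
  have h0 : circTail 1 = 0 := intervalIntegral.integral_same
  simp only [tailA, Four.tailB, tailB, tailM, line40, line42, line44, line60, line62, line80,
    circFour, circJohn, h0] at tA tB tM
  norm_num at tA tB tM
  refine ge_of_tendsto ((continuous_gap.tendsto _).comp (tA.prodMk_nhds (tB.prodMk_nhds tM))) ?_
  filter_upwards [hev] with T hT
  refine h.hullGap_zero.trans ((h.hullGap_mono hT.1.le hT.2).trans ?_)
  simp [hullGap, tailA, Four.tailB, tailB, tailM, line40, line42, line44, line60, line62, line80,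
    circFour, circJohn]

end Vale.Agent.P237.Petty.Hull.Five
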