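import Vale.Agent.P237.Petty.Hull.FourTail
import Vale.Agent.P237.Petty.Hull.FiveLine
import Vale.Agent.P237.Petty.Hull.FiveMargin

/-!
# P237: the hull homotopy in dimension five

`tailA`, `tailB`, `tailM` are the integrals of `f³`, `f⁴` and the John integrand over `[T, 1]` for
the profile that follows the tangent line from `(T, f T)` and then the unit circle.
-/

namespace Vale.Agent.P237.Petty.Hull.Five

open Real Set MeasureTheory Filter Topology
open Four (circTail hasDerivAt_circTail)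

/-- The John integrand, as a function of the height `l` and of `l² + u² - 1`. -/
noncomputable def johnG (l z : ℝ) : ℝ :=
  9 / 160 * l ^ 8 + (113 / 120 - 9 / 40 * z) * l ^ 6 + (3 / 20 * z ^ 2 - 7 / 10 * z - 17 / 20) * l ^ 4

/-- The integral of the fourth power of the semicircle over `[x, 1]`. -/
noncomputable def circFour (x : ℝ) : ℝ := 8 / 15 - x + 2 / 3 * x ^ 3 - x ^ 5 / 5

/-- The integral of the John integrand of the semicircle over `[x, 1]`. -/
noncomputable def circJohn (x : ℝ) : ℝ :=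
  -(9 / 160 * (x - 4 / 3 * x ^ 3 + 6 / 5 * x ^ 5 - 4 / 7 * x ^ 7 + x ^ 9 / 9)
    + 113 / 120 * (x - x ^ 3 + 3 / 5 * x ^ 5 - x ^ 7 / 7)
    - 17 / 20 * (x - 2 / 3 * x ^ 3 + x ^ 5 / 5))

noncomputable def tailA (p q r : ℝ) : ℝ := Four.tailB p q r

noncomputable def tailB (p q r : ℝ) : ℝ := line40 p q r + circFour p

noncomputable def tailM (p q r : ℝ) : ℝ :=
  9 / 160 * line80 p q r + 113 / 120 * line60 p q r - 9 / 40 * line62 p q r
    - 17 / 20 * line40 p q r - 7 / 10 * line42 p q r + 3 / 20 * line44 p q r + circJohn p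

/-- The ball value of the integral of the cube. -/
noncomputable def baseA : ℝ := 3 * π / 16

theorem baseA_pos : 0 < baseA := by unfold baseA; positivity

theorem omega_le : (1061 / 625 : ℝ) ≤ baseA⁻¹ := by
  rw [baseA, inv_div, le_div_iff₀ (by positivity)]
  linarith [Real.pi_lt_d4]

/-- The functional: `(a / A₀)^(4/3) - 3751/2000 b + (15/8)(1107/2000) m`. -/
noncomputable def gap (a b m : ℝ) : ℝ :=
  (a / baseA) ^ (4 / 3 : ℝ) - 3751 / 2000 * b + 15 / 8 * (1107 / 2000) * m

theorem hasDerivWithinAt_gap {a b m : ℝ → ℝ} {a' b' m' T : ℝ} {s : Set ℝ}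
    (ha : HasDerivWithinAt a a' s T) (hb : HasDerivWithinAt b b' s T)
    (hm : HasDerivWithinAt m m' s T) :
    HasDerivWithinAt (fun x => gap (a x) (b x) (m x))
      (4 / 3 * (a T / baseA) ^ (1 / 3 : ℝ) * (a' / baseA) - 3751 / 2000 * b'
        + 15 / 8 * (1107 / 2000) * m') s T := by
  refine ((((ha.div_const baseA).rpow_const (p := (4 / 3 : ℝ)) (Or.inr (by norm_num))).sub
    (hb.const_mul (3751 / 2000 : ℝ))).add (hm.const_mul (15 / 8 * (1107 / 2000) : ℝ))).congr_deriv ?_
  rw [show (4 / 3 : ℝ) - 1 = 1 / 3 by norm_num]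
  ring

/-- The derivative of the three tails along a path of tangent data. -/
theorem hasDerivWithinAt_tails {P Q R : ℝ → ℝ} {x α κ : ℝ} {s : Set ℝ}
    (hc : P x ^ 2 + Q x ^ 2 = 1) (hq : 0 < Q x) (hr : R x ≠ 0)
    (hP : HasDerivWithinAt P (Q x ^ 2 * κ / R x) s x)
    (hQ : HasDerivWithinAt Q (-P x * Q x * κ / R x) s x)
    (hR : HasDerivWithinAt R (-α / Q x + (Q x + P x * R x) * κ / R x) s x) :
    HasDerivWithinAt (fun t => tailA (P t) (Q t) (R t))
      (-α * (Q x + P x * R x) ^ 3 + κ * Q x * R x *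
        (3 / 4 * (2 * Q x ^ 2 + 8 / 3 * P x * Q x * R x + P x ^ 2 * R x ^ 2))) s x ∧
    HasDerivWithinAt (fun t => tailB (P t) (Q t) (R t))
      (-α * (Q x + P x * R x) ^ 4 + κ * Q x * R x *
        (2000 / 3751 * cB (P x) (Q x) (R x))) s x ∧
    HasDerivWithinAt (fun t => tailM (P t) (Q t) (R t))
      (-α * johnG (Q x + P x * R x) (R x ^ 2) + κ * Q x * R x *
        (8 / 15 * (2000 / 1107) * cM (P x) (Q x) (R x))) s x := by
  have e : 1 - P x ^ 2 = Q x ^ 2 := by linarith
  have hP' := fun n : ℕ => hP.fun_pow n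
  refine ⟨(Four.hasDerivWithinAt_tails hc hq hr hP hQ hR).2.1.congr_deriv (by ring), ?_, ?_⟩
  · have h4 : HasDerivWithinAt (fun t => circFour (P t))
        (-(Q x ^ 4) * (Q x ^ 2 * κ / R x)) s x := by
      refine ((((hP.const_sub (8 / 15 : ℝ)).fun_add ((hP' 3).const_mul (2 / 3 : ℝ))).fun_sub
        ((hP' 5).div_const 5))).congr_deriv ?_
      rw [show Q x ^ 4 = (1 - P x ^ 2) ^ 2 by rw [e]; ring]
      push_cast
      ring
    refine ((hasDerivWithinAt_line40 hc hq.ne' hr hP hQ hR).fun_add h4).congr_deriv ?_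
    simp only [line40D, cB]
    ring
  · have hJ : HasDerivWithinAt (fun t => circJohn (P t))
        (-johnG (Q x) 0 * (Q x ^ 2 * κ / R x)) s x := by
      have a1 := (((hP.fun_sub ((hP' 3).const_mul (4 / 3 : ℝ))).fun_add
        ((hP' 5).const_mul (6 / 5 : ℝ))).fun_sub ((hP' 7).const_mul (4 / 7 : ℝ))).fun_add
          ((hP' 9).div_const 9)
      have a2 := ((hP.fun_sub (hP' 3)).fun_add ((hP' 5).const_mul (3 / 5 : ℝ))).fun_sub
        ((hP' 7).div_const 7)
      have a3 := (hP.fun_sub ((hP' 3).const_mul (2 / 3 : ℝ))).fun_add ((hP' 5).div_const 5)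
      refine (((a1.const_mul (9 / 160 : ℝ)).fun_add (a2.const_mul (113 / 120 : ℝ))).fun_sub
        (a3.const_mul (17 / 20 : ℝ))).fun_neg.congr_deriv ?_
      simp only [johnG]
      rw [show Q x ^ 8 = (Q x ^ 2) ^ 4 by ring, show Q x ^ 6 = (Q x ^ 2) ^ 3 by ring,
        show Q x ^ 4 = (Q x ^ 2) ^ 2 by ring, ← e]
      push_cast
      ring
    refine (((((((hasDerivWithinAt_line80 hc hq.ne' hr hP hQ hR).const_mul (9 / 160 : ℝ)).fun_add
      ((hasDerivWithinAt_line60 hc hq.ne' hr hP hQ hR).const_mul (113 / 120 : ℝ))).fun_sub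
      ((hasDerivWithinAt_line62 hc hq.ne' hr hP hQ hR).const_mul (9 / 40 : ℝ))).fun_sub
      ((hasDerivWithinAt_line40 hc hq.ne' hr hP hQ hR).const_mul (17 / 20 : ℝ))).fun_sub
      ((hasDerivWithinAt_line42 hc hq.ne' hr hP hQ hR).const_mul (7 / 10 : ℝ))).fun_add
      ((hasDerivWithinAt_line44 hc hq.ne' hr hP hQ hR).const_mul (3 / 20 : ℝ))
      |>.fun_add hJ).congr_deriv ?_
    simp only [line80D, line60D, line62D, line40D, line42D, line44D, johnG, cM, moment3, moment5]
    push_cast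
    ring

end Vale.Agent.P237.Petty.Hull.Five
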