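import Vale.Agent.P237.Petty.Hull.FourPoly

/-!
# P237: the sign of the hull step in dimension four
-/

namespace Vale.Agent.P237.Petty.Hull.Four

theorem lin_le_sqrt {κ x : ℝ} (hκ : 0 ≤ κ) (hx : 0 ≤ x) (h : κ ^ 2 * x ≤ 1 - 2 * κ) :
    1 + κ * x ≤ √(1 + x) := by
  rw [Real.le_sqrt (by positivity) (by linarith)]
  nlinarith [mul_le_mul_of_nonneg_left h hx]

theorem rat_le_sqrt {x : ℝ} (hx : 0 ≤ x) : (4 + 3 * x) / (4 + x) ≤ √(1 + x) := by
  rw [Real.le_sqrt (by positivity) (by linarith), div_pow, div_le_iff₀ (by positivity)]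
  nlinarith [pow_nonneg hx 3]

theorem margin_mono {p q r S S' : ℝ} (hp : 0 ≤ p) (hq : 0 ≤ q) (hr : 0 ≤ r) (h : S ≤ S') :
    margin p q r S ≤ margin p q r S' := by
  have h0 : 0 ≤ q / 2 + p * r / 3 := by positivity
  have := mul_le_mul_of_nonneg_right h h0
  simp only [margin]
  linarith

/-- The parameter of the circle. -/
theorem half_angle {p q : ℝ} (hc : p ^ 2 + q ^ 2 = 1) (hp : 0 < p) (hq : 0 < q) :
    ∃ w : ℝ, 0 < w ∧ w < 1 ∧ p = 2 * w / (1 + w ^ 2) ∧ q = (1 - w ^ 2) / (1 + w ^ 2) := by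
  have hp1 : p < 1 + q := by nlinarith
  refine ⟨p / (1 + q), by positivity, (div_lt_one (by linarith)).2 hp1, ?_, ?_⟩
  · field_simp
    linear_combination hc
  · field_simp
    linear_combination (q + 1) * hc

/-- The bound of `x` when `r = w s`. -/
theorem xlow_one {w s : ℝ} (hw : 0 ≤ w) (hs : 0 ≤ s) (hs1 : s ≤ 1) :
    w ^ 3 * s ^ 3 * (1 - w ^ 2 + w ^ 2 * s) / (1 + w ^ 2) ≤
      (w * s) ^ 3 / 2 * ((1 - w ^ 2) / (1 + w ^ 2) + ((1 - w ^ 2) / (1 + w ^ 2) +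
        2 * (2 * w / (1 + w ^ 2)) * (w * s) - (1 - w ^ 2) / (1 + w ^ 2) * (w * s) ^ 2) /
          (1 + (w * s) ^ 2)) := by
  have key : ((1 - w ^ 2) + 2 * w ^ 2 * s) / (1 + w ^ 2) ≤
      ((1 - w ^ 2) / (1 + w ^ 2) + 2 * (2 * w / (1 + w ^ 2)) * (w * s) -
        (1 - w ^ 2) / (1 + w ^ 2) * (w * s) ^ 2) / (1 + (w * s) ^ 2) := by
    field_simp
    nlinarith [mul_nonneg (mul_nonneg (sq_nonneg w) hs) (sub_nonneg.2 hs1),
      mul_nonneg (mul_nonneg (mul_nonneg (sq_nonneg w) hs) (sub_nonneg.2 hs1))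
        (mul_nonneg (sq_nonneg w) hs)]
  refine le_trans (le_of_eq ?_)
    (mul_le_mul_of_nonneg_left (add_le_add le_rfl key) (by positivity))
  field_simp
  ring

theorem case_one {w s x : ℝ} (hw : 0 < w) (hw1 : w < 1) (hs : 0 ≤ s) (hs1 : s ≤ 1)
    (hx : w ^ 3 * s ^ 3 * (1 - w ^ 2 + w ^ 2 * s) / (1 + w ^ 2) ≤ x) :
    0 ≤ margin (2 * w / (1 + w ^ 2)) ((1 - w ^ 2) / (1 + w ^ 2)) (w * s) √(1 + x) := by
  have hN : (0 : ℝ) < 1 + w ^ 2 := by positivity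
  have hw2 : 0 < 1 - w ^ 2 := by nlinarith
  set z := w ^ 3 * s ^ 3 * (1 - w ^ 2 + w ^ 2 * s) / (1 + w ^ 2) with hz
  have hz0 : 0 ≤ z := by positivity
  have hzb : z ≤ 1 / 2 := by
    rw [hz, div_le_iff₀ hN]
    have h3 : w ^ 3 * s ^ 3 ≤ w ^ 3 :=
      mul_le_of_le_one_right (by positivity) (pow_le_one₀ hs hs1)
    have h4 : 1 - w ^ 2 + w ^ 2 * s ≤ 1 := by nlinarith [sq_nonneg w]
    have h5 := mul_le_mul h3 h4 (by positivity) (by positivity)
    have h6 : w ^ 3 ≤ w ^ 2 := pow_le_pow_of_le_one hw.le hw1.le (by norm_num)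
    nlinarith
  refine le_trans ?_ (margin_mono (by positivity) (by positivity) (by positivity)
    ((lin_le_sqrt (κ := 11 / 25) (by norm_num) hz0 (by linarith)).trans
      (Real.sqrt_le_sqrt (by linarith))))
  have e : 1 + 11 / 25 * z = (1 + w ^ 2 + 11 / 25 *
      (w ^ 3 * s ^ 3 * (1 - w ^ 2 + w ^ 2 * s))) / (1 + w ^ 2) := by
    rw [hz]; field_simp
  rw [e, show w * s = w * s / 1 from (div_one _).symm,
    margin_eq_num hN.ne' one_ne_zero hN.ne']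
  refine div_nonneg ?_ (by positivity)
  show 0 ≤ oneNum w s
  rcases le_total w (1 / 2) with h | h
  · have := oneA_nonneg (w := 2 * w) (by linarith) (by linarith) hs hs1
    rwa [show 2 * w / 2 = w by ring] at this
  · have := oneB_nonneg (w := 2 * w - 1) (by linarith) (by linarith) hs hs1
    rwa [show 1 / 2 + (2 * w - 1) / 2 = w by ring] at this

/-- The numerator of `x` in the case `w ≤ r ≤ 1`. -/
theorem x_eq {w r : ℝ} :
    (1 - w ^ 2) / (1 + w ^ 2) * r ^ 3 / 2 +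
        3 / 2 * (2 * w / (1 + w ^ 2) - (1 - w ^ 2) / (1 + w ^ 2) * r) * r ^ 2 -
        (2 * w / (1 + w ^ 2) - (1 - w ^ 2) / (1 + w ^ 2) * r) ^ 3 =
      (1 / 2 * (1 - w ^ 2) * (1 + w ^ 2) ^ 2 * r ^ 3
        + 3 / 2 * (2 * w - (1 - w ^ 2) * r) * (1 + w ^ 2) ^ 2 * r ^ 2
        - (2 * w - (1 - w ^ 2) * r) ^ 3) / (1 + w ^ 2) ^ 3 := by
  field_simp

theorem case_two {w r x : ℝ} (hw : 0 < w) (hw1 : w < 1) (hwr : w ≤ r) (hr1 : r ≤ 1)
    (hbr : (1 - w ^ 2) * r ≤ 2 * w) (hz0 : 0 ≤ (1 / 2 * (1 - w ^ 2) * (1 + w ^ 2) ^ 2 * r ^ 3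
        + 3 / 2 * (2 * w - (1 - w ^ 2) * r) * (1 + w ^ 2) ^ 2 * r ^ 2
        - (2 * w - (1 - w ^ 2) * r) ^ 3) / (1 + w ^ 2) ^ 3)
    (hzb : (1 / 2 * (1 - w ^ 2) * (1 + w ^ 2) ^ 2 * r ^ 3
        + 3 / 2 * (2 * w - (1 - w ^ 2) * r) * (1 + w ^ 2) ^ 2 * r ^ 2
        - (2 * w - (1 - w ^ 2) * r) ^ 3) / (1 + w ^ 2) ^ 3 ≤ 907 / 1000)
    (hx : (1 / 2 * (1 - w ^ 2) * (1 + w ^ 2) ^ 2 * r ^ 3
        + 3 / 2 * (2 * w - (1 - w ^ 2) * r) * (1 + w ^ 2) ^ 2 * r ^ 2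
        - (2 * w - (1 - w ^ 2) * r) ^ 3) / (1 + w ^ 2) ^ 3 ≤ x) :
    0 ≤ margin (2 * w / (1 + w ^ 2)) ((1 - w ^ 2) / (1 + w ^ 2)) r √(1 + x) := by
  have hN : (0 : ℝ) < 1 + w ^ 2 := by positivity
  have hr : 0 < r := hw.trans_le hwr
  have hw2 : 0 < 1 - w ^ 2 := by nlinarith
  refine le_trans ?_ (margin_mono (by positivity) (by positivity) hr.le
    ((lin_le_sqrt (κ := 21 / 50) (by norm_num) hz0 (by linarith)).trans
      (Real.sqrt_le_sqrt (by linarith))))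
  rw [mul_div_assoc', one_add_div (by positivity), show r = r / 1 from (div_one _).symm,
    margin_eq_num hN.ne' one_ne_zero (pow_ne_zero 3 hN.ne')]
  refine div_nonneg ?_ (by positivity)
  simp only [div_one]
  show 0 ≤ twoNum w r
  rcases le_total w (9 / 20) with h | h
  · have hu : r ≤ 127 / 50 * w := by
      nlinarith [mul_le_mul_of_nonneg_right (show (319 / 400 : ℝ) ≤ 1 - w ^ 2 by nlinarith) hr.le]
    have := twoA_nonneg (w := 20 / 9 * w) (s := 50 / 77 * (r / w - 1)) (by linarith) (by linarith)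
      (by
        have := (one_le_div hw).2 hwr
        linarith)
      (by
        have : r / w ≤ 127 / 50 := (div_le_iff₀ hw).2 hu
        linarith)
    rw [show 9 / 20 * (20 / 9 * w) = w by ring] at this
    rwa [show w * (1 + 77 / 50 * (50 / 77 * (r / w - 1))) = r by field_simp; ring] at this
  · have h1w : 0 < 1 - w := by linarith
    have := twoB_nonneg (w := 20 / 11 * (w - 9 / 20)) (s := (r - w) / (1 - w)) (by linarith)
      (by linarith) (div_nonneg (by linarith) h1w.le) ((div_le_one h1w).2 (by linarith))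
    rw [show 9 / 20 + 11 / 20 * (20 / 11 * (w - 9 / 20)) = w by ring] at this
    rwa [show w + (1 - w) * ((r - w) / (1 - w)) = r by field_simp; ring] at this

theorem case_three {w r x : ℝ} (hw : 0 < w) (hw1 : w < 1) (hr1 : 1 < r)
    (hbr : (1 - w ^ 2) * r ≤ 2 * w) (hz0 : 0 ≤ (1 / 2 * (1 - w ^ 2) * (1 + w ^ 2) ^ 2 * r ^ 3
        + 3 / 2 * (2 * w - (1 - w ^ 2) * r) * (1 + w ^ 2) ^ 2 * r ^ 2
        - (2 * w - (1 - w ^ 2) * r) ^ 3) / (1 + w ^ 2) ^ 3)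
    (hx : (1 / 2 * (1 - w ^ 2) * (1 + w ^ 2) ^ 2 * r ^ 3
        + 3 / 2 * (2 * w - (1 - w ^ 2) * r) * (1 + w ^ 2) ^ 2 * r ^ 2
        - (2 * w - (1 - w ^ 2) * r) ^ 3) / (1 + w ^ 2) ^ 3 ≤ x) :
    0 ≤ margin (2 * w / (1 + w ^ 2)) ((1 - w ^ 2) / (1 + w ^ 2)) r √(1 + x) := by
  have hN : (0 : ℝ) < 1 + w ^ 2 := by positivity
  have hr : 0 < r := by linarith
  have hw2 : 0 < 1 - w ^ 2 := by nlinarith
  have hba : 0 < 2 * w - (1 - w ^ 2) := by nlinarith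
  have hw41 : 41 / 100 ≤ w := by nlinarith
  set u := (2 * w / r - (1 - w ^ 2)) / (2 * w - (1 - w ^ 2)) with hu'
  have hu0 : 0 ≤ u := div_nonneg (sub_nonneg.2 ((le_div_iff₀ hr).2 hbr)) hba.le
  have hu1 : u ≤ 1 := (div_le_one hba).2 (by
    have : 2 * w / r ≤ 2 * w := div_le_self (by positivity) hr1.le
    linarith)
  have eu' : (2 * w - (1 - w ^ 2)) * u = 2 * w / r - (1 - w ^ 2) := by
    rw [hu', mul_div_cancel₀ _ hba.ne']
  have eD : 1 - w ^ 2 + (2 * w - (1 - w ^ 2)) * u = 2 * w / r := by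
    rw [eu']; ring
  have hD0 : 0 < 1 - w ^ 2 + (2 * w - (1 - w ^ 2)) * u := by rw [eD]; positivity
  have eu : 2 * w * (2 * w - (1 - w ^ 2)) * u = 2 * w * (2 * w / r - (1 - w ^ 2)) := by
    rw [mul_assoc, eu']
  have er : r = 2 * w / (1 - w ^ 2 + (2 * w - (1 - w ^ 2)) * u) := by rw [eD]; field_simp
  have ez : threeX w u / ((1 + w ^ 2) ^ 3 * (1 - w ^ 2 + (2 * w - (1 - w ^ 2)) * u) ^ 3) =
      (1 / 2 * (1 - w ^ 2) * (1 + w ^ 2) ^ 2 * r ^ 3
        + 3 / 2 * (2 * w - (1 - w ^ 2) * r) * (1 + w ^ 2) ^ 2 * r ^ 2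
        - (2 * w - (1 - w ^ 2) * r) ^ 3) / (1 + w ^ 2) ^ 3 := by
    rw [eD, threeX, eu]
    field_simp
  rw [← ez] at hz0 hx
  refine le_trans ?_ (margin_mono (by positivity) (by positivity) hr.le
    ((rat_le_sqrt hz0).trans (Real.sqrt_le_sqrt (by linarith))))
  set D := 1 - w ^ 2 + (2 * w - (1 - w ^ 2)) * u with hD
  have hden : 0 < (1 + w ^ 2) ^ 3 * D ^ 3 := by positivity
  have hX : 0 ≤ threeX w u := by
    have := mul_nonneg hz0 hden.le
    rwa [div_mul_cancel₀ _ hden.ne'] at this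
  have e : (4 + 3 * (threeX w u / ((1 + w ^ 2) ^ 3 * D ^ 3))) /
      (4 + threeX w u / ((1 + w ^ 2) ^ 3 * D ^ 3)) =
      (4 * ((1 + w ^ 2) ^ 3 * D ^ 3) + 3 * threeX w u) /
        (4 * ((1 + w ^ 2) ^ 3 * D ^ 3) + threeX w u) := by
    field_simp
  rw [e, er, margin_eq_num hN.ne' hD0.ne' (by positivity)]
  refine div_nonneg ?_ (by positivity)
  rw [hD]
  show 0 ≤ threeNum w u
  have := three_nonneg (w := 100 / 59 * (w - 41 / 100)) (s := u) (by linarith) (by linarith)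
    hu0 hu1
  rwa [show 41 / 100 + 59 / 100 * (100 / 59 * (w - 41 / 100)) = w by ring] at this

/-- The derivative along the hull homotopy is nonnegative. Here `x` bounds the relative excess of
`∫ f²` from below in the two cases `q + p r ≤ 1` and `1 ≤ q + p r`. -/
theorem margin_nonneg {p q r x : ℝ} (hc : p ^ 2 + q ^ 2 = 1) (hp : 0 < p) (hq : 0 < q)
    (hr : 0 < r) (hT : q * r ≤ p)
    (h1 : q + p * r ≤ 1 → r ^ 3 / 2 * (q + (q + 2 * p * r - q * r ^ 2) / (1 + r ^ 2)) ≤ x)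
    (h2 : 1 ≤ q + p * r →
      q * r ^ 3 / 2 + 3 / 2 * (p - q * r) * r ^ 2 - (p - q * r) ^ 3 ≤ x) :
    0 ≤ margin p q r √(1 + x) := by
  obtain ⟨w, hw, hw1, rfl, rfl⟩ := half_angle hc hp hq
  have hN0 : (0 : ℝ) < 1 + w ^ 2 := by positivity
  have ey : (1 - w ^ 2) / (1 + w ^ 2) + 2 * w / (1 + w ^ 2) * r =
      1 + 2 * w * (r - w) / (1 + w ^ 2) := by
    field_simp; ring
  rcases le_total r w with hrw | hrw
  · have hy : 2 * w * (r - w) / (1 + w ^ 2) ≤ 0 :=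
      div_nonpos_of_nonpos_of_nonneg (by nlinarith) hN0.le
    have hs1 : r / w ≤ 1 := (div_le_one hw).2 hrw
    have er : w * (r / w) = r := mul_div_cancel₀ r hw.ne'
    have hb := xlow_one hw.le (div_nonneg hr.le hw.le) hs1
    rw [er] at hb
    have := case_one hw hw1 (div_nonneg hr.le hw.le) hs1 (hb.trans (h1 (by rw [ey]; linarith)))
    rwa [er] at this
  · have hy : 0 ≤ 2 * w * (r - w) / (1 + w ^ 2) :=
      div_nonneg (mul_nonneg (by positivity) (sub_nonneg.2 hrw)) hN0.le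
    have hx := h2 (by rw [ey]; linarith)
    set q := (1 - w ^ 2) / (1 + w ^ 2) with hq'
    set p := 2 * w / (1 + w ^ 2) with hp'
    set T := p - q * r with hT'
    have hT0 : 0 ≤ T := sub_nonneg.2 hT
    have hTr : T ≤ r := by
      have : p ≤ r * (1 + q) := by
        have e : r * (1 + q) - p = (2 * r - 2 * w) / (1 + w ^ 2) := by
          simp only [p, q]; field_simp; ring
        have : 0 ≤ (2 * r - 2 * w) / (1 + w ^ 2) := div_nonneg (by linarith) hN0.le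
        linarith
      simp only [T]
      nlinarith
    have hz0 : 0 ≤ q * r ^ 3 / 2 + 3 / 2 * T * r ^ 2 - T ^ 3 := by
      have h3 : T ^ 2 ≤ r ^ 2 := pow_le_pow_left₀ hT0 hTr 2
      have h4 : 0 ≤ q * r ^ 3 := by positivity
      nlinarith [mul_le_mul_of_nonneg_left h3 hT0, mul_nonneg hT0 (sq_nonneg r)]
    have hbr : (1 - w ^ 2) * r ≤ 2 * w := by
      have := hT
      simp only [q, p, div_mul_eq_mul_div] at this
      rwa [div_le_div_iff_of_pos_right hN0] at this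
    rcases le_or_gt r 1 with hr1 | hr1
    · have hzb : q * r ^ 3 / 2 + 3 / 2 * T * r ^ 2 - T ^ 3 ≤ 907 / 1000 := by
        have hp1 : p ≤ 1 := by nlinarith
        have e : q * r ^ 3 = (p - T) * r ^ 2 := by simp only [T]; ring
        have hr2 : r ^ 2 ≤ 1 := pow_le_one₀ hr.le hr1
        have h5 : q * r ^ 3 / 2 + 3 / 2 * T * r ^ 2 - T ^ 3 ≤ (1 / 2 + T) - T ^ 3 := by
          rw [e]
          nlinarith [mul_le_mul_of_nonneg_left hr2 (show 0 ≤ 1 / 2 + T by linarith),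
            mul_le_mul_of_nonneg_right hp1 (sq_nonneg r)]
        nlinarith [mul_nonneg (sq_nonneg (T - 577 / 1000)) (show 0 ≤ T + 1154 / 1000 by linarith)]
      simp only [T, p, q, x_eq] at hz0 hzb hx
      exact case_two hw hw1 hrw hr1 hbr hz0 hzb hx
    · simp only [T, p, q, x_eq] at hz0 hx
      exact case_three hw hw1 hr1 hbr hz0 hx

end Vale.Agent.P237.Petty.Hull.Four
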