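import Vale.Agent.P237.Petty.Hull.FourTail
import Vale.Agent.P237.Petty.Even

/-!
# P237: the functional of dimension four grows along the hull homotopy
-/

namespace Vale.Agent.P237.Petty.Hull.Four

open Real Set MeasureTheory Filter Topology

/-- An even concave function strictly above the semicircle. -/
structure Lifted (F : ℝ → ℝ) : Prop where
  concave : ConcaveOn ℝ (Icc (-1) 1) F
  even : ∀ t, F (-t) = F t
  above : ∀ u ∈ Icc (-1 : ℝ) 1, √(1 - u ^ 2) < F u

variable {F : ℝ → ℝ}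

theorem Lifted.pos (h : Lifted F) {u : ℝ} (hu : u ∈ Icc (-1 : ℝ) 1) : 0 < F u :=
  (Real.sqrt_nonneg _).trans_lt (h.above u hu)

theorem Lifted.antitone (h : Lifted F) : AntitoneOn F (Icc 0 1) :=
  antitoneOn_of_concave_even h.concave h.even

theorem Lifted.continuousOn (h : Lifted F) : ContinuousOn F (Ioo (-1) 1) :=
  (h.concave.subset Ioo_subset_Icc_self (convex_Ioo _ _)).continuousOn isOpen_Ioo

theorem Lifted.intervalIntegrable (h : Lifted F) (n : ℕ) :
    IntervalIntegrable (fun u => F u ^ n) volume 0 1 := by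
  refine AntitoneOn.intervalIntegrable ?_
  rw [uIcc_of_le (zero_le_one' ℝ)]
  exact fun a ha b hb hab => pow_le_pow_left₀ (h.pos ⟨by linarith [hb.1], hb.2⟩).le
    (h.antitone ha hb hab) n

/-- The integrand of the third integral. -/
def densQ (F : ℝ → ℝ) (u : ℝ) : ℝ := F u ^ 5 - 5 * u ^ 2 * F u ^ 3

theorem Lifted.intervalIntegrable_densQ (h : Lifted F) :
    IntervalIntegrable (densQ F) volume 0 1 :=
  (h.intervalIntegrable 5).sub ((h.intervalIntegrable 3).continuousOn_mul (by fun_prop))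

theorem tailA_eq {p q r : ℝ} (hc : p ^ 2 + q ^ 2 = 1) :
    tailA p q r = 2 / 3 - (p - q * r) + (p - q * r) ^ 3 / 3 + q * r ^ 3 / 3 := by
  simp only [tailA]
  linear_combination (q * r + q * r ^ 3 / 3) * hc

theorem tailA_pos {p q r : ℝ} (hc : p ^ 2 + q ^ 2 = 1) (hp : 0 ≤ p) (hq : 0 < q) (hr : 0 < r) :
    0 < tailA p q r := by
  have hp1 : p ≤ 1 := by nlinarith
  have h : 0 ≤ 2 / 3 - p + p ^ 3 / 3 := by
    nlinarith [mul_nonneg (sq_nonneg (1 - p)) (show 0 ≤ 2 + p by linarith)]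
  simp only [tailA]
  have : 0 < q * (q ^ 2 * r + p * q * r ^ 2 + p ^ 2 * r ^ 3 / 3) := by positivity
  linarith

/-- The cone family `T = 0`, as a function of the height. -/
noncomputable def cone (y : ℝ) : ℝ :=
  gap (tailA (tp 0 y) (tq 0 y) (len 0 y)) (tailB (tp 0 y) (tq 0 y) (len 0 y))
    (tailM (tp 0 y) (tq 0 y) (len 0 y))

theorem continuous_tailA : Continuous fun z : ℝ × ℝ × ℝ => tailA z.1 z.2.1 z.2.2 := by
  unfold tailA; fun_prop

theorem continuous_tailB : Continuous fun z : ℝ × ℝ × ℝ => tailB z.1 z.2.1 z.2.2 := by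
  have := continuous_circTail
  unfold tailB; fun_prop

theorem continuous_tailM : Continuous fun z : ℝ × ℝ × ℝ => tailM z.1 z.2.1 z.2.2 := by
  unfold tailM; fun_prop

theorem continuous_gap : Continuous fun z : ℝ × ℝ × ℝ => gap z.1 z.2.1 z.2.2 := by
  unfold gap; fun_prop

theorem cone_one : cone 1 = 1 - 17 / 10 * circTail 0 := by
  have h1 : len 0 1 = 0 := by simp [len]
  have h2 : tp 0 1 = 0 := by simp [tp, h1]
  have h3 : tq 0 1 = 1 := by simp [tq, h1]
  simp only [cone, h1, h2, h3, gap, tailA, tailB, tailM]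
  norm_num

theorem continuousOn_cone : ContinuousOn cone (Ici 1) := by
  have hl : Continuous fun y : ℝ => len 0 y := by unfold len; fun_prop
  have hne : ∀ y ∈ Ici (1 : ℝ), y ^ 2 + (0 : ℝ) ^ 2 ≠ 0 := fun y hy => by
    have : (1 : ℝ) ≤ y := hy
    positivity
  have hp : ContinuousOn (fun y : ℝ => tp 0 y) (Ici 1) :=
    ContinuousOn.div (by fun_prop) (by fun_prop) hne
  have hq : ContinuousOn (fun y : ℝ => tq 0 y) (Ici 1) :=
    ContinuousOn.div (by fun_prop) (by fun_prop) hne
  have h3 := hp.prodMk (hq.prodMk hl.continuousOn)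
  exact continuous_gap.comp_continuousOn ((continuous_tailA.comp_continuousOn h3).prodMk
    ((continuous_tailB.comp_continuousOn h3).prodMk (continuous_tailM.comp_continuousOn h3)))

/-- The derivative of `gap` along a path, in terms of `margin`. -/
theorem gap_deriv_eq {p q r κ S : ℝ} :
    9 / 4 * S * (κ * q * r * (2 * (q / 2 + p * r / 3))) -
        17 / 10 * (κ * q * r * (3 * (q ^ 2 / 2 + 2 / 3 * p * q * r + p ^ 2 * r ^ 2 / 4))) +
        4 / 25 * (κ * q * r * densM p q r) = κ * q * r * margin p q r S := by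
  simp only [margin, densM]
  ring

theorem cone_mono : MonotoneOn cone (Ici 1) := by
  refine monotoneOn_of_hasDerivWithinAt_nonneg (convex_Ici 1) continuousOn_cone (f' := fun y =>
    1 * tq 0 y * len 0 y * margin (tp 0 y) (tq 0 y) (len 0 y)
      √(3 / 2 * tailA (tp 0 y) (tq 0 y) (len 0 y))) (fun y hy => ?_) fun y hy => ?_
  all_goals rw [interior_Ici] at hy
  all_goals have hy' : √(1 - (0 : ℝ) ^ 2) < y := by simpa using hy
  all_goals obtain ⟨hr, hp, hq, hc, eT, ey⟩ := tangent_facts le_rfl one_pos hy'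
  · rw [interior_Ici]
    obtain ⟨dR, dP, dQ⟩ := hasDerivWithinAt_data (τ := fun _ => (0 : ℝ)) (f := fun t => t) le_rfl
      one_pos hy' (hasDerivWithinAt_const y (Ioi 1) 0) (hasDerivWithinAt_id y (Ioi 1))
    simp only [zero_mul, zero_div, add_zero] at dR dP dQ
    obtain ⟨dA, dB, dM⟩ := hasDerivWithinAt_tails (P := fun t => tp 0 t) (Q := fun t => tq 0 t)
      (R := fun t => len 0 t) (α := (0 : ℝ)) (κ := (1 : ℝ)) hc hq hr.ne' dP dQ
      (by simpa [ey] using dR)
    refine (hasDerivWithinAt_gap dA dB dM (tailA_pos hc hp.le hq hr)).congr_deriv ?_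
    simp only [neg_zero, zero_mul, zero_add]
    exact gap_deriv_eq
  · refine mul_nonneg (by positivity) ?_
    set p := tp 0 y
    set q := tq 0 y
    set r := len 0 y
    have e : 3 / 2 * tailA p q r = 1 + q * r ^ 3 / 2 := by
      rw [tailA_eq hc, show p - q * r = 0 from eT]
      ring
    rw [e]
    refine margin_nonneg hc hp hq hr (by linarith) (fun h => ?_) fun _ => ?_
    · have : 1 < y := hy
      linarith
    · rw [show p - q * r = 0 from eT]
      simp

/-- The functional of the hull profile at `T`. -/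
noncomputable def hullGap (F : ℝ → ℝ) (T : ℝ) : ℝ :=
  gap ((∫ u in (0 : ℝ)..T, F u ^ 2) + tailA (tp T (F T)) (tq T (F T)) (len T (F T)))
    ((∫ u in (0 : ℝ)..T, F u ^ 3) + tailB (tp T (F T)) (tq T (F T)) (len T (F T)))
    ((∫ u in (0 : ℝ)..T, densQ F u) + tailM (tp T (F T)) (tq T (F T)) (len T (F T)))

theorem Lifted.continuousOn_data (h : Lifted F) {b : ℝ} (hb : b < 1) :
    ContinuousOn (fun T => (tp T (F T), tq T (F T), len T (F T))) (Icc 0 b) := by
  have hF : ContinuousOn F (Icc 0 b) :=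
    h.continuousOn.mono fun u hu => ⟨by linarith [hu.1], hu.2.trans_lt hb⟩
  have hne : ∀ T ∈ Icc 0 b, F T ^ 2 + T ^ 2 ≠ 0 := fun T hT => by
    have := h.pos (u := T) ⟨by linarith [hT.1], by linarith [hT.2]⟩
    positivity
  have hl : ContinuousOn (fun T => len T (F T)) (Icc 0 b) :=
    Real.continuous_sqrt.comp_continuousOn (((hF.pow 2).add (continuousOn_pow 2)).sub
      continuousOn_const)
  exact ((continuousOn_id.add (hF.mul hl)).div ((hF.pow 2).add (continuousOn_pow 2)) hne).prodMk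
    (((hF.sub (continuousOn_id.mul hl)).div ((hF.pow 2).add (continuousOn_pow 2)) hne).prodMk hl)

theorem Lifted.continuousOn_hullGap (h : Lifted F) {b : ℝ} (hb : b < 1) :
    ContinuousOn (hullGap F) (Icc 0 b) := by
  have hP : ∀ {g : ℝ → ℝ}, IntervalIntegrable g volume 0 1 →
      ContinuousOn (fun T => ∫ u in (0 : ℝ)..T, g u) (Icc 0 b) := fun hg => by
    refine (intervalIntegral.continuousOn_primitive_interval' hg left_mem_uIcc).mono ?_
    rw [uIcc_of_le (zero_le_one' ℝ)]
    exact Icc_subset_Icc_right hb.le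
  have hd := h.continuousOn_data hb
  exact continuous_gap.comp_continuousOn
    (((hP (h.intervalIntegrable 2)).add (continuous_tailA.comp_continuousOn hd)).prodMk
      (((hP (h.intervalIntegrable 3)).add (continuous_tailB.comp_continuousOn hd)).prodMk
        ((hP h.intervalIntegrable_densQ).add (continuous_tailM.comp_continuousOn hd))))

theorem hasDerivWithinAt_primitive {g : ℝ → ℝ}
    (hg : IntervalIntegrable g volume 0 1) (hc : ContinuousOn g (Ioo (-1) 1)) {T : ℝ}
    (hT : T ∈ Ico (0 : ℝ) 1) :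
    HasDerivWithinAt (fun x => ∫ u in (0 : ℝ)..x, g u) (g T) (Ici T) T := by
  refine (intervalIntegral.integral_hasDerivAt_right (hg.mono_set ?_)
    (hc.stronglyMeasurableAtFilter isOpen_Ioo T ⟨by linarith [hT.1], hT.2⟩)
    (hc.continuousAt (Ioo_mem_nhds (by linarith [hT.1]) hT.2))).hasDerivWithinAt
  rw [uIcc_of_le hT.1, uIcc_of_le (zero_le_one' ℝ)]
  exact Icc_subset_Icc_right hT.2.le

theorem Lifted.hullGap_deriv (h : Lifted F) {T : ℝ} (hT : T ∈ Ico (0 : ℝ) 1) :
    ∃ d, 0 ≤ d ∧ HasDerivWithinAt (hullGap F) d (Ici T) T := by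
  have hTI : T ∈ interior (Icc (-1 : ℝ) 1) := by
    rw [interior_Icc]
    exact ⟨by linarith [hT.1], hT.2⟩
  have hTm : T ∈ Icc (-1 : ℝ) 1 := interior_subset hTI
  have hT01 : T ∈ Icc (0 : ℝ) 1 := ⟨hT.1, hT.2.le⟩
  obtain ⟨hr, hp, hq, hc, eT, ey⟩ := tangent_facts hT.1 hT.2 (h.above T hTm)
  -- the right derivative
  have hG := (h.concave.neg).hasDerivWithinAt_rightDeriv_of_mem_interior hTI
  set g := derivWithin (-F) (Ioi T) T
  have hF : HasDerivWithinAt F (-g) (Ici T) T := by
    have := (hasDerivWithinAt_Ioi_iff_Ici.1 hG).neg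
    simpa using this
  set p := tp T (F T)
  set q := tq T (F T)
  set r := len T (F T)
  set y := F T
  have hp1 : p < 1 := tp_lt_one hT.1 hT.2 (h.above T hTm)
  have hη : 0 ≤ -g + 1 * p / q := by
    have hpI : p ∈ Icc (-1 : ℝ) 1 := ⟨by linarith, hp1.le⟩
    have hlt : T < p := by nlinarith [mul_pos hq hr]
    have h1 := (h.concave.neg).rightDeriv_le_slope_of_mem_interior hTI hpI hlt
    have h2 : q ≤ F p := by
      have := (h.above p hpI).le
      rwa [show 1 - p ^ 2 = q ^ 2 by linarith, Real.sqrt_sq hq.le] at this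
    rw [slope_def_field, show p - T = q * r by linarith] at h1
    simp only [Pi.neg_apply] at h1
    rw [le_div_iff₀ (mul_pos hq hr)] at h1
    have h3 : g * (q * r) ≤ p * r := by
      change g * (q * r) ≤ _ at h1
      linarith
    have h4 : g * q ≤ p := le_of_mul_le_mul_right (by linarith) hr
    have h5 : g ≤ p / q := (le_div_iff₀ hq).2 h4
    rw [one_mul]
    linarith
  obtain ⟨dR, dP, dQ⟩ := hasDerivWithinAt_data (τ := fun x => x) (f := F) hT.1 hT.2
    (h.above T hTm) (hasDerivWithinAt_id T (Ici T)) hF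
  obtain ⟨dA, dB, dM⟩ := hasDerivWithinAt_tails (P := fun t => tp t (F t))
    (Q := fun t => tq t (F t)) (R := fun t => len t (F t)) (α := (1 : ℝ)) (κ := -g + 1 * p / q)
    hc hq hr.ne'
    dP dQ (dR.congr_deriv (by rw [show q + p * r = F T from ey]))
  set κ := -g + 1 * p / q
  have cF := h.continuousOn
  have iA := hasDerivWithinAt_primitive (h.intervalIntegrable 2) (cF.pow 2) hT
  have iB := hasDerivWithinAt_primitive (h.intervalIntegrable 3) (cF.pow 3) hT
  have iM := hasDerivWithinAt_primitive h.intervalIntegrable_densQ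
    ((cF.pow 5).sub ((continuousOn_const.mul (continuousOn_pow 2)).mul (cF.pow 3))) hT
  -- the prefix bound
  have hi2 : IntervalIntegrable (fun u => F u ^ 2) volume 0 T := (h.intervalIntegrable 2).mono_set
    (by rw [uIcc_of_le hT.1, uIcc_of_le (zero_le_one' ℝ)]; exact Icc_subset_Icc_right hT.2.le)
  have hsplit : (∫ u in (0 : ℝ)..T, (F u ^ 2 - (1 - u ^ 2))) =
      (∫ u in (0 : ℝ)..T, F u ^ 2) - (T - T ^ 3 / 3) := by
    rw [intervalIntegral.integral_sub hi2 (Continuous.intervalIntegrable (by fun_prop) _ _)]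
    congr 1
    rw [intervalIntegral.integral_sub intervalIntegrable_const
      (Continuous.intervalIntegrable (by fun_prop) _ _), intervalIntegral.integral_const,
      integral_pow]
    simp only [smul_eq_mul]
    ring
  set L := ∫ u in (0 : ℝ)..T, (F u ^ 2 - (1 - u ^ 2))
  have hA : (∫ u in (0 : ℝ)..T, F u ^ 2) + tailA p q r = 2 / 3 + q * r ^ 3 / 3 + L := by
    rw [tailA_eq hc, show p - q * r = T from eT, hsplit]
    ring
  have hL : 0 ≤ L := intervalIntegral.integral_nonneg hT.1 fun u hu => by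
    have hu' : u ∈ Icc (-1 : ℝ) 1 := ⟨by linarith [hu.1], by linarith [hu.2, hT.2]⟩
    have := pow_le_pow_left₀ (Real.sqrt_nonneg _) (h.above u hu').le 2
    rw [Real.sq_sqrt (by nlinarith [hu'.1, hu'.2])] at this
    linarith
  have hA0 : 0 < (∫ u in (0 : ℝ)..T, F u ^ 2) + tailA p q r := by
    rw [hA]; positivity
  have hsq : y ^ 2 + T ^ 2 - 1 = r ^ 2 :=
    (len_sq (sq_gt (by nlinarith [hT.1, hT.2]) (h.above T hTm)).2.le).symm
  refine ⟨κ * q * r * margin p q r √(3 / 2 * ((∫ u in (0 : ℝ)..T, F u ^ 2) + tailA p q r)),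
    mul_nonneg (mul_nonneg (mul_nonneg hη hq.le) hr.le) ?_, ?_⟩
  · rw [hA, show 3 / 2 * (2 / 3 + q * r ^ 3 / 3 + L) = 1 + (q * r ^ 3 / 2 + 3 / 2 * L) by ring]
    refine margin_nonneg hc hp hq hr (by linarith [hT.1]) (fun hy => ?_) fun hy => ?_
    · rw [ey] at hy
      set b := (y + T * r) / (1 + r ^ 2) with hb
      have eb : (q + 2 * p * r - q * r ^ 2) / (1 + r ^ 2) = b := by
        rw [hb, ← ey, ← eT]; ring
      have hy0 : 0 < y := h.pos hTm
      have hT0 := hT.1
      have hb0 : 0 < b := by rw [hb]; positivity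
      have hge : y * r ≤ T := by
        nlinarith [mul_nonneg (sub_nonneg.2 (pow_le_one₀ hy0.le hy : y ^ 2 ≤ 1))
          (add_nonneg (sq_nonneg T) (sq_nonneg y)), mul_nonneg hy0.le hr.le]
      have hlow := prefix_low (a := (T - y * r) / (1 + r ^ 2)) (b := b) (y := y) (r := r)
        (h.concave.subset (Icc_subset_Icc (by norm_num) hT.2.le) (convex_Icc _ _))
        (fun u hu => (h.above u ⟨by linarith [hu.1], by linarith [hu.2, hT.2]⟩).le) hT.2.le
        (div_nonneg (sub_nonneg.2 hge) (by positivity)) hb0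
        (by rw [hb]; field_simp; linear_combination (1 + r ^ 2) * hsq) hr
        (by rw [hb]; field_simp; ring) (by rw [hb]; field_simp; ring) rfl hi2
      rw [eb]
      linarith
    · rw [ey] at hy
      have hy0 : 0 < y := h.pos hTm
      have hhigh := prefix_high hT.1 hy0.le (fun u hu => h.antitone ⟨hu.1, hu.2.trans hT.2.le⟩
        hT01 hu.2) hi2
      rw [show y ^ 2 - 1 = r ^ 2 - T ^ 2 by linarith] at hhigh
      rw [eT]
      linarith
  · refine (hasDerivWithinAt_gap (iA.fun_add dA) (iB.fun_add dB) (iM.fun_add dM) hA0).congr_deriv ?_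
    rw [← gap_deriv_eq]
    have e2 : F T ^ 2 = (q + p * r) ^ 2 := by rw [show q + p * r = F T from ey]
    have e3 : F T ^ 3 = (q + p * r) ^ 3 := by rw [show q + p * r = F T from ey]
    have e5 : densQ F T = (q + p * r) ^ 5 - 5 * (p - q * r) ^ 2 * (q + p * r) ^ 3 := by
      rw [show q + p * r = F T from ey, show p - q * r = T from eT]
      rfl
    rw [e2, e3, e5]
    ring

theorem Lifted.hullGap_mono (h : Lifted F) {b : ℝ} (hb0 : 0 ≤ b) (hb : b < 1) :
    hullGap F 0 ≤ hullGap F b := by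
  choose d hd using fun T : Ico (0 : ℝ) 1 => h.hullGap_deriv T.2
  classical
  set d' : ℝ → ℝ := fun T => if hT : T ∈ Ico (0 : ℝ) 1 then d ⟨T, hT⟩ else 0
  have key := image_le_of_deriv_right_le_deriv_boundary (f := fun T => -hullGap F T)
    (f' := fun T => -d' T) (h.continuousOn_hullGap hb).neg (fun T hT => by
      have hT' : T ∈ Ico (0 : ℝ) 1 := ⟨hT.1, hT.2.trans hb⟩
      simp only [d', dif_pos hT']
      exact (hd ⟨T, hT'⟩).2.neg)
    (B := fun _ => -hullGap F 0) (B' := fun _ => 0) le_rfl continuousOn_const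
    (fun T _ => hasDerivWithinAt_const T _ _) (fun T hT => by
      have hT' : T ∈ Ico (0 : ℝ) 1 := ⟨hT.1, hT.2.trans hb⟩
      simp only [d', dif_pos hT', neg_nonpos]
      exact (hd ⟨T, hT'⟩).1) (show b ∈ Icc 0 b from ⟨hb0, le_rfl⟩)
  linarith [key]

theorem Lifted.hullGap_zero (h : Lifted F) : 1 - 17 / 10 * circTail 0 ≤ hullGap F 0 := by
  have h1 : 1 < F 0 := by
    have := h.above 0 ⟨by norm_num, by norm_num⟩
    simpa using this
  have e : hullGap F 0 = cone (F 0) := by simp [hullGap, cone]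
  rw [e, ← cone_one]
  exact cone_mono self_mem_Ici h1.le h1.le

/-- The inequality for a lifted profile. -/
theorem Lifted.gap_ge (h : Lifted F) :
    1 - 17 / 10 * circTail 0 ≤ gap (∫ u in (0 : ℝ)..1, F u ^ 2) (∫ u in (0 : ℝ)..1, F u ^ 3)
      (∫ u in (0 : ℝ)..1, densQ F u) := by
  have hb : BddBelow (F '' Ioo (0 : ℝ) 1) :=
    ⟨0, by rintro _ ⟨t, ht, rfl⟩; exact (h.pos ⟨by linarith [ht.1], ht.2.le⟩).le⟩
  set l := sInf (F '' Ioo (0 : ℝ) 1)
  have hl0 : 0 ≤ l := le_csInf ((nonempty_Ioo.2 zero_lt_one).image F)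
    (by rintro _ ⟨t, ht, rfl⟩; exact (h.pos ⟨by linarith [ht.1], ht.2.le⟩).le)
  have hlim : Tendsto F (𝓝[<] 1) (𝓝 l) :=
    (h.antitone.mono Ioo_subset_Icc_self).tendsto_nhdsWithin_Ioo_left
      (nonempty_Ioo.2 zero_lt_one) hb
  have hid : Tendsto (fun T : ℝ => T) (𝓝[<] 1) (𝓝 1) := nhdsWithin_le_nhds
  have hev : ∀ᶠ T in 𝓝[<] (1 : ℝ), T ∈ Ioo (0 : ℝ) 1 := Ioo_mem_nhdsLT zero_lt_one
  have hlen : Tendsto (fun T => len T (F T)) (𝓝[<] 1) (𝓝 l) := by
    have h2 := ((hlim.pow 2).add (hid.pow 2)).sub_const 1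
    rw [show l ^ 2 + 1 ^ 2 - 1 = l ^ 2 by ring] at h2
    simpa [len, Real.sqrt_sq hl0] using h2.sqrt
  have hp : Tendsto (fun T => tp T (F T)) (𝓝[<] 1) (𝓝 1) := by
    refine tendsto_of_tendsto_of_tendsto_of_le_of_le' hid tendsto_const_nhds ?_ ?_
    · filter_upwards [hev] with T hT
      obtain ⟨hr, hp, hq, -, eT, -⟩ :=
        tangent_facts hT.1.le hT.2 (h.above T ⟨by linarith [hT.1], hT.2.le⟩)
      nlinarith [mul_pos hq hr]
    · filter_upwards [hev] with T hT
      exact (tp_lt_one hT.1.le hT.2 (h.above T ⟨by linarith [hT.1], hT.2.le⟩)).le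
  have hq : Tendsto (fun T => tq T (F T)) (𝓝[<] 1) (𝓝 0) := by
    have h2 := ((hp.pow 2).const_sub 1).sqrt
    rw [show √(1 - (1 : ℝ) ^ 2) = 0 by norm_num] at h2
    refine h2.congr' ?_
    filter_upwards [hev] with T hT
    obtain ⟨-, -, hq, hc, -, -⟩ :=
      tangent_facts hT.1.le hT.2 (h.above T ⟨by linarith [hT.1], hT.2.le⟩)
    rw [show 1 - tp T (F T) ^ 2 = tq T (F T) ^ 2 by linarith, Real.sqrt_sq hq.le]
  have h3 := hp.prodMk_nhds (hq.prodMk_nhds hlen)
  have hP : ∀ {g : ℝ → ℝ}, IntervalIntegrable g volume 0 1 →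
      Tendsto (fun T => ∫ u in (0 : ℝ)..T, g u) (𝓝[<] 1) (𝓝 (∫ u in (0 : ℝ)..1, g u)) := by
    intro g hg
    have hc := intervalIntegral.continuousOn_primitive_interval' hg left_mem_uIcc
    rw [uIcc_of_le (zero_le_one' ℝ)] at hc
    refine (hc 1 ⟨zero_le_one, le_rfl⟩).tendsto.mono_left ?_
    rw [← nhdsWithin_Ioo_eq_nhdsLT (zero_lt_one' ℝ)]
    exact nhdsWithin_mono _ Ioo_subset_Icc_self
  have tA := (hP (h.intervalIntegrable 2)).add ((continuous_tailA.tendsto _).comp h3)
  have tB := (hP (h.intervalIntegrable 3)).add ((continuous_tailB.tendsto _).comp h3)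
  have tM := (hP h.intervalIntegrable_densQ).add ((continuous_tailM.tendsto _).comp h3)
  have h0 : circTail 1 = 0 := intervalIntegral.integral_same
  simp only [tailA, tailB, tailM, h0] at tA tB tM
  norm_num at tA tB tM
  refine ge_of_tendsto ((continuous_gap.tendsto _).comp (tA.prodMk_nhds (tB.prodMk_nhds tM))) ?_
  filter_upwards [hev] with T hT
  refine h.hullGap_zero.trans ((h.hullGap_mono hT.1.le hT.2).trans ?_)
  simp [hullGap, tailA, tailB, tailM]

end Vale.Agent.P237.Petty.Hull.Four
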