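import Vale.Agent.P237.Petty.Hull.Tangent
import Vale.Agent.P237.Petty.Hull.FourMargin

/-!
# P237: the hull homotopy in dimension four

`tailA`, `tailB`, `tailM` are the integrals of `f²`, `f³` and `f⁵ - 5 u² f³` over `[T, 1]` for the
profile that follows the tangent line from `(T, f T)` and then the unit circle, written in the
tangent data `(p, q, r)`.
-/

namespace Vale.Agent.P237.Petty.Hull.Four

open Real Set MeasureTheory Filter Topology

/-- The integral of the cube of the semicircle over `[x, 1]`. -/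
noncomputable def circTail (x : ℝ) : ℝ := ∫ u in x..1, √(1 - u ^ 2) ^ 3

theorem hasDerivAt_circTail (x : ℝ) : HasDerivAt circTail (-√(1 - x ^ 2) ^ 3) x := by
  have hc : Continuous fun u : ℝ => √(1 - u ^ 2) ^ 3 := by fun_prop
  exact intervalIntegral.integral_hasDerivAt_left (hc.intervalIntegrable _ _)
    hc.aestronglyMeasurable.stronglyMeasurableAtFilter hc.continuousAt

theorem continuous_circTail : Continuous circTail :=
  continuous_iff_continuousAt.2 fun x => (hasDerivAt_circTail x).continuousAt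

noncomputable def tailA (p q r : ℝ) : ℝ :=
  q * (q ^ 2 * r + p * q * r ^ 2 + p ^ 2 * r ^ 3 / 3) + (2 / 3 - p + p ^ 3 / 3)

noncomputable def tailB (p q r : ℝ) : ℝ :=
  q * (q ^ 3 * r + 3 / 2 * p * q ^ 2 * r ^ 2 + p ^ 2 * q * r ^ 3 + p ^ 3 * r ^ 4 / 4) + circTail p

noncomputable def tailM (p q r : ℝ) : ℝ :=
  q * (q ^ 3 * (q ^ 2 - 5 * p ^ 2) * r
    + (q ^ 3 * (12 * p * q) + 3 * p * q ^ 2 * (q ^ 2 - 5 * p ^ 2)) * r ^ 2 / 2
    + (q ^ 3 * (p ^ 2 - 5 * q ^ 2) + 3 * p * q ^ 2 * (12 * p * q)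
      + 3 * p ^ 2 * q * (q ^ 2 - 5 * p ^ 2)) * r ^ 3 / 3
    + (3 * p * q ^ 2 * (p ^ 2 - 5 * q ^ 2) + 3 * p ^ 2 * q * (12 * p * q)
      + p ^ 3 * (q ^ 2 - 5 * p ^ 2)) * r ^ 4 / 4
    + (3 * p ^ 2 * q * (p ^ 2 - 5 * q ^ 2) + p ^ 3 * (12 * p * q)) * r ^ 5 / 5
    + p ^ 3 * (p ^ 2 - 5 * q ^ 2) * r ^ 6 / 6)
  - p * q ^ 5

/-- The density of the derivative of `tailM`, divided by `r²`. -/
noncomputable def densM (p q r : ℝ) : ℝ :=
  q ^ 2 * (20 * q ^ 2 - 15) / 2 + p * q * (80 * q ^ 2 - 30) / 3 * r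
    + (-15 / 4 + 30 * p ^ 2 * q ^ 2) * r ^ 2 + p * q * (10 - 16 * q ^ 2) * r ^ 3
    + (1 - q ^ 2) * (5 - 20 * q ^ 2) / 6 * r ^ 4

/-- The functional: `A'^(3/2) - 1.7 B + 0.16 M`. -/
noncomputable def gap (a b m : ℝ) : ℝ :=
  3 / 2 * a * √(3 / 2 * a) - 17 / 10 * b + 4 / 25 * m

theorem hasDerivWithinAt_gap {a b m : ℝ → ℝ} {a' b' m' T : ℝ} {s : Set ℝ}
    (ha : HasDerivWithinAt a a' s T) (hb : HasDerivWithinAt b b' s T)
    (hm : HasDerivWithinAt m m' s T) (h : 0 < a T) :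
    HasDerivWithinAt (fun x => gap (a x) (b x) (m x))
      (9 / 4 * √(3 / 2 * a T) * a' - 17 / 10 * b' + 4 / 25 * m') s T := by
  have h2 : 0 < √(3 / 2 * a T) := Real.sqrt_pos.2 (by linarith)
  have hA := ha.const_mul (3 / 2 : ℝ)
  refine (((hA.mul (hA.sqrt (by positivity))).sub (hb.const_mul (17 / 10 : ℝ))).add
    (hm.const_mul (4 / 25 : ℝ))).congr_deriv ?_
  have e := Real.sq_sqrt (show (0 : ℝ) ≤ 3 / 2 * a T by positivity)
  generalize √(3 / 2 * a T) = S at e h2 ⊢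
  field_simp
  linear_combination (-(6000 * a')) * e

/-- The derivative of the three tails along a path of tangent data. -/
theorem hasDerivWithinAt_tails {P Q R : ℝ → ℝ} {x α κ : ℝ} {s : Set ℝ}
    (hc : P x ^ 2 + Q x ^ 2 = 1) (hq : 0 < Q x) (hr : R x ≠ 0)
    (hP : HasDerivWithinAt P (Q x ^ 2 * κ / R x) s x)
    (hQ : HasDerivWithinAt Q (-P x * Q x * κ / R x) s x)
    (hR : HasDerivWithinAt R (-α / Q x + (Q x + P x * R x) * κ / R x) s x) :
    HasDerivWithinAt (fun t => tailA (P t) (Q t) (R t))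
      (-α * (Q x + P x * R x) ^ 2 + κ * Q x * R x * (2 * (Q x / 2 + P x * R x / 3))) s x ∧
    HasDerivWithinAt (fun t => tailB (P t) (Q t) (R t))
      (-α * (Q x + P x * R x) ^ 3 + κ * Q x * R x *
        (3 * (Q x ^ 2 / 2 + 2 / 3 * P x * Q x * R x + P x ^ 2 * R x ^ 2 / 4))) s x ∧
    HasDerivWithinAt (fun t => tailM (P t) (Q t) (R t))
      (-α * ((Q x + P x * R x) ^ 5 - 5 * (P x - Q x * R x) ^ 2 * (Q x + P x * R x) ^ 3)
        + κ * Q x * R x * densM (P x) (Q x) (R x)) s x := by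
  have hG := (hasDerivAt_circTail (P x)).comp_hasDerivWithinAt x hP
  have e3 : √(1 - P x ^ 2) = Q x := by
    rw [show 1 - P x ^ 2 = Q x ^ 2 by linarith, Real.sqrt_sq hq.le]
  have hq' := hq.ne'
  have kQ := fun n : ℕ => hQ.fun_pow n
  have kP := fun n : ℕ => hP.fun_pow n
  have kR := fun n : ℕ => hR.fun_pow n
  refine ⟨?_, ?_, ?_⟩
  · have h := (hQ.fun_mul ((((kQ 2).fun_mul hR).fun_add ((hP.fun_mul hQ).fun_mul (kR 2))).fun_add
      (((kP 2).fun_mul (kR 3)).div_const 3))).fun_add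
        (((hP.const_sub (2 / 3 : ℝ))).fun_add ((kP 3).div_const 3))
    refine h.congr_deriv ?_
    push_cast
    field_simp
    linear_combination (3 * κ * Q x ^ 2 + 3 * κ * Q x ^ 2 * R x ^ 2
      + 2 * κ * P x * Q x * R x ^ 3) * hc
  · have h := (hQ.fun_mul (((((kQ 3).fun_mul hR).fun_add
      (((hP.const_mul (3 / 2 : ℝ)).fun_mul (kQ 2)).fun_mul (kR 2))).fun_add
        (((kP 2).fun_mul hQ).fun_mul (kR 3))).fun_add
          (((kP 3).fun_mul (kR 4)).div_const 4))).fun_add hG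
    refine h.congr_deriv ?_
    push_cast
    rw [e3]
    field_simp
    linear_combination (12 * κ * Q x ^ 3 * R x ^ 2 + 16 * κ * P x * Q x ^ 2 * R x ^ 3
      + 6 * κ * P x ^ 2 * Q x * R x ^ 4) * hc
  · have A1 := (kQ 2).fun_sub ((kP 2).const_mul (5 : ℝ))
    have A2 := (hP.const_mul (12 : ℝ)).fun_mul hQ
    have A3 := (kP 2).fun_sub ((kQ 2).const_mul (5 : ℝ))
    have L1 := (hP.const_mul (3 : ℝ)).fun_mul (kQ 2)
    have L2 := ((kP 2).const_mul (3 : ℝ)).fun_mul hQ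
    have t1 := ((kQ 3).fun_mul A1).fun_mul hR
    have t2 := ((((kQ 3).fun_mul A2).fun_add (L1.fun_mul A1)).fun_mul (kR 2)).div_const 2
    have t3 := (((((kQ 3).fun_mul A3).fun_add (L1.fun_mul A2)).fun_add (L2.fun_mul A1)).fun_mul
      (kR 3)).div_const 3
    have t4 := ((((L1.fun_mul A3).fun_add (L2.fun_mul A2)).fun_add ((kP 3).fun_mul A1)).fun_mul
      (kR 4)).div_const 4
    have t5 := (((L2.fun_mul A3).fun_add ((kP 3).fun_mul A2)).fun_mul (kR 5)).div_const 5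
    have t6 := (((kP 3).fun_mul A3).fun_mul (kR 6)).div_const 6
    have h := (hQ.fun_mul (((((t1.fun_add t2).fun_add t3).fun_add t4).fun_add t5).fun_add
      t6)).fun_sub (hP.fun_mul (kQ 5))
    refine h.congr_deriv ?_
    push_cast
    unfold densM
    field_simp
    linear_combination
      ((-2700) * κ * Q x * R x ^ 4
      + (600) * κ * Q x * R x ^ 6
      + (-5400) * κ * Q x ^ 3 * R x ^ 2
      + (-2700) * κ * Q x ^ 3 * R x ^ 4
      + (-2400) * κ * Q x ^ 3 * R x ^ 6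
      + (1800) * κ * Q x ^ 5 * R x ^ 2
      + (-2700) * κ * Q x ^ 5 * R x ^ 4
      + (-7200) * κ * P x * Q x ^ 2 * R x ^ 3
      + (7200) * κ * P x * Q x ^ 2 * R x ^ 5
      + (12000) * κ * P x * Q x ^ 4 * R x ^ 3
      + (-4320) * κ * P x * Q x ^ 4 * R x ^ 5
      + (-2700) * κ * P x ^ 2 * Q x * R x ^ 4
      + (600) * κ * P x ^ 2 * Q x * R x ^ 6
      + (-5400) * κ * P x ^ 2 * Q x ^ 3 * R x ^ 2
      + (16200) * κ * P x ^ 2 * Q x ^ 3 * R x ^ 4
      + (-1800) * κ * P x ^ 2 * Q x ^ 3 * R x ^ 6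
      + (-7200) * κ * P x ^ 3 * Q x ^ 2 * R x ^ 3
      + (7200) * κ * P x ^ 3 * Q x ^ 2 * R x ^ 5
      + (-2700) * κ * P x ^ 4 * Q x * R x ^ 4
      + (600) * κ * P x ^ 4 * Q x * R x ^ 6) * hc

end Vale.Agent.P237.Petty.Hull.Four
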