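import Mathlib

/-!
# P237: the tangent data of the hull of a point and the unit circle

From a point `(T, y)` above the unit circle the right tangent line touches the circle at `(p, q)`
after the length `r`, so that `T = p - q r` and `y = q + p r`. Along a curve whose velocity
is `(α, -α p / q + η)` the three numbers move by `p' = q² η / r`, `q' = - p q η / r` and
`r' = - α / q + y η / r`.
-/

namespace Vale.Agent.P237.Petty.Hull

open Real Set MeasureTheory

/-- The length of the tangent from `(T, y)`. -/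
noncomputable def len (T y : ℝ) : ℝ := √(y ^ 2 + T ^ 2 - 1)

/-- The abscissa of the right touching point. -/
noncomputable def tp (T y : ℝ) : ℝ := (T + y * len T y) / (y ^ 2 + T ^ 2)

/-- The ordinate of the right touching point. -/
noncomputable def tq (T y : ℝ) : ℝ := (y - T * len T y) / (y ^ 2 + T ^ 2)

theorem sq_gt {T y : ℝ} (hT : T ^ 2 ≤ 1) (hy : √(1 - T ^ 2) < y) :
    0 < y ∧ 1 < y ^ 2 + T ^ 2 := by
  have h0 : 0 ≤ √(1 - T ^ 2) := Real.sqrt_nonneg _
  have hs := Real.sq_sqrt (show (0 : ℝ) ≤ 1 - T ^ 2 by linarith)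
  exact ⟨by linarith, by nlinarith⟩

theorem len_sq {T y : ℝ} (h : 1 ≤ y ^ 2 + T ^ 2) : len T y ^ 2 = y ^ 2 + T ^ 2 - 1 :=
  Real.sq_sqrt (by linarith)

theorem len_pos {T y : ℝ} (h : 1 < y ^ 2 + T ^ 2) : 0 < len T y :=
  Real.sqrt_pos.2 (by linarith)

/-- The basic relations. -/
theorem tangent_facts {T y : ℝ} (hT : 0 ≤ T) (hT1 : T < 1) (hy : √(1 - T ^ 2) < y) :
    0 < len T y ∧ 0 < tp T y ∧ 0 < tq T y ∧ tp T y ^ 2 + tq T y ^ 2 = 1 ∧
      tp T y - tq T y * len T y = T ∧ tq T y + tp T y * len T y = y := by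
  have hT2 : T ^ 2 < 1 := by nlinarith
  obtain ⟨hy0, h1⟩ := sq_gt hT2.le hy
  have hr := len_pos h1
  have hr2 := len_sq h1.le
  have hS : (0 : ℝ) < y ^ 2 + T ^ 2 := by linarith
  have hlt : T * len T y < y := by
    nlinarith [mul_pos (show (0 : ℝ) < 1 - T ^ 2 by linarith) hS, mul_nonneg hT hr.le]
  refine ⟨hr, div_pos (by nlinarith [mul_pos hy0 hr]) hS, div_pos (by linarith) hS, ?_, ?_, ?_⟩
  · unfold tp tq
    field_simp
    linear_combination (y ^ 2 + T ^ 2) * hr2
  · unfold tp tq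
    field_simp
    linear_combination T * hr2
  · unfold tp tq
    field_simp
    linear_combination y * hr2

theorem tp_lt_one {T y : ℝ} (hT : 0 ≤ T) (hT1 : T < 1) (hy : √(1 - T ^ 2) < y) : tp T y < 1 := by
  obtain ⟨-, hp, hq, hc, -, -⟩ := tangent_facts hT hT1 hy
  nlinarith [mul_pos hq hq]

/-- The motion of the tangent data along a curve `(τ, f)` above the circle. -/
theorem hasDerivWithinAt_data {τ f : ℝ → ℝ} {x α σ : ℝ} {s : Set ℝ} (hT : 0 ≤ τ x) (hT1 : τ x < 1)
    (hy : √(1 - τ x ^ 2) < f x) (hτ : HasDerivWithinAt τ α s x) (hf : HasDerivWithinAt f σ s x) :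
    let p := tp (τ x) (f x)
    let q := tq (τ x) (f x)
    let r := len (τ x) (f x)
    let η := σ + α * p / q
    HasDerivWithinAt (fun t => len (τ t) (f t)) (-α / q + f x * η / r) s x ∧
      HasDerivWithinAt (fun t => tp (τ t) (f t)) (q ^ 2 * η / r) s x ∧
      HasDerivWithinAt (fun t => tq (τ t) (f t)) (-p * q * η / r) s x := by
  intro p q r η
  obtain ⟨hr, hp, hq, hc, eT, ey⟩ := tangent_facts hT hT1 hy
  obtain ⟨hy0, h1⟩ := sq_gt (by nlinarith) hy
  have hS : HasDerivWithinAt (fun t => f t ^ 2 + τ t ^ 2) (2 * f x * σ + 2 * τ x * α) s x := by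
    refine ((hf.pow 2).add (hτ.pow 2)).congr_deriv ?_
    push_cast
    ring
  have hS0 : f x ^ 2 + τ x ^ 2 ≠ 0 := by positivity
  have hq' : q ≠ 0 := hq.ne'
  have hr' : r ≠ 0 := hr.ne'
  have hlen : HasDerivWithinAt (fun t => len (τ t) (f t)) (-α / q + f x * η / r) s x := by
    refine ((hS.sub_const 1).sqrt (by linarith)).congr_deriv ?_
    change (2 * f x * σ + 2 * τ x * α) / (2 * r) = _
    simp only [η]
    field_simp
    linear_combination α * p * ey - α * q * eT - α * r * hc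
  have hr2 : f x ^ 2 + τ x ^ 2 = 1 + r ^ 2 := by
    have := len_sq h1.le
    linarith
  refine ⟨hlen, ?_, ?_⟩
  · refine ((hτ.add (hf.mul hlen)).div hS hS0).congr_deriv ?_
    change ((α + (σ * r + f x * (-α / q + f x * η / r))) * (f x ^ 2 + τ x ^ 2) -
      (τ x + f x * r) * (2 * f x * σ + 2 * τ x * α)) / (f x ^ 2 + τ x ^ 2) ^ 2 = _
    rw [hr2, show f x = q + p * r from ey.symm, show τ x = p - q * r from eT.symm]
    simp only [η]
    field_simp
    linear_combination (-(r ^ 2 * (1 + r ^ 2) * (σ * q - α * p))) * hc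
  · refine ((hf.sub (hτ.mul hlen)).div hS hS0).congr_deriv ?_
    change ((σ - (α * r + τ x * (-α / q + f x * η / r))) * (f x ^ 2 + τ x ^ 2) -
      (f x - τ x * r) * (2 * f x * σ + 2 * τ x * α)) / (f x ^ 2 + τ x ^ 2) ^ 2 = _
    rw [hr2, show f x = q + p * r from ey.symm, show τ x = p - q * r from eT.symm]
    simp only [η]
    field_simp
    linear_combination (-(r * (1 + r ^ 2) * (σ * q + α * p - 2 * α * q * r))) * hc

/-- The lower bound for a profile to the left of `T` when `1 ≤ y`. -/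
theorem prefix_high {f : ℝ → ℝ} {T y : ℝ} (hT : 0 ≤ T) (hy0 : 0 ≤ y)
    (hle : ∀ u ∈ Icc 0 T, y ≤ f u) (hi : IntervalIntegrable (fun u => f u ^ 2) volume 0 T) :
    T * (y ^ 2 - 1) + T ^ 3 / 3 ≤ ∫ u in (0 : ℝ)..T, (f u ^ 2 - (1 - u ^ 2)) := by
  have e : ∫ u in (0 : ℝ)..T, (y ^ 2 - (1 - u ^ 2)) = T * (y ^ 2 - 1) + T ^ 3 / 3 := by
    rw [intervalIntegral.integral_sub intervalIntegrable_const
      (Continuous.intervalIntegrable (by fun_prop) _ _), intervalIntegral.integral_const,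
      intervalIntegral.integral_sub intervalIntegrable_const
      (Continuous.intervalIntegrable (by fun_prop) _ _), intervalIntegral.integral_const,
      integral_pow]
    simp only [smul_eq_mul]
    ring
  rw [← e]
  refine intervalIntegral.integral_mono_on hT (Continuous.intervalIntegrable (by fun_prop) _ _)
    (hi.sub (Continuous.intervalIntegrable (by fun_prop) _ _)) fun u hu => ?_
  have := pow_le_pow_left₀ hy0 (hle u hu) 2
  linarith

/-- The lower bound for a profile to the left of `T` when `y ≤ 1`: the left tangent. -/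
theorem prefix_low {f : ℝ → ℝ} {a b T y r : ℝ} (hconc : ConcaveOn ℝ (Icc 0 T) f)
    (hge : ∀ u ∈ Icc 0 T, √(1 - u ^ 2) ≤ f u) (hT1 : T ≤ 1) (ha : 0 ≤ a) (hb : 0 < b)
    (hab : a ^ 2 + b ^ 2 = 1) (hr : 0 < r) (eT : a + b * r = T) (ey : b - a * r = y)
    (hfT : f T = y) (hi : IntervalIntegrable (fun u => f u ^ 2) volume 0 T) :
    b * r ^ 3 / 3 ≤ ∫ u in (0 : ℝ)..T, (f u ^ 2 - (1 - u ^ 2)) := by
  have haT : a < T := by nlinarith [mul_pos hb hr]
  have hT0 : 0 ≤ T := ha.trans haT.le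
  have hfa : b ≤ f a := by
    have := hge a ⟨ha, haT.le⟩
    rwa [show 1 - a ^ 2 = b ^ 2 by linarith, Real.sqrt_sq hb.le] at this
  have hline : ∀ u ∈ Icc a T, (1 - a * u) / b ≤ f u := by
    intro u hu
    have hd : 0 < T - a := sub_pos.2 haT
    have h := hconc.2 (⟨ha, haT.le⟩ : a ∈ Icc 0 T) (⟨hT0, le_rfl⟩ : T ∈ Icc 0 T)
      (div_nonneg (sub_nonneg.2 hu.2) hd.le) (div_nonneg (sub_nonneg.2 hu.1) hd.le)
      (by field_simp; ring)
    simp only [smul_eq_mul] at h
    rw [show (T - u) / (T - a) * a + (u - a) / (T - a) * T = u by field_simp; ring, hfT] at h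
    refine le_trans ?_ (le_trans (add_le_add (mul_le_mul_of_nonneg_left hfa
      (div_nonneg (sub_nonneg.2 hu.2) hd.le)) le_rfl) h)
    refine le_of_eq ?_
    field_simp
    rw [← eT, ← ey]
    linear_combination (-r * b) * hab + (a * r) * hab - (a * r) * hab
  have hi' : IntervalIntegrable (fun u => f u ^ 2 - (1 - u ^ 2)) volume 0 T :=
    hi.sub (Continuous.intervalIntegrable (by fun_prop) _ _)
  have hnn : ∀ u ∈ Icc 0 T, 0 ≤ f u ^ 2 - (1 - u ^ 2) := by
    intro u hu
    have h := pow_le_pow_left₀ (Real.sqrt_nonneg _) (hge u hu) 2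
    rw [Real.sq_sqrt (by nlinarith [hu.1, hu.2])] at h
    linarith
  have e : ∫ u in a..T, (u - a) ^ 2 / b ^ 2 = b * r ^ 3 / 3 := by
    rw [intervalIntegral.integral_div, intervalIntegral.integral_comp_sub_right (fun v => v ^ 2) a,
      integral_pow, ← eT]
    field_simp
    ring
  rw [← e]
  refine le_trans ?_ (intervalIntegral.integral_mono_interval ha haT.le le_rfl
    ((ae_restrict_mem measurableSet_Ioc).mono fun u hu => hnn u (Ioc_subset_Icc_self hu)) hi')
  refine intervalIntegral.integral_mono_on haT.le (Continuous.intervalIntegrable (by fun_prop) _ _)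
    (hi'.mono_set (by rw [uIcc_of_le haT.le, uIcc_of_le hT0]; exact Icc_subset_Icc_left ha))
    fun u hu => ?_
  have h0 : 0 ≤ (1 - a * u) / b := by
    refine div_nonneg ?_ hb.le
    nlinarith [hu.1, hu.2]
  have h := pow_le_pow_left₀ h0 (hline u hu) 2
  have e2 : (u - a) ^ 2 / b ^ 2 = ((1 - a * u) / b) ^ 2 - (1 - u ^ 2) := by
    rw [div_pow, eq_sub_iff_add_eq, ← mul_right_inj' (pow_ne_zero 2 hb.ne')]
    field_simp
    linear_combination (1 - u ^ 2) * hab
  linarith

end Vale.Agent.P237.Petty.Hull
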